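import Vale.Agent.P262B.Defs

open MeasureTheory ProbabilityTheory
open scoped ENNReal NNReal Pointwise

namespace Vale.Agent.P262B

theorem A1.compact_add {A B C : Set ℝ} (hA : IsCompact A) (hB : IsCompact B)
    (hAn : A.Nonempty) (hBn : B.Nonempty) (H : ∀ x ∈ A, ∀ y ∈ B, x + y ∈ C) :
    volume A + volume B ≤ volume C := by
  obtain ⟨a, haA, ha⟩ := hA.exists_isGreatest hAn
  obtain ⟨b, hbB, hb⟩ := hB.exists_isLeast hBn
  have h1 : volume (b +ᵥ A) = volume A := measure_vadd _ _ _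
  have h2 : volume (a +ᵥ B) = volume B := measure_vadd _ _ _
  have hmB : MeasurableSet (a +ᵥ B) := hB.measurableSet.const_vadd a
  have hd : AEDisjoint volume (b +ᵥ A) (a +ᵥ B) := by
    refine measure_mono_null (t := {a + b}) ?_ (by simp)
    rintro z ⟨⟨x, hx, rfl⟩, ⟨y, hy, hxy⟩⟩
    have e1 : x ≤ a := ha hx
    have e2 : b ≤ y := hb hy
    simp only [vadd_eq_add, Set.mem_singleton_iff] at hxy ⊢
    linarith
  rw [← h1, ← h2, ← measure_union₀ hmB.nullMeasurableSet hd]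
  apply measure_mono
  rintro z (⟨x, hx, rfl⟩ | ⟨y, hy, rfl⟩)
  · have := H x hx b hbB
    simpa [vadd_eq_add, add_comm] using this
  · exact H a haA y hy

theorem A1.measurable_add {A B C : Set ℝ} (hA : MeasurableSet A) (hB : MeasurableSet B)
    (hAn : A.Nonempty) (hBn : B.Nonempty) (H : ∀ x ∈ A, ∀ y ∈ B, x + y ∈ C) :
    volume A + volume B ≤ volume C := by
  rcases eq_or_ne (volume A) 0 with hA0 | hA0
  · obtain ⟨a, ha⟩ := hAn
    rw [hA0, zero_add, ← measure_vadd volume a B]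
    apply measure_mono
    rintro z ⟨y, hy, rfl⟩
    exact H a ha y hy
  rcases eq_or_ne (volume B) 0 with hB0 | hB0
  · obtain ⟨b, hb⟩ := hBn
    rw [hB0, add_zero, ← measure_vadd volume b A]
    apply measure_mono
    rintro z ⟨y, hy, rfl⟩
    have := H y hy b hb
    simpa [vadd_eq_add, add_comm] using this
  by_contra hlt
  push Not at hlt
  obtain ⟨a', ha', b', hb', hab⟩ := ENNReal.exists_lt_add_of_lt_add hlt hA0 hB0
  obtain ⟨K, hK, hKc, hKa⟩ := hA.exists_lt_isCompact ha'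
  obtain ⟨K', hK', hKc', hKb⟩ := hB.exists_lt_isCompact hb'
  have hKn : K.Nonempty := by
    rw [Set.nonempty_iff_ne_empty]
    rintro rfl
    simp at hKa
  have hKn' : K'.Nonempty := by
    rw [Set.nonempty_iff_ne_empty]
    rintro rfl
    simp at hKb
  have := A1.compact_add hKc hKc' hKn hKn' (C := C)
    (fun x hx y hy => H x (hK hx) y (hK' hy))
  exact absurd (hab.trans (ENNReal.add_lt_add hKa hKb)) (not_lt.2 this)

theorem A1.volume_smul {r : ℝ} (hr : 0 < r) (s : Set ℝ) :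
    volume (r • s) = ENNReal.ofReal r * volume s := by
  rw [Measure.addHaar_smul]
  simp [abs_of_pos hr]

/-- **A1a. One-dimensional Brunn–Minkowski.** -/
theorem volume_combo_ge {θ : ℝ} (h0 : 0 < θ) (h1 : θ < 1) {A B C : Set ℝ}
    (hA : MeasurableSet A) (hB : MeasurableSet B) (hC : MeasurableSet C)
    (hAn : A.Nonempty) (hBn : B.Nonempty)
    (H : ∀ x ∈ A, ∀ y ∈ B, (1 - θ) * x + θ * y ∈ C) :
    ENNReal.ofReal (1 - θ) * volume A + ENNReal.ofReal θ * volume B ≤ volume C := by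
  have h1' : 0 < 1 - θ := by linarith
  rw [← A1.volume_smul h1', ← A1.volume_smul h0]
  refine A1.measurable_add (hA.const_smul_of_ne_zero h1'.ne') (hB.const_smul_of_ne_zero h0.ne')
    hAn.smul_set hBn.smul_set ?_
  rintro _ ⟨x, hx, rfl⟩ _ ⟨y, hy, rfl⟩
  exact H x hx y hy

theorem A1.amgm {θ : ℝ} (h0 : 0 < θ) (h1 : θ < 1) (a b : ℝ≥0∞) :
    a ^ (1 - θ) * b ^ θ ≤ ENNReal.ofReal (1 - θ) * a + ENNReal.ofReal θ * b := by
  have h1' : 0 < 1 - θ := by linarith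
  rcases eq_or_ne a ⊤ with rfl | ha
  · rw [ENNReal.mul_top (by simpa using h1'), top_add]
    exact le_top
  rcases eq_or_ne b ⊤ with rfl | hb
  · rw [ENNReal.mul_top (by simpa using h0), add_top]
    exact le_top
  lift a to ℝ≥0 using ha
  lift b to ℝ≥0 using hb
  have h := NNReal.geom_mean_le_arith_mean2_weighted (1 - θ).toNNReal θ.toNNReal a b
    (by rw [← Real.toNNReal_add h1'.le h0.le]; simp)
  rw [Real.coe_toNNReal _ h1'.le, Real.coe_toNNReal _ h0.le] at h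
  rw [ENNReal.ofReal, ENNReal.ofReal, ← ENNReal.coe_rpow_of_nonneg _ h1'.le,
    ← ENNReal.coe_rpow_of_nonneg _ h0.le]
  exact_mod_cast h

/-- layer cake for functions with values in `[0,1]` -/
theorem A1.layer (F : ℝ → ℝ) (hF : Measurable F) (h0 : ∀ x, 0 ≤ F x) (h1 : ∀ x, F x ≤ 1) :
    ∫⁻ x, ENNReal.ofReal (F x) = ∫⁻ t in Set.Ioo (0 : ℝ) 1, volume {x | t < F x} := by
  rw [lintegral_eq_lintegral_meas_lt volume (Filter.Eventually.of_forall h0) hF.aemeasurable]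
  have hd : Disjoint (Set.Ioo (0 : ℝ) 1) (Set.Ici 1) := by
    rw [Set.disjoint_left]
    intro x hx hx'
    exact absurd hx.2 (not_lt.2 hx')
  rw [← Set.Ioo_union_Ici_eq_Ioi (zero_lt_one' ℝ), lintegral_union measurableSet_Ici hd]
  have : ∫⁻ t in Set.Ici (1 : ℝ), volume {x | t < F x} = 0 := by
    rw [setLIntegral_congr_fun (g := fun _ => 0) measurableSet_Ici]
    · simp
    · intro t ht
      have : {x | t < F x} = ∅ := by
        ext x
        simp only [Set.mem_ofPred_eq, Set.mem_empty_iff_false, iff_false, not_lt]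
        exact (h1 x).trans ht
      simp [this]
  rw [this, add_zero]

/-- Prékopa–Leindler for sup-normalised real functions. -/
theorem A1.normalised {θ : ℝ} (h0 : 0 < θ) (h1 : θ < 1) (F G K : ℝ → ℝ)
    (hF : Measurable F) (hG : Measurable G) (hK : Measurable K)
    (hF0 : ∀ x, 0 ≤ F x) (hF1 : ∀ x, F x ≤ 1) (hG0 : ∀ x, 0 ≤ G x) (hG1 : ∀ x, G x ≤ 1)
    (hK0 : ∀ x, 0 ≤ K x) (hK1 : ∀ x, K x ≤ 1)
    (hFs : ∀ t < 1, ∃ x, t < F x) (hGs : ∀ t < 1, ∃ x, t < G x)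
    (H : ∀ x y, F x ^ (1 - θ) * G y ^ θ ≤ K ((1 - θ) * x + θ * y)) :
    ENNReal.ofReal (1 - θ) * (∫⁻ x, ENNReal.ofReal (F x)) +
      ENNReal.ofReal θ * (∫⁻ x, ENNReal.ofReal (G x)) ≤ ∫⁻ x, ENNReal.ofReal (K x) := by
  have h1' : 0 < 1 - θ := by linarith
  rw [A1.layer F hF hF0 hF1, A1.layer G hG hG0 hG1, A1.layer K hK hK0 hK1]
  have hmF : Measurable fun t : ℝ => volume {x | t < F x} :=
    Antitone.measurable fun s t hst => measure_mono fun x hx => lt_of_le_of_lt hst hx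
  have hmG : Measurable fun t : ℝ => volume {x | t < G x} :=
    Antitone.measurable fun s t hst => measure_mono fun x hx => lt_of_le_of_lt hst hx
  rw [← lintegral_const_mul _ hmF, ← lintegral_const_mul _ hmG,
    ← lintegral_add_left (hmF.const_mul _)]
  refine setLIntegral_mono' measurableSet_Ioo fun t ht => ?_
  refine volume_combo_ge h0 h1 (measurableSet_lt measurable_const hF)
    (measurableSet_lt measurable_const hG) (measurableSet_lt measurable_const hK)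
    (hFs t ht.2) (hGs t ht.2) ?_
  intro x hx y hy
  refine lt_of_lt_of_le ?_ (H x y)
  have e : t = t ^ (1 - θ) * t ^ θ := by
    rw [← Real.rpow_add ht.1]
    simp
  conv_lhs => rw [e]
  have a1 : t ^ (1 - θ) < F x ^ (1 - θ) := Real.rpow_lt_rpow ht.1.le hx h1'
  have a2 : t ^ θ < G y ^ θ := Real.rpow_lt_rpow ht.1.le hy h0
  have b1 : 0 < t ^ (1 - θ) := Real.rpow_pos_of_pos ht.1 _
  have b2 : 0 < t ^ θ := Real.rpow_pos_of_pos ht.1 _
  exact mul_lt_mul'' a1 a2 b1.le b2.le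

theorem A1.sup_prop (f : ℝ → ℝ≥0∞) {a : ℝ≥0∞} (ha : a = ⨆ x, f x) (ha0 : a ≠ 0) (haT : a ≠ ⊤) :
    ∀ t < 1, ∃ x, t < (f x / a).toReal := by
  intro t ht
  rcases lt_or_ge t 0 with ht0 | ht0
  · exact ⟨0, lt_of_lt_of_le ht0 ENNReal.toReal_nonneg⟩
  have h1 : ENNReal.ofReal t * a < a := by
    have : ENNReal.ofReal t < 1 := by
      rw [← ENNReal.ofReal_one]
      exact (ENNReal.ofReal_lt_ofReal_iff zero_lt_one).2 ht
    calc ENNReal.ofReal t * a < 1 * a := (ENNReal.mul_lt_mul_iff_left ha0 haT).2 this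
      _ = a := one_mul a
  rw [ha] at h1
  obtain ⟨x, hx⟩ := lt_iSup_iff.1 h1
  rw [← ha] at hx
  have hfx : f x ≤ a := by rw [ha]; exact le_iSup f x
  have hne : f x / a ≠ ⊤ := ENNReal.div_ne_top (ne_top_of_le_ne_top haT hfx) ha0
  refine ⟨x, (ENNReal.ofReal_lt_iff_lt_toReal ht0 hne).1 ?_⟩
  rw [ENNReal.lt_div_iff_mul_lt (Or.inl ha0) (Or.inl haT)]
  exact hx

/-- **A1b. Prékopa–Leindler on `ℝ`** for bounded functions. -/
theorem prekopaLeindler_real {θ : ℝ} (h0 : 0 < θ) (h1 : θ < 1) (f g h : ℝ → ℝ≥0∞)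
    (hf : Measurable f) (hg : Measurable g) (hh : Measurable h)
    (hfb : ∃ c : ℝ≥0, ∀ x, f x ≤ c) (hgb : ∃ c : ℝ≥0, ∀ x, g x ≤ c)
    (H : ∀ x y, f x ^ (1 - θ) * g y ^ θ ≤ h ((1 - θ) * x + θ * y)) :
    (∫⁻ x, f x) ^ (1 - θ) * (∫⁻ x, g x) ^ θ ≤ ∫⁻ x, h x := by
  have h1' : 0 < 1 - θ := by linarith
  obtain ⟨cf, hcf⟩ := hfb
  obtain ⟨cg, hcg⟩ := hgb
  obtain ⟨a, ha⟩ : ∃ a, a = ⨆ x, f x := ⟨_, rfl⟩
  obtain ⟨b, hb⟩ : ∃ b, b = ⨆ x, g x := ⟨_, rfl⟩
  have hfa : ∀ x, f x ≤ a := fun x => by rw [ha]; exact le_iSup f x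
  have hgb : ∀ x, g x ≤ b := fun x => by rw [hb]; exact le_iSup g x
  have haT : a ≠ ⊤ := by
    rw [ha]; exact (lt_of_le_of_lt (iSup_le hcf) ENNReal.coe_lt_top).ne
  have hbT : b ≠ ⊤ := by
    rw [hb]; exact (lt_of_le_of_lt (iSup_le hcg) ENNReal.coe_lt_top).ne
  rcases eq_or_ne a 0 with ha0 | ha0
  · have : ∀ x, f x = 0 := fun x => le_antisymm (ha0 ▸ hfa x) bot_le
    simp [this, ENNReal.zero_rpow_of_pos h1']
  rcases eq_or_ne b 0 with hb0 | hb0
  · have : ∀ x, g x = 0 := fun x => le_antisymm (hb0 ▸ hgb x) bot_le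
    simp [this, ENNReal.zero_rpow_of_pos h0]
  have ha1 : a ^ (1 - θ) ≠ 0 := (ENNReal.rpow_pos ha0.bot_lt haT).ne'
  have hb1 : b ^ θ ≠ 0 := (ENNReal.rpow_pos hb0.bot_lt hbT).ne'
  have ha2 : a ^ (1 - θ) ≠ ⊤ := ENNReal.rpow_ne_top_of_nonneg h1'.le haT
  have hb2 : b ^ θ ≠ ⊤ := ENNReal.rpow_ne_top_of_nonneg h0.le hbT
  have hc0 : a ^ (1 - θ) * b ^ θ ≠ 0 := mul_ne_zero ha1 hb1
  have hcT : a ^ (1 - θ) * b ^ θ ≠ ⊤ := ENNReal.mul_ne_top ha2 hb2
  have hfa1 : ∀ x, f x / a ≤ 1 := fun x => ENNReal.div_le_of_le_mul (by simpa using hfa x)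
  have hgb1 : ∀ x, g x / b ≤ 1 := fun x => ENNReal.div_le_of_le_mul (by simpa using hgb x)
  have hfaT : ∀ x, f x / a ≠ ⊤ := fun x => ne_top_of_le_ne_top ENNReal.one_ne_top (hfa1 x)
  have hgbT : ∀ x, g x / b ≠ ⊤ := fun x => ne_top_of_le_ne_top ENNReal.one_ne_top (hgb1 x)
  have hmT : ∀ x, min (h x / (a ^ (1 - θ) * b ^ θ)) 1 ≠ ⊤ := fun x =>
    ne_top_of_le_ne_top ENNReal.one_ne_top (min_le_right _ _)
  have key := A1.normalised h0 h1 (fun x => (f x / a).toReal) (fun x => (g x / b).toReal)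
    (fun x => (min (h x / (a ^ (1 - θ) * b ^ θ)) 1).toReal)
    (hf.div_const a).ennreal_toReal (hg.div_const b).ennreal_toReal
    ((hh.div_const _).min measurable_const).ennreal_toReal
    (fun x => ENNReal.toReal_nonneg) (fun x => by
      have := ENNReal.toReal_mono ENNReal.one_ne_top (hfa1 x)
      simpa using this)
    (fun x => ENNReal.toReal_nonneg) (fun x => by
      have := ENNReal.toReal_mono ENNReal.one_ne_top (hgb1 x)
      simpa using this)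
    (fun x => ENNReal.toReal_nonneg) (fun x => by
      have := ENNReal.toReal_mono ENNReal.one_ne_top
        (min_le_right (h x / (a ^ (1 - θ) * b ^ θ)) 1)
      simpa using this)
    (A1.sup_prop f ha ha0 haT) (A1.sup_prop g hb hb0 hbT)
    (fun x y => by
      rw [ENNReal.toReal_rpow, ENNReal.toReal_rpow, ← ENNReal.toReal_mul]
      refine ENNReal.toReal_mono (hmT _) (le_min ?_ ?_)
      · have e : (f x / a) ^ (1 - θ) * (g y / b) ^ θ =
            (f x ^ (1 - θ) * g y ^ θ) / (a ^ (1 - θ) * b ^ θ) := by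
          rw [ENNReal.div_rpow_of_nonneg _ _ h1'.le, ENNReal.div_rpow_of_nonneg _ _ h0.le,
            div_eq_mul_inv, div_eq_mul_inv, div_eq_mul_inv,
            ENNReal.mul_inv (Or.inl ha1) (Or.inl ha2)]
          ring
        rw [e]
        exact ENNReal.div_le_div_right (H x y) _
      · calc (f x / a) ^ (1 - θ) * (g y / b) ^ θ ≤ 1 ^ (1 - θ) * 1 ^ θ :=
            mul_le_mul' (ENNReal.rpow_le_rpow (hfa1 x) h1'.le)
              (ENNReal.rpow_le_rpow (hgb1 y) h0.le)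
          _ = 1 := by simp)
  simp only [ENNReal.ofReal_toReal (hfaT _), ENNReal.ofReal_toReal (hgbT _),
    ENNReal.ofReal_toReal (hmT _)] at key
  have k2 := (A1.amgm h0 h1 _ _).trans key
  have eF : ∫⁻ x, f x = a * ∫⁻ x, f x / a := by
    rw [← lintegral_const_mul _ (hf.div_const a)]
    refine lintegral_congr fun x => ?_
    rw [ENNReal.mul_div_cancel ha0 haT]
  have eG : ∫⁻ x, g x = b * ∫⁻ x, g x / b := by
    rw [← lintegral_const_mul _ (hg.div_const b)]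
    refine lintegral_congr fun x => ?_
    rw [ENNReal.mul_div_cancel hb0 hbT]
  calc (∫⁻ x, f x) ^ (1 - θ) * (∫⁻ x, g x) ^ θ
      = (a ^ (1 - θ) * b ^ θ) * ((∫⁻ x, f x / a) ^ (1 - θ) * (∫⁻ x, g x / b) ^ θ) := by
        rw [eF, eG, ENNReal.mul_rpow_of_nonneg _ _ h1'.le, ENNReal.mul_rpow_of_nonneg _ _ h0.le]
        ring
    _ ≤ (a ^ (1 - θ) * b ^ θ) * ∫⁻ x, min (h x / (a ^ (1 - θ) * b ^ θ)) 1 := by
        gcongr
    _ ≤ (a ^ (1 - θ) * b ^ θ) * ∫⁻ x, h x / (a ^ (1 - θ) * b ^ θ) := by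
        gcongr with x
        exact min_le_left _ _
    _ = ∫⁻ x, h x := by
        rw [← lintegral_const_mul _ (hh.div_const _)]
        refine lintegral_congr fun x => ?_
        rw [ENNReal.mul_div_cancel hc0 hcT]

theorem A1.pdf_ineq {θ : ℝ} (h0 : 0 < θ) (h1 : θ < 1) (x y : ℝ) :
    gaussianPDF 0 1 x ^ (1 - θ) * gaussianPDF 0 1 y ^ θ ≤
      gaussianPDF 0 1 ((1 - θ) * x + θ * y) := by
  have h1' : 0 < 1 - θ := by linarith
  have hp : ∀ z, 0 < gaussianPDFReal 0 1 z := fun z => gaussianPDFReal_pos 0 1 z one_ne_zero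
  unfold gaussianPDF
  rw [ENNReal.ofReal_rpow_of_pos (hp x), ENNReal.ofReal_rpow_of_pos (hp y),
    ← ENNReal.ofReal_mul (Real.rpow_nonneg (hp x).le _)]
  apply ENNReal.ofReal_le_ofReal
  simp only [gaussianPDFReal, sub_zero, NNReal.coe_one, mul_one]
  have hc : 0 < (√(2 * Real.pi))⁻¹ := by positivity
  rw [Real.mul_rpow hc.le (Real.exp_pos _).le, Real.mul_rpow hc.le (Real.exp_pos _).le,
    ← Real.exp_mul, ← Real.exp_mul]
  calc (√(2 * Real.pi))⁻¹ ^ (1 - θ) * Real.exp (-x ^ 2 / 2 * (1 - θ)) *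
        ((√(2 * Real.pi))⁻¹ ^ θ * Real.exp (-y ^ 2 / 2 * θ))
      = ((√(2 * Real.pi))⁻¹ ^ (1 - θ) * (√(2 * Real.pi))⁻¹ ^ θ) *
        (Real.exp (-x ^ 2 / 2 * (1 - θ)) * Real.exp (-y ^ 2 / 2 * θ)) := by ring
    _ = (√(2 * Real.pi))⁻¹ * Real.exp (-x ^ 2 / 2 * (1 - θ) + -y ^ 2 / 2 * θ) := by
        rw [← Real.rpow_add hc, ← Real.exp_add]
        simp
    _ ≤ _ := by
        refine mul_le_mul_of_nonneg_left (Real.exp_le_exp.2 ?_) hc.le
        nlinarith [mul_pos h1' h0, sq_nonneg (x - y), mul_nonneg (mul_pos h1' h0).le (sq_nonneg (x - y))]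

/-- **A1c. Prékopa–Leindler for the one-dimensional standard Gaussian** -/
theorem prekopaLeindler_gaussianReal {θ : ℝ} (h0 : 0 < θ) (h1 : θ < 1) (f g h : ℝ → ℝ≥0∞)
    (hf : Measurable f) (hg : Measurable g) (hh : Measurable h)
    (hfb : ∃ c : ℝ≥0, ∀ x, f x ≤ c) (hgb : ∃ c : ℝ≥0, ∀ x, g x ≤ c)
    (H : ∀ x y, f x ^ (1 - θ) * g y ^ θ ≤ h ((1 - θ) * x + θ * y)) :
    (∫⁻ x, f x ∂(gaussianReal 0 1)) ^ (1 - θ) * (∫⁻ x, g x ∂(gaussianReal 0 1)) ^ θ
      ≤ ∫⁻ x, h x ∂(gaussianReal 0 1) := by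
  have h1' : 0 < 1 - θ := by linarith
  obtain ⟨cf, hcf⟩ := hfb
  obtain ⟨cg, hcg⟩ := hgb
  have hm := measurable_gaussianPDF 0 1
  rw [gaussianReal_of_var_ne_zero 0 one_ne_zero, lintegral_withDensity_eq_lintegral_mul _ hm hf,
    lintegral_withDensity_eq_lintegral_mul _ hm hg, lintegral_withDensity_eq_lintegral_mul _ hm hh]
  have hpb : ∀ x, gaussianPDF 0 1 x ≤ ((Real.toNNReal (√(2 * Real.pi))⁻¹ : ℝ≥0) : ℝ≥0∞) := by
    intro x
    change _ ≤ ENNReal.ofReal _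
    unfold gaussianPDF
    apply ENNReal.ofReal_le_ofReal
    simp only [gaussianPDFReal, sub_zero, NNReal.coe_one, mul_one]
    have hc : 0 < (√(2 * Real.pi))⁻¹ := by positivity
    have : Real.exp (-x ^ 2 / 2) ≤ 1 := by
      rw [Real.exp_le_one_iff]
      nlinarith [sq_nonneg x]
    nlinarith
  refine prekopaLeindler_real h0 h1 _ _ _ (hm.mul hf) (hm.mul hg) (hm.mul hh)
    ⟨Real.toNNReal (√(2 * Real.pi))⁻¹ * cf, fun x => ?_⟩
    ⟨Real.toNNReal (√(2 * Real.pi))⁻¹ * cg, fun x => ?_⟩ fun x y => ?_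
  · simp only [Pi.mul_apply, ENNReal.coe_mul]
    exact mul_le_mul' (hpb x) (hcf x)
  · simp only [Pi.mul_apply, ENNReal.coe_mul]
    exact mul_le_mul' (hpb x) (hcg x)
  · simp only [Pi.mul_apply]
    rw [ENNReal.mul_rpow_of_nonneg _ _ h1'.le, ENNReal.mul_rpow_of_nonneg _ _ h0.le]
    calc gaussianPDF 0 1 x ^ (1 - θ) * f x ^ (1 - θ) * (gaussianPDF 0 1 y ^ θ * g y ^ θ)
        = (gaussianPDF 0 1 x ^ (1 - θ) * gaussianPDF 0 1 y ^ θ) *
          (f x ^ (1 - θ) * g y ^ θ) := by ring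
      _ ≤ _ := mul_le_mul' (A1.pdf_ineq h0 h1 x y) (H x y)

end Vale.Agent.P262B
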