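import Vale.Agent.P262B.A1

open MeasureTheory ProbabilityTheory
open scoped ENNReal NNReal

namespace Vale.Agent.P262B

/-- **A2a. Prékopa–Leindler for the Gaussian product measure on `Fin n → ℝ`** (induction on `n`,
Fubini through `MeasurableEquiv.piFinSuccAbove`/`measurePreserving_piFinSuccAbove`, A1c). -/
theorem prekopaLeindler_pi (n : ℕ) {θ : ℝ} (h0 : 0 < θ) (h1 : θ < 1) (f g h : (Fin n → ℝ) → ℝ≥0∞)
    (hf : Measurable f) (hg : Measurable g) (hh : Measurable h)
    (hfb : ∃ c : ℝ≥0, ∀ x, f x ≤ c) (hgb : ∃ c : ℝ≥0, ∀ x, g x ≤ c)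
    (H : ∀ x y, f x ^ (1 - θ) * g y ^ θ ≤ h ((1 - θ) • x + θ • y)) :
    (∫⁻ x, f x ∂(Measure.pi fun _ : Fin n => gaussianReal 0 1)) ^ (1 - θ)
        * (∫⁻ x, g x ∂(Measure.pi fun _ : Fin n => gaussianReal 0 1)) ^ θ
      ≤ ∫⁻ x, h x ∂(Measure.pi fun _ : Fin n => gaussianReal 0 1) := by
  induction n with
  | zero =>
    have hd : (Measure.pi fun _ : Fin 0 => gaussianReal 0 1) = Measure.dirac isEmptyElim :=
      Measure.pi_of_empty _
    rw [hd, lintegral_dirac' _ hf, lintegral_dirac' _ hg, lintegral_dirac' _ hh]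
    refine (H _ _).trans (le_of_eq ?_)
    exact congrArg h (Subsingleton.elim _ _)
  | succ n ih =>
    have e := measurePreserving_piFinSuccAbove (fun _ : Fin (n + 1) => gaussianReal 0 1) 0
    set E := MeasurableEquiv.piFinSuccAbove (fun _ : Fin (n + 1) => ℝ) 0 with hE
    have hint : ∀ u : (Fin (n + 1) → ℝ) → ℝ≥0∞, Measurable u →
        ∫⁻ x, u x ∂(Measure.pi fun _ : Fin (n + 1) => gaussianReal 0 1)
          = ∫⁻ s : ℝ, (∫⁻ x' : Fin n → ℝ, u (E.symm (s, x'))
            ∂(Measure.pi fun _ : Fin n => gaussianReal 0 1)) ∂(gaussianReal 0 1) := by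
      intro u hu
      rw [← lintegral_prod (fun p => u (E.symm p)) (hu.comp E.symm.measurable).aemeasurable]
      have h1 := e.symm.lintegral_comp_emb E.symm.measurableEmbedding u
      rw [← h1]
    have hmeas : ∀ u : (Fin (n + 1) → ℝ) → ℝ≥0∞, Measurable u →
        Measurable fun s : ℝ => ∫⁻ x' : Fin n → ℝ, u (E.symm (s, x'))
          ∂(Measure.pi fun _ : Fin n => gaussianReal 0 1) := fun u hu =>
      (hu.comp E.symm.measurable).lintegral_prod_right'
    have hbd : ∀ u : (Fin (n + 1) → ℝ) → ℝ≥0∞, (∃ c : ℝ≥0, ∀ x, u x ≤ c) →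
        ∃ c : ℝ≥0, ∀ s : ℝ, (∫⁻ x' : Fin n → ℝ, u (E.symm (s, x'))
          ∂(Measure.pi fun _ : Fin n => gaussianReal 0 1)) ≤ c := by
      rintro u ⟨c, hc⟩
      refine ⟨c, fun s => ?_⟩
      calc (∫⁻ x' : Fin n → ℝ, u (E.symm (s, x')) ∂(Measure.pi fun _ : Fin n => gaussianReal 0 1))
          ≤ ∫⁻ _ : Fin n → ℝ, (c : ℝ≥0∞) ∂(Measure.pi fun _ : Fin n => gaussianReal 0 1) :=
            lintegral_mono fun x' => hc _
        _ = c := by simp
    rw [hint f hf, hint g hg, hint h hh]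
    refine prekopaLeindler_gaussianReal h0 h1 _ _ _ (hmeas f hf) (hmeas g hg) (hmeas h hh)
      (hbd f hfb) (hbd g hgb) fun s t => ?_
    refine ih _ _ _ (hf.comp (E.symm.measurable.comp measurable_prodMk_left))
      (hg.comp (E.symm.measurable.comp measurable_prodMk_left))
      (hh.comp (E.symm.measurable.comp measurable_prodMk_left))
      (hfb.imp fun c hc x => hc _) (hgb.imp fun c hc x => hc _) fun x y => ?_
    have h1 : E.symm ((1 - θ) * s + θ * t, (1 - θ) • x + θ • y) =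
        (1 - θ) • E.symm (s, x) + θ • E.symm (t, y) := by
      ext j
      refine Fin.cases ?_ (fun k => ?_) j
      · simp [hE, MeasurableEquiv.piFinSuccAbove]
      · simp [hE, MeasurableEquiv.piFinSuccAbove]
    show f _ ^ (1 - θ) * g _ ^ θ ≤ h (E.symm ((1 - θ) * s + θ * t, (1 - θ) • x + θ • y))
    rw [h1]
    exact H _ _

variable {E : Type*} [NormedAddCommGroup E] [InnerProductSpace ℝ E] [FiniteDimensional ℝ E]
  [MeasurableSpace E] [BorelSpace E]

/-- functional form of the log-concavity of `stdGaussian` -/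
theorem prekopaLeindler_stdGaussian {θ : ℝ} (h0 : 0 < θ) (h1 : θ < 1) (f g h : E → ℝ≥0∞)
    (hf : Measurable f) (hg : Measurable g) (hh : Measurable h)
    (hfb : ∃ c : ℝ≥0, ∀ x, f x ≤ c) (hgb : ∃ c : ℝ≥0, ∀ x, g x ≤ c)
    (H : ∀ x y, f x ^ (1 - θ) * g y ^ θ ≤ h ((1 - θ) • x + θ • y)) :
    (∫⁻ x, f x ∂(stdGaussian E)) ^ (1 - θ) * (∫⁻ x, g x ∂(stdGaussian E)) ^ θ
      ≤ ∫⁻ x, h x ∂(stdGaussian E) := by
  have hm : Measurable (fun x : Fin (Module.finrank ℝ E) → ℝ =>
      ∑ i, x i • stdOrthonormalBasis ℝ E i) := by fun_prop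
  have hst : stdGaussian E = (Measure.pi fun _ : Fin (Module.finrank ℝ E) => gaussianReal 0 1).map
      (fun x ↦ ∑ i, x i • stdOrthonormalBasis ℝ E i) := rfl
  rw [hst, lintegral_map hf hm, lintegral_map hg hm, lintegral_map hh hm]
  refine prekopaLeindler_pi _ h0 h1 _ _ _ (hf.comp hm) (hg.comp hm) (hh.comp hm)
    (hfb.imp fun c hc x => hc _) (hgb.imp fun c hc x => hc _) fun x y => ?_
  have e1 : (∑ i, ((1 - θ) • x + θ • y) i • stdOrthonormalBasis ℝ E i)
      = (1 - θ) • (∑ i, x i • stdOrthonormalBasis ℝ E i)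
        + θ • (∑ i, y i • stdOrthonormalBasis ℝ E i) := by
    rw [Finset.smul_sum, Finset.smul_sum, ← Finset.sum_add_distrib]
    refine Finset.sum_congr rfl fun i _ => ?_
    simp [add_smul, mul_smul]
  show f _ ^ (1 - θ) * g _ ^ θ ≤ h _
  rw [e1]
  exact H _ _

/-- indicator functions satisfy the Prékopa–Leindler hypothesis -/
theorem a2_indicator_ineq {X : Type*} [AddCommGroup X] [Module ℝ X] {θ : ℝ} (h0 : 0 < θ)
    (h1 : θ < 1) {A B C : Set X} (H : ∀ x ∈ A, ∀ y ∈ B, (1 - θ) • x + θ • y ∈ C) (x y : X) :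
    (A.indicator (fun _ => (1 : ℝ≥0∞)) x) ^ (1 - θ) * (B.indicator (fun _ => (1 : ℝ≥0∞)) y) ^ θ
      ≤ C.indicator (fun _ => (1 : ℝ≥0∞)) ((1 - θ) • x + θ • y) := by
  have h1' : 0 < 1 - θ := by linarith
  by_cases hx : x ∈ A
  · by_cases hy : y ∈ B
    · rw [Set.indicator_of_mem hx, Set.indicator_of_mem hy, Set.indicator_of_mem (H x hx y hy)]
      simp
    · rw [Set.indicator_of_notMem hy, ENNReal.zero_rpow_of_pos h0, mul_zero]
      exact bot_le
  · rw [Set.indicator_of_notMem hx, ENNReal.zero_rpow_of_pos h1', zero_mul]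
    exact bot_le

theorem a2_indicator_bdd {X : Type*} (A : Set X) :
    ∃ c : ℝ≥0, ∀ x, A.indicator (fun _ => (1 : ℝ≥0∞)) x ≤ c := by
  refine ⟨1, fun x => ?_⟩
  rw [ENNReal.coe_one]
  exact Set.indicator_le (fun _ _ => le_rfl) x

/-- **A2b. Log-concavity of the standard Gaussian measure.** -/
theorem stdGaussian_logConcave {θ : ℝ} (h0 : 0 < θ) (h1 : θ < 1) {A B C : Set E}
    (hA : MeasurableSet A) (hB : MeasurableSet B) (hC : MeasurableSet C)
    (H : ∀ x ∈ A, ∀ y ∈ B, (1 - θ) • x + θ • y ∈ C) :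
    (stdGaussian E A) ^ (1 - θ) * (stdGaussian E B) ^ θ ≤ stdGaussian E C := by
  have := prekopaLeindler_stdGaussian h0 h1 (A.indicator (fun _ => (1 : ℝ≥0∞)))
    (B.indicator (fun _ => (1 : ℝ≥0∞))) (C.indicator (fun _ => (1 : ℝ≥0∞)))
    (measurable_const.indicator hA) (measurable_const.indicator hB)
    (measurable_const.indicator hC) (a2_indicator_bdd A) (a2_indicator_bdd B)
    (fun x y => a2_indicator_ineq h0 h1 H x y)
  simpa [lintegral_indicator hA, lintegral_indicator hB, lintegral_indicator hC] using this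

/-- **A2c.** the same for the product `stdGaussian E ⊗ gaussianReal 0 1` -/
theorem prod_logConcave {θ : ℝ} (h0 : 0 < θ) (h1 : θ < 1) {A B C : Set (E × ℝ)}
    (hA : MeasurableSet A) (hB : MeasurableSet B) (hC : MeasurableSet C)
    (H : ∀ x ∈ A, ∀ y ∈ B, (1 - θ) • x + θ • y ∈ C) :
    (((stdGaussian E).prod (gaussianReal 0 1)) A) ^ (1 - θ)
      * (((stdGaussian E).prod (gaussianReal 0 1)) B) ^ θ
      ≤ ((stdGaussian E).prod (gaussianReal 0 1)) C := by
  have hint : ∀ S : Set (E × ℝ), MeasurableSet S →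
      ((stdGaussian E).prod (gaussianReal 0 1)) S
        = ∫⁻ t : ℝ, (stdGaussian E) ((fun x => (x, t)) ⁻¹' S) ∂(gaussianReal 0 1) := by
    intro S hS
    rw [Measure.prod_apply_symm hS]
  rw [hint A hA, hint B hB, hint C hC]
  have hb : ∀ S : Set (E × ℝ), ∃ c : ℝ≥0, ∀ t : ℝ, (stdGaussian E) ((fun x => (x, t)) ⁻¹' S) ≤ c :=
    fun S => ⟨1, fun t => by rw [ENNReal.coe_one]; exact prob_le_one⟩
  refine prekopaLeindler_gaussianReal h0 h1 _ _ _ (measurable_measure_prodMk_right hA)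
    (measurable_measure_prodMk_right hB) (measurable_measure_prodMk_right hC)
    (hb A) (hb B) fun s t => ?_
  refine stdGaussian_logConcave h0 h1 (measurable_prodMk_right hA) (measurable_prodMk_right hB)
    (measurable_prodMk_right hC) fun x hx y hy => ?_
  have := H (x, s) hx (y, t) hy
  simpa using this

end Vale.Agent.P262B
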