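import Vale.Agent.P262B.Defs

open MeasureTheory ProbabilityTheory
open scoped ENNReal NNReal

namespace Vale.Agent.P262B

variable {X : Type*}

/-- the step of the measure lemma -/
noncomputable def s0 : ℝ := 1 / 20

/-- extension of the long vertical chords of `K ⊆ X × ℝ` -/
def vert (K : Set (X × ℝ)) (s : ℝ) : Set (X × ℝ) :=
  {p | ∃ τ : ℝ, |τ - p.2| ≤ 2 * s ∧ (p.1, τ + s) ∈ K ∧ (p.1, τ - s) ∈ K}

theorem vert_zero (K : Set (X × ℝ)) : vert K 0 = K := by
  ext ⟨x, t⟩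
  constructor
  · rintro ⟨τ, h1, h2, _⟩
    have : τ - t = 0 := abs_eq_zero.mp (le_antisymm (by simpa using h1) (abs_nonneg _))
    have h3 : τ = t := by linarith
    simpa [h3] using h2
  · intro h
    exact ⟨t, by simp, by simpa using h, by simpa using h⟩

open Pointwise in
theorem isClosed_vert [NormedAddCommGroup X] {K : Set (X × ℝ)} (hc : IsClosed K) (s : ℝ) : IsClosed (vert K s) := by
  have h1 : IsClosed {p : X × ℝ | (p.1, p.2 + s) ∈ K ∧ (p.1, p.2 - s) ∈ K} :=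
    (hc.preimage (by fun_prop : Continuous fun p : X × ℝ => (p.1, p.2 + s))).inter
      (hc.preimage (by fun_prop : Continuous fun p : X × ℝ => (p.1, p.2 - s)))
  have h2 : IsCompact (({(0 : X)} : Set X) ×ˢ Set.Icc (-(2 * s)) (2 * s)) :=
    isCompact_singleton.prod isCompact_Icc
  have h3 := h1.add_right_of_isCompact h2
  convert h3 using 1
  ext ⟨x, t⟩
  rw [Set.mem_add]
  constructor
  · rintro ⟨τ, h1, h2, h3⟩
    rw [abs_le] at h1
    simp only at h1 h2 h3
    refine ⟨(x, τ), ⟨h2, h3⟩, (0, t - τ), ⟨rfl, ?_, ?_⟩, ?_⟩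
    · simp only; linarith [h1.2]
    · simp only; linarith [h1.1]
    · simp
  · rintro ⟨⟨x', τ⟩, ⟨h2, h3⟩, ⟨y, r⟩, ⟨hy, hr1, hr2⟩, h⟩
    simp only [Set.mem_singleton_iff] at hy hr1 hr2 h2 h3
    subst hy
    rw [Prod.mk_add_mk, add_zero] at h
    obtain ⟨rfl, rfl⟩ := Prod.mk.inj h
    refine ⟨τ, ?_, h2, h3⟩
    simp only
    rw [abs_le]
    constructor <;> linarith

end Vale.Agent.P262B
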