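import Vale.Agent.P262B.A2
import Vale.Agent.P262B.A3V

open MeasureTheory ProbabilityTheory
open scoped ENNReal NNReal

namespace Vale.Agent.P262B

variable {X : Type*} [NormedAddCommGroup X] [InnerProductSpace ℝ X] [FiniteDimensional ℝ X]
  [MeasurableSpace X] [BorelSpace X]

/-- the log-concavity step: from `s0` to all `0 ≤ s ≤ s0` -/
theorem vert_measure_ge_of_s0 (K : Set (X × ℝ)) (hc : IsClosed K) (hconv : Convex ℝ K)
    (h0 : ((stdGaussian X).prod (gaussianReal 0 1)) K
      ≤ ((stdGaussian X).prod (gaussianReal 0 1)) (vert K s0))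
    {s : ℝ} (hs : 0 ≤ s) (hs' : s ≤ s0) :
    ((stdGaussian X).prod (gaussianReal 0 1)) K
      ≤ ((stdGaussian X).prod (gaussianReal 0 1)) (vert K s) := by
  have hs0 : 0 < s0 := by norm_num [s0]
  rcases hs.eq_or_lt with h | hspos
  · rw [← h, vert_zero]
  rcases hs'.eq_or_lt with h | hslt
  · rw [h]; exact h0
  set μ := (stdGaussian X).prod (gaussianReal 0 1) with hμ
  by_cases hK0 : μ K = 0
  · rw [hK0]; exact zero_le
  have hθ0 : 0 < s / s0 := div_pos hspos hs0
  have hθ1 : s / s0 < 1 := by rwa [div_lt_one hs0]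
  set θ : ℝ := s / s0 with hθ
  have hθs : θ * s0 = s := div_mul_cancel₀ _ hs0.ne'
  have key := prod_logConcave (E := X) hθ0 hθ1 (A := K) (B := vert K s0) (C := vert K s)
    hc.measurableSet (isClosed_vert hc _).measurableSet (isClosed_vert hc _).measurableSet ?_
  · calc μ K = μ K ^ (1 - θ) * μ K ^ θ := by
          rw [← ENNReal.rpow_add _ _ hK0 (measure_ne_top μ K), sub_add_cancel, ENNReal.rpow_one]
      _ ≤ μ K ^ (1 - θ) * μ (vert K s0) ^ θ := by gcongr
      _ ≤ μ (vert K s) := key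
  · rintro ⟨x, t⟩ hx ⟨y, r⟩ ⟨τ, h1, h2, h3⟩
    simp only at h1 h2 h3
    have h4 : ∀ a : ℝ, a = s0 ∨ a = -s0 → (y, τ + a) ∈ K → 
        ((1 - θ) • x + θ • y, (1 - θ) * t + θ * τ + θ * a) ∈ K := by
      intro a _ ha
      have := hconv hx ha (by linarith : (0:ℝ) ≤ 1 - θ) hθ0.le (by ring)
      convert this using 1
      simp only [Prod.smul_mk, Prod.mk_add_mk, smul_eq_mul]
      congr 1
      ring
    refine ⟨(1 - θ) * t + θ * τ, ?_, ?_, ?_⟩
    · simp only [Prod.smul_mk, Prod.mk_add_mk, smul_eq_mul]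
      have : (1 - θ) * t + θ * τ - ((1 - θ) * t + θ * r) = θ * (τ - r) := by ring
      rw [this, abs_mul, abs_of_pos hθ0]
      calc θ * |τ - r| ≤ θ * (2 * s0) := by gcongr
        _ = 2 * s := by rw [← hθs]; ring
    · have := h4 s0 (Or.inl rfl) h2
      rw [hθs] at this
      exact this
    · have := h4 (-s0) (Or.inr rfl) (by simpa [sub_eq_add_neg] using h3)
      rw [mul_neg, hθs, ← sub_eq_add_neg] at this
      exact this

end Vale.Agent.P262B
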