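import Vale.Agent.P262B.Defs

open MeasureTheory ProbabilityTheory
open scoped ENNReal NNReal

namespace Vale.Agent.P262B

section A3C

variable {E : Type*} [NormedAddCommGroup E] [InnerProductSpace ℝ E]
    [FiniteDimensional ℝ E] [MeasurableSpace E] [BorelSpace E]

/-- the standard Gaussian measure of `E` is the image of the product of the standard Gaussian
measures of `(ℝ ∙ e)ᗮ` and `ℝ` under `(x, t) ↦ x + t • e`, `‖e‖ = 1` -/
theorem stdGaussian_eq_map_prod (e : E) (he : ‖e‖ = 1) :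
    ((stdGaussian ((ℝ ∙ e)ᗮ : Submodule ℝ E)).prod (gaussianReal 0 1)).map
      (fun p : ((ℝ ∙ e)ᗮ : Submodule ℝ E) × ℝ => (p.1 : E) + p.2 • e) = stdGaussian E := by
  set X : Submodule ℝ E := (ℝ ∙ e)ᗮ with hX
  have hmeas : Measurable (fun p : X × ℝ => (p.1 : E) + p.2 • e) := by
    apply Continuous.measurable
    fun_prop
  have : IsProbabilityMeasure
      (((stdGaussian X).prod (gaussianReal 0 1)).map
        (fun p : X × ℝ => (p.1 : E) + p.2 • e)) :=
    Measure.isProbabilityMeasure_map hmeas.aemeasurable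
  apply Measure.ext_of_charFun
  ext ξ
  rw [charFun_stdGaussian, charFun_apply, integral_map hmeas.aemeasurable (by fun_prop)]
  -- decompose
  have h1 : ∀ p : X × ℝ, Complex.exp ((inner ℝ ((p.1 : E) + p.2 • e) ξ : ℝ) * Complex.I)
      = Complex.exp ((inner ℝ p.1 (X.orthogonalProjectionOnto ξ) : ℝ) * Complex.I)
        * Complex.exp ((inner ℝ p.2 (inner ℝ e ξ : ℝ) : ℝ) * Complex.I) := by
    intro p
    rw [← Complex.exp_add]
    congr 1
    rw [← add_mul]
    congr 1
    rw [inner_add_left, inner_smul_left]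
    have : inner ℝ p.1 (X.orthogonalProjectionOnto ξ) = (inner ℝ (p.1 : E) ξ : ℝ) := by
      rw [Submodule.inner_orthogonalProjectionOnto_eq_of_mem_left]
    rw [this]
    push_cast
    congr 1
    simp [mul_comm]
  simp_rw [h1]
  rw [integral_prod_mul (f := fun x : X => Complex.exp ((inner ℝ x (X.orthogonalProjectionOnto ξ) : ℝ) * Complex.I))
    (g := fun t : ℝ => Complex.exp ((inner ℝ t (inner ℝ e ξ : ℝ) : ℝ) * Complex.I))]
  rw [← charFun_apply, ← charFun_apply, charFun_stdGaussian, charFun_gaussianReal]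
  rw [← Complex.exp_add]
  congr 1
  have h2 : ‖ξ‖ ^ 2 = ‖X.orthogonalProjectionOnto ξ‖ ^ 2 + (inner ℝ e ξ : ℝ) ^ 2 := by
    have h3 := Submodule.norm_sq_eq_add_norm_sq_projection ξ (ℝ ∙ e)
    have h4 : ‖(ℝ ∙ e).orthogonalProjectionOnto ξ‖ ^ 2 = (inner ℝ e ξ : ℝ) ^ 2 := by
      have h5 := Submodule.starProjection_unit_singleton ℝ he ξ
      have h6 : ‖(ℝ ∙ e).orthogonalProjectionOnto ξ‖ = ‖(ℝ ∙ e).starProjection ξ‖ := rfl
      rw [h6, h5, norm_smul, he, mul_one, Real.norm_eq_abs, sq_abs]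
    rw [h3, h4, add_comm]
  have h2' : ((‖ξ‖ : ℝ) : ℂ) ^ 2 = (‖X.orthogonalProjectionOnto ξ‖ : ℂ) ^ 2 + ((inner ℝ e ξ : ℝ) : ℂ) ^ 2 := by
    exact_mod_cast congrArg (fun r : ℝ => (r : ℂ)) h2
  rw [h2']
  push_cast
  ring

/-- reduction of the measure lemma to vertical chords (independent of the core) -/
theorem stdGaussian_Kstar_ge_of (K : Set E) (hK : GoodBody K)
    (hγ : stdGaussian E Kᶜ ≤ ENNReal.ofReal eps0) (u : E) (hu0 : u ≠ 0)
    (H : ∀ K' : Set (((ℝ ∙ (‖u‖⁻¹ • u))ᗮ : Submodule ℝ E) × ℝ), IsClosed K' → Convex ℝ K' →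
      (∀ p ∈ K', -p ∈ K') →
      ((stdGaussian ((ℝ ∙ (‖u‖⁻¹ • u))ᗮ : Submodule ℝ E)).prod (gaussianReal 0 1)) K'ᶜ
        ≤ ENNReal.ofReal eps0 →
      ((stdGaussian ((ℝ ∙ (‖u‖⁻¹ • u))ᗮ : Submodule ℝ E)).prod (gaussianReal 0 1)) K'
        ≤ ((stdGaussian ((ℝ ∙ (‖u‖⁻¹ • u))ᗮ : Submodule ℝ E)).prod (gaussianReal 0 1))
          {p | ∃ τ : ℝ, |τ - p.2| ≤ 2 * ‖u‖ ∧ (p.1, τ + ‖u‖) ∈ K' ∧ (p.1, τ - ‖u‖) ∈ K'}) :
    stdGaussian E K ≤ stdGaussian E (Kstar K u) := by
  have hun : ‖u‖ ≠ 0 := norm_ne_zero_iff.mpr hu0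
  have hupos : 0 < ‖u‖ := norm_pos_iff.mpr hu0
  set e : E := ‖u‖⁻¹ • u with he_def
  have he : ‖e‖ = 1 := by
    rw [he_def, norm_smul, norm_inv, norm_norm, inv_mul_cancel₀ hun]
  have hue : u = ‖u‖ • e := by
    rw [he_def, smul_smul, mul_inv_cancel₀ hun, one_smul]
  have hτu : ∀ r : ℝ, (r / ‖u‖) • u = r • e := by
    intro r
    rw [he_def, smul_smul, div_eq_mul_inv]
  set X : Submodule ℝ E := (ℝ ∙ e)ᗮ with hX
  have hcont : Continuous (fun p : X × ℝ => (p.1 : E) + p.2 • e) := by fun_prop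
  have hmap := stdGaussian_eq_map_prod e he
  rw [← hX] at hmap
  have hle : ∀ A : Set E, ((stdGaussian X).prod (gaussianReal 0 1))
      ((fun p : X × ℝ => (p.1 : E) + p.2 • e) ⁻¹' A) ≤ stdGaussian E A := by
    intro A
    rw [← hmap]
    exact Measure.le_map_apply hcont.measurable.aemeasurable A
  have heq : ∀ A : Set E, MeasurableSet A → stdGaussian E A = ((stdGaussian X).prod (gaussianReal 0 1))
      ((fun p : X × ℝ => (p.1 : E) + p.2 • e) ⁻¹' A) := by
    intro A hA
    rw [← hmap, Measure.map_apply hcont.measurable hA]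
  have hKc : MeasurableSet K := hK.closed.measurableSet
  have key := H ((fun p : X × ℝ => (p.1 : E) + p.2 • e) ⁻¹' K) (hK.closed.preimage hcont) ?_ ?_ ?_
  · rw [heq K hKc]
    refine key.trans (le_trans ?_ (hle (Kstar K u)))
    apply measure_mono
    rintro ⟨x, t⟩ ⟨τ, hτ, h1, h2⟩
    simp only [Set.mem_preimage] at h1 h2
    refine ⟨(τ - t) / ‖u‖, ?_, ?_, ?_⟩
    · rw [abs_div, abs_of_pos hupos, div_le_iff₀ hupos]
      exact hτ
    · have : (x : E) + t • e + ((τ - t) / ‖u‖) • u + u = (x : E) + (τ + ‖u‖) • e := by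
        rw [hτu (τ - t)]
        calc (x : E) + t • e + (τ - t) • e + u = (x : E) + t • e + (τ - t) • e + ‖u‖ • e := by
              rw [← hue]
          _ = _ := by module
      simpa [this] using h1
    · have : (x : E) + t • e + ((τ - t) / ‖u‖) • u - u = (x : E) + (τ - ‖u‖) • e := by
        rw [hτu (τ - t)]
        calc (x : E) + t • e + (τ - t) • e - u = (x : E) + t • e + (τ - t) • e - ‖u‖ • e := by
              rw [← hue]
          _ = _ := by module
      simpa [this] using h2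
  · -- convex
    intro p hp q hq a b ha hb hab
    have := hK.conv hp hq ha hb hab
    simp only [Set.mem_preimage] at this ⊢
    convert this using 1
    simp only [Prod.fst_add, Prod.smul_fst, Prod.snd_add, Prod.smul_snd, Submodule.coe_add,
      Submodule.coe_smul, smul_eq_mul]
    module
  · intro p hp
    have := hK.symm _ hp
    simp only [Set.mem_preimage] at this ⊢
    convert this using 1
    simp only [Prod.fst_neg, Prod.snd_neg, Submodule.coe_neg]
    module
  · rw [← Set.preimage_compl, ← heq _ hKc.compl]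
    exact hγ

omit [FiniteDimensional ℝ E] [MeasurableSpace E] [BorelSpace E] in
theorem Kstar_zero (K : Set E) : Kstar K (0 : E) = K := by
  ext x
  simp only [Kstar, Set.mem_ofPred_eq, smul_zero, add_zero, sub_zero, and_self]
  constructor
  · rintro ⟨τ, _, h⟩; exact h
  · intro h; exact ⟨0, by norm_num, h⟩

end A3C

end Vale.Agent.P262B
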