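import Vale.Agent.P262B.A3A
import Vale.Agent.P262B.A3B
import Vale.Agent.P262B.A3C

/-!
Assembly of A3. `vert`, `s0` are defined in `A3V.lean`; A3a = `vert_measure_ge` in `A3A.lean`.
-/

open MeasureTheory ProbabilityTheory
open scoped ENNReal NNReal

namespace Vale.Agent.P262B

variable {X : Type*} [NormedAddCommGroup X] [InnerProductSpace ℝ X] [FiniteDimensional ℝ X]
  [MeasurableSpace X] [BorelSpace X]

/-- **A3b.** the same for every `0 ≤ s ≤ s0` (log-concavity of `s ↦ μ (vert K s)`). -/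
theorem vert_measure_ge' (K : Set (X × ℝ)) (hc : IsClosed K) (hconv : Convex ℝ K)
    (hsymm : ∀ p ∈ K, -p ∈ K)
    (hK : ((stdGaussian X).prod (gaussianReal 0 1)) Kᶜ ≤ ENNReal.ofReal eps0)
    {s : ℝ} (hs : 0 ≤ s) (hs' : s ≤ s0) :
    ((stdGaussian X).prod (gaussianReal 0 1)) K
      ≤ ((stdGaussian X).prod (gaussianReal 0 1)) (vert K s) :=
  vert_measure_ge_of_s0 K hc hconv (vert_measure_ge K hc hconv hsymm hK) hs hs'

/-- **A3c. Measure lemma** in an arbitrary finite dimensional Euclidean space. -/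
theorem stdGaussian_Kstar_ge {E : Type*} [NormedAddCommGroup E] [InnerProductSpace ℝ E]
    [FiniteDimensional ℝ E] [MeasurableSpace E] [BorelSpace E]
    (K : Set E) (hK : GoodBody K) (hγ : stdGaussian E Kᶜ ≤ ENNReal.ofReal eps0)
    (u : E) (hu : ‖u‖ ≤ 1 / 20) :
    stdGaussian E K ≤ stdGaussian E (Kstar K u) := by
  by_cases hu0 : u = 0
  · rw [hu0, Kstar_zero]
  · refine stdGaussian_Kstar_ge_of K hK hγ u hu0 ?_
    intro K' hc hconv hsymm hK'
    exact vert_measure_ge' K' hc hconv hsymm hK' (norm_nonneg u) (by simpa [s0] using hu)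

end Vale.Agent.P262B
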