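import Vale.Agent.P262B.A3M

/-! **A3a. Core of the measure lemma.** -/

open MeasureTheory ProbabilityTheory Set
open scoped ENNReal NNReal Pointwise

namespace Vale.Agent.P262B

variable {X : Type*} [NormedAddCommGroup X] [InnerProductSpace ℝ X] [FiniteDimensional ℝ X]
  [MeasurableSpace X] [BorelSpace X]

/-! ### the slice functions -/

/-- loss at height `t` -/
noncomputable def lS (K : Set (X × ℝ)) (t : ℝ) : ℝ :=
  (stdGaussian X).real (slc K t \ (slc K (t - 1 / 10) ∪ slc K (t + 1 / 10)))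

/-- gain at height `t` -/
noncomputable def gS (K : Set (X × ℝ)) (t : ℝ) : ℝ :=
  (stdGaussian X).real ((slc K (t + 1 / 20) ∩ slc K (t + 3 / 20)) \ slc K t)

/-- `ψ(t)` -/
noncomputable def pS (K : Set (X × ℝ)) (t : ℝ) : ℝ := (stdGaussian X).real (slc K 0 ∩ slc K t)

omit [InnerProductSpace ℝ X] [FiniteDimensional ℝ X] in
lemma shift_meas {K : Set (X × ℝ)} (hc : IsClosed K) (a : ℝ) :
    MeasurableSet {p : X × ℝ | (p.1, p.2 + a) ∈ K} :=
  (hc.preimage (by fun_prop : Continuous fun p : X × ℝ => (p.1, p.2 + a))).measurableSet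

lemma fS_meas {K : Set (X × ℝ)} (hc : IsClosed K) : Measurable (fS K) :=
  slc_real_measurable hc.measurableSet _

lemma mS_meas {K : Set (X × ℝ)} (hc : IsClosed K) : Measurable (fun t => MM' K t t) := by
  have h := slc_real_measurable (hc.measurableSet.diff (shift_meas hc (-(1 / 10)))) (stdGaussian X)
  convert h using 2 with t
  unfold MM'
  congr 1
  ext x
  simp [slc, sub_eq_add_neg]

lemma lS_meas {K : Set (X × ℝ)} (hc : IsClosed K) : Measurable (lS K) := by
  have h := slc_real_measurable (hc.measurableSet.diff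
    ((shift_meas hc (-(1 / 10))).union (shift_meas hc (1 / 10)))) (stdGaussian X)
  exact h

lemma gS_meas {K : Set (X × ℝ)} (hc : IsClosed K) : Measurable (gS K) := by
  have h := slc_real_measurable (((shift_meas hc (1 / 20)).inter (shift_meas hc (3 / 20))).diff
    hc.measurableSet) (stdGaussian X)
  exact h

lemma pS_meas {K : Set (X × ℝ)} (hc : IsClosed K) : Measurable (pS K) := by
  have h0 : MeasurableSet {p : X × ℝ | (p.1, (0 : ℝ)) ∈ K} :=
    (hc.preimage (by fun_prop : Continuous fun p : X × ℝ => (p.1, (0 : ℝ)))).measurableSet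
  have h := slc_real_measurable (h0.inter hc.measurableSet) (stdGaussian X)
  exact h

/-! ### lower bound for `f(31/10)` -/

lemma exp_lower {n : ℕ} {x r : ℝ} (hx : x = n + r) :
    (3678 / 10000) ^ n * (1 - r) ≤ Real.exp (-x) := by
  have h1 : Real.exp (-x) = Real.exp (-1) ^ n * Real.exp (-r) := by
    rw [← Real.exp_nat_mul, ← Real.exp_add]
    congr 1
    rw [hx]
    ring
  rw [h1]
  have h2 : (3678 / 10000 : ℝ) ≤ Real.exp (-1) := by
    have := Real.exp_neg_one_gt_d9
    norm_num at *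
    linarith
  have h3 : 1 - r ≤ Real.exp (-r) := by
    have := Real.add_one_le_exp (-r)
    linarith
  have h4 : (3678 / 10000 : ℝ) ^ n ≤ Real.exp (-1) ^ n := pow_le_pow_left₀ (by norm_num) h2 n
  calc (3678 / 10000 : ℝ) ^ n * (1 - r) ≤ (3678 / 10000 : ℝ) ^ n * Real.exp (-r) := by gcongr
    _ ≤ Real.exp (-1) ^ n * Real.exp (-r) := by gcongr

lemma gph_ge {x : ℝ} {n : ℕ} {r : ℝ} (hx : x ^ 2 / 2 = n + r) (c : ℝ)
    (hc : c * (251 / 100) ≤ (3678 / 10000) ^ n * (1 - r)) : c ≤ gph x := by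
  rw [gph_eq]
  have h2 : Real.sqrt (2 * Real.pi) ≤ 251 / 100 := by
    rw [Real.sqrt_le_left (by norm_num)]
    have := Real.pi_lt_d2
    norm_num
    linarith
  have h0 : 0 < Real.sqrt (2 * Real.pi) := by positivity
  have h3 := exp_lower hx
  have h4 : Real.exp (-x ^ 2 / 2) = Real.exp (-(x ^ 2 / 2)) := by
    congr 1
    ring
  rw [h4, inv_mul_eq_div, le_div_iff₀ h0]
  rcases le_total c 0 with hc0 | hc0
  · have := Real.exp_pos (-(x ^ 2 / 2))
    nlinarith
  · calc c * Real.sqrt (2 * Real.pi) ≤ c * (251 / 100) := by gcongr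
      _ ≤ _ := hc.trans h3

lemma tail_31 : 4 / 10000 ≤ ∫ t in Ioi (31 / 10 : ℝ), gph t := by
  have h1 : (∫ t in (31 / 10 : ℝ)..(33 / 10), gph t) + ∫ t in (33 / 10 : ℝ)..(35 / 10), gph t
      ≤ ∫ t in Ioi (31 / 10 : ℝ), gph t := by
    rw [intervalIntegral.integral_add_adjacent_intervals gph_int.intervalIntegrable
      gph_int.intervalIntegrable, intervalIntegral.integral_of_le (by norm_num)]
    apply setIntegral_mono_set gph_int.integrableOn
    · exact Filter.Eventually.of_forall gph_nonneg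
    · exact Ioc_subset_Ioi_self.eventuallyLE
  have h2 : ∫ _t in (31 / 10 : ℝ)..(33 / 10), (148 / 100000 : ℝ)
      ≤ ∫ t in (31 / 10 : ℝ)..(33 / 10), gph t := by
    apply intervalIntegral.integral_mono_on (by norm_num) intervalIntegrable_const
      gph_int.intervalIntegrable
    intro t ht
    refine le_trans ?_ (gph_anti (a := t) (b := 33 / 10) ?_)
    · apply gph_ge (n := 5) (r := 445 / 1000) (by norm_num)
      norm_num
    · rw [abs_of_nonneg (by linarith [ht.1]), abs_of_nonneg (by norm_num)]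
      exact ht.2
  have h3 : ∫ _t in (33 / 10 : ℝ)..(35 / 10), (86 / 100000 : ℝ)
      ≤ ∫ t in (33 / 10 : ℝ)..(35 / 10), gph t := by
    apply intervalIntegral.integral_mono_on (by norm_num) intervalIntegrable_const
      gph_int.intervalIntegrable
    intro t ht
    refine le_trans ?_ (gph_anti (a := t) (b := 35 / 10) ?_)
    · apply gph_ge (n := 6) (r := 125 / 1000) (by norm_num)
      norm_num
    · rw [abs_of_nonneg (by linarith [ht.1]), abs_of_nonneg (by norm_num)]
      exact ht.2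
  rw [intervalIntegral.integral_const, smul_eq_mul] at h2 h3
  linarith

lemma fS_big {K : Set (X × ℝ)} (hc : IsClosed K) (hconv : Convex ℝ K)
    (hsymm : ∀ p ∈ K, -p ∈ K)
    (hK : ((stdGaussian X).prod (gaussianReal 0 1)) Kᶜ ≤ ENNReal.ofReal eps0) :
    399 / 400 ≤ fS K (31 / 10) := by
  have hKm := hc.measurableSet
  have h1 := (measure_mono (Set.inter_subset_left (s := Kᶜ)
    (t := {p : X × ℝ | p.2 ∈ Ioi (31 / 10 : ℝ)}))).trans hK
  rw [gaussian_slice hKm.compl measurableSet_Ioi, ENNReal.ofReal_le_ofReal_iff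
    (by unfold eps0; norm_num)] at h1
  have h2 : (1 - fS K (31 / 10)) * ∫ t in Ioi (31 / 10 : ℝ), gph t
      ≤ ∫ t in Ioi (31 / 10 : ℝ), gph t * (stdGaussian X).real {x | (x, t) ∈ Kᶜ} := by
    rw [← integral_const_mul]
    apply setIntegral_mono_on (gph_int.const_mul _).integrableOn _ measurableSet_Ioi
    · intro t ht
      have ht' : 31 / 10 < t := ht
      have h3 : (stdGaussian X).real {x | (x, t) ∈ Kᶜ} = 1 - fS K t := by
        have : {x : X | (x, t) ∈ Kᶜ} = (slc K t)ᶜ := rfl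
        rw [this, measureReal_compl (slc_meas hc t)]
        simp [fS]
      rw [h3, mul_comm]
      apply mul_le_mul_of_nonneg_left _ (gph_nonneg t)
      have := fS_anti hc hconv hsymm (mem_Ici.2 (by norm_num : (0 : ℝ) ≤ 31 / 10))
        (mem_Ici.2 (by linarith)) ht'.le
      linarith
    · exact (gph_mul_int (slc_real_measurable hKm.compl _) (fun _ => measureReal_nonneg)
        (fun _ => measureReal_le_one)).integrableOn
  have h4 := tail_31
  have h5 : (1 - fS K (31 / 10)) * ∫ t in Ioi (31 / 10 : ℝ), gph t ≤ 1 / 1000000 := by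
    refine h2.trans (h1.trans ?_)
    unfold eps0
    exact le_rfl
  by_contra hcon
  push Not at hcon
  nlinarith

/-! ### the hypotheses of `oneDim_core` -/

lemma lS_le3 {K : Set (X × ℝ)} (hc : IsClosed K) (hconv : Convex ℝ K) (hsymm : ∀ p ∈ K, -p ∈ K)
    (hbig : 399 / 400 ≤ fS K (31 / 10)) {t : ℝ} (h0 : 0 ≤ t) (h1 : t ≤ 29 / 10) :
    lS K t ≤ MM' K t t - 99 / 100 * MM' K (t + 1 / 10) (t + 1 / 10) := by
  have hanti := fS_anti hc hconv hsymm
  have hft : 399 / 400 ≤ fS K t :=
    hbig.trans (hanti (mem_Ici.2 h0) (mem_Ici.2 (by norm_num)) (by linarith))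
  have hft' : 399 / 400 ≤ fS K (t + 1 / 10) :=
    hbig.trans (hanti (mem_Ici.2 (by linarith)) (mem_Ici.2 (by norm_num)) (by linarith))
  -- splitting
  have e1 : MM' K t (t + 1 / 10) + lS K t = MM' K t t := by
    unfold MM' lS
    rw [Set.inter_self]
    rw [← measureReal_inter_add_sdiff (s := slc K t \ slc K (t - 1 / 10))
      (slc_meas hc (t + 1 / 10))]
    congr 2
    · ext x
      simp only [Set.mem_sdiff, Set.mem_inter_iff]
      tauto
    · ext x
      simp only [Set.mem_sdiff, Set.mem_union]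
      tauto
  have h2 := MM'_mul_ge hc hconv (p' := t) (p := t + 1 / 10) (q := t + 1 / 10)
    (by linarith) le_rfl
  rw [HH_self] at h2
  have h3 := HH_ge hc t (t + 1 / 10)
  have h4 : 99 / 100 * fS K (t + 1 / 10) ≤ HH K t (t + 1 / 10) := by
    have := fS_le_one K (t + 1 / 10)
    linarith
  have h5 : 0 ≤ MM' K (t + 1 / 10) (t + 1 / 10) := measureReal_nonneg
  have h6 : 99 / 100 * MM' K (t + 1 / 10) (t + 1 / 10) ≤ MM' K t (t + 1 / 10) := by
    have hpos : 0 < fS K (t + 1 / 10) := by linarith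
    have h7 : (99 / 100 * MM' K (t + 1 / 10) (t + 1 / 10)) * fS K (t + 1 / 10)
        ≤ MM' K t (t + 1 / 10) * fS K (t + 1 / 10) := by
      calc (99 / 100 * MM' K (t + 1 / 10) (t + 1 / 10)) * fS K (t + 1 / 10)
          = (99 / 100 * fS K (t + 1 / 10)) * MM' K (t + 1 / 10) (t + 1 / 10) := by ring
        _ ≤ HH K t (t + 1 / 10) * MM' K (t + 1 / 10) (t + 1 / 10) := by gcongr
        _ ≤ _ := h2
    exact le_of_mul_le_mul_right h7 hpos
  linarith

lemma gS_ge1 {K : Set (X × ℝ)} (hc : IsClosed K) (hconv : Convex ℝ K) (hsymm : ∀ p ∈ K, -p ∈ K)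
    (hbig : 399 / 400 ≤ fS K (31 / 10)) {t : ℝ} (h0 : -(31 / 10) ≤ t) (h1 : t ≤ -(2 / 10))
    {r : ℝ} (hr0 : 0 ≤ r) (hr : 1 / 10 ≤ fS K r) :
    97 / 100 * MM' K r r ≤ gS K t + gS K (t + 1 / 20) := by
  have hanti := fS_anti hc hconv hsymm
  have hfp : 399 / 400 ≤ fS K (t + 1 / 10) := by
    rw [← fS_neg hc hsymm]
    exact hbig.trans (hanti (mem_Ici.2 (by linarith)) (mem_Ici.2 (by norm_num)) (by linarith))
  -- step 1: `g t + g (t+1/20) ≥ M(t+1/10, r)`
  have s1 : MM' K (t + 1 / 10) r ≤ gS K t + gS K (t + 1 / 20) := by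
    unfold MM' gS
    refine le_trans (measureReal_mono ?_) (measureReal_union_le _ _)
    rintro x ⟨⟨hx1, hx2⟩, hx3⟩
    have hx4 : x ∈ slc K (t + 2 / 10) := slc_mid hconv (by linarith) (by linarith) hx1 hx2
    have hx5 : x ∈ slc K (t + 3 / 20) := slc_mid hconv (by linarith) (by linarith) hx1 hx4
    rw [show t + 1 / 10 - 1 / 10 = t by ring] at hx3
    by_cases hx : x ∈ slc K (t + 1 / 20)
    · exact Or.inl ⟨⟨hx, hx5⟩, hx3⟩
    · right
      refine ⟨⟨?_, ?_⟩, hx⟩
      · rw [show t + 1 / 20 + 1 / 20 = t + 1 / 10 by ring]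
        exact hx1
      · rw [show t + 1 / 20 + 3 / 20 = t + 2 / 10 by ring]
        exact hx4
  have h2 := MM'_mul_ge hc hconv (p' := t + 1 / 10) (p := r) (q := r) (by linarith) le_rfl
  rw [HH_self] at h2
  have h3 := HH_ge hc (t + 1 / 10) r
  have h4 : 97 / 100 * fS K r ≤ HH K (t + 1 / 10) r := by linarith
  have h5 : 0 ≤ MM' K r r := measureReal_nonneg
  have hpos : 0 < fS K r := by linarith
  have h7 : (97 / 100 * MM' K r r) * fS K r ≤ MM' K (t + 1 / 10) r * fS K r := by
    calc (97 / 100 * MM' K r r) * fS K r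
        = (97 / 100 * fS K r) * MM' K r r := by ring
      _ ≤ HH K (t + 1 / 10) r * MM' K r r := by gcongr
      _ ≤ _ := h2
  exact (le_of_mul_le_mul_right h7 hpos).trans s1

lemma pS_neg {K : Set (X × ℝ)} (hc : IsClosed K) (hsymm : ∀ p ∈ K, -p ∈ K) (t : ℝ) :
    (stdGaussian X).real (slc K 0 ∩ slc K (-t)) = pS K t := by
  unfold pS
  rw [← stdGaussian_real_neg _ ((slc_meas hc 0).inter (slc_meas hc t))]
  congr 1
  ext x
  simp only [Set.mem_inter_iff, Set.mem_preimage]
  rw [slc_neg hsymm t x]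
  have := slc_neg hsymm 0 x
  rw [neg_zero] at this
  rw [this]

lemma gS_ge2 {K : Set (X × ℝ)} (hc : IsClosed K) (hconv : Convex ℝ K) (hsymm : ∀ p ∈ K, -p ∈ K)
    {r : ℝ} (hr : 3 / 20 ≤ r) : pS K (r - 1 / 20) - pS K r ≤ gS K (-r) := by
  have h1 : (stdGaussian X).real ((slc K 0 ∩ slc K (-(r - 1 / 20))) \ (slc K 0 ∩ slc K (-r)))
      ≤ gS K (-r) := by
    unfold gS
    refine measureReal_mono ?_ (measure_ne_top _ _)
    rintro x ⟨⟨hx1, hx2⟩, hx3⟩
    have e1 : -(r - 1 / 20) = -r + 1 / 20 := by ring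
    rw [e1] at hx2
    refine ⟨⟨hx2, slc_mid hconv (by linarith) (by linarith) hx2 hx1⟩, fun h => hx3 ⟨hx1, h⟩⟩
  have hsub : slc K 0 ∩ slc K (-r) ⊆ slc K 0 ∩ slc K (-(r - 1 / 20)) := by
    rintro x ⟨hx1, hx2⟩
    exact ⟨hx1, slc_mid hconv (by linarith) (by linarith) hx2 hx1⟩
  rw [measureReal_sdiff hsub ((slc_meas hc _).inter (slc_meas hc _)), pS_neg hc hsymm,
    pS_neg hc hsymm] at h1
  exact h1

/-! ### `vert` -/

omit [FiniteDimensional ℝ X] [MeasurableSpace X] [BorelSpace X] [InnerProductSpace ℝ X] in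
lemma vert_symm {K : Set (X × ℝ)} (hsymm : ∀ p ∈ K, -p ∈ K) (s : ℝ) (p : X × ℝ)
    (hp : p ∈ vert K s) : -p ∈ vert K s := by
  obtain ⟨τ, h1, h2, h3⟩ := hp
  refine ⟨-τ, ?_, ?_, ?_⟩
  · rw [Prod.snd_neg, ← abs_neg]
    convert h1 using 2
    ring
  · have := hsymm _ h3
    convert this using 1
    ext
    · rfl
    · simp only [Prod.snd_neg]
      ring
  · have := hsymm _ h2
    convert this using 1
    ext
    · rfl
    · simp only [Prod.snd_neg]
      ring

omit [NormedAddCommGroup X] [InnerProductSpace ℝ X] [FiniteDimensional ℝ X] [MeasurableSpace X]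
  [BorelSpace X] in
lemma loss_slice {K : Set (X × ℝ)} (t : ℝ) :
    {x : X | (x, t) ∈ K \ vert K s0} ⊆ slc K t \ (slc K (t - 1 / 10) ∪ slc K (t + 1 / 10)) := by
  rintro x ⟨hx1, hx2⟩
  refine ⟨hx1, ?_⟩
  rintro (h | h)
  · apply hx2
    refine ⟨t - 1 / 20, ?_, ?_, ?_⟩
    · simp only [s0, abs_le]
      constructor <;> norm_num
    · simp only [s0]
      rw [show t - 1 / 20 + 1 / 20 = t by ring]
      exact hx1
    · simp only [s0]
      rw [show t - 1 / 20 - 1 / 20 = t - 1 / 10 by ring]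
      exact h
  · apply hx2
    refine ⟨t + 1 / 20, ?_, ?_, ?_⟩
    · simp only [s0, abs_le]
      constructor <;> norm_num
    · simp only [s0]
      rw [show t + 1 / 20 + 1 / 20 = t + 1 / 10 by ring]
      exact h
    · simp only [s0]
      rw [show t + 1 / 20 - 1 / 20 = t by ring]
      exact hx1

omit [NormedAddCommGroup X] [InnerProductSpace ℝ X] [FiniteDimensional ℝ X] [MeasurableSpace X]
  [BorelSpace X] in
lemma gain_slice {K : Set (X × ℝ)} (t : ℝ) :
    (slc K (t + 1 / 20) ∩ slc K (t + 3 / 20)) \ slc K t ⊆ {x : X | (x, t) ∈ vert K s0 \ K} := by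
  rintro x ⟨⟨hx1, hx2⟩, hx3⟩
  refine ⟨⟨t + 1 / 10, ?_, ?_, ?_⟩, hx3⟩
  · simp only [s0, abs_le]
    constructor <;> norm_num
  · simp only [s0]
    rw [show t + 1 / 10 + 1 / 20 = t + 3 / 20 by ring]
    exact hx2
  · simp only [s0]
    rw [show t + 1 / 10 - 1 / 20 = t + 1 / 20 by ring]
    exact hx1

/-- the one-dimensional inequality for the slices -/
lemma slices_core {K : Set (X × ℝ)} (hc : IsClosed K) (hconv : Convex ℝ K)
    (hsymm : ∀ p ∈ K, -p ∈ K) (hbig : 399 / 400 ≤ fS K (31 / 10)) :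
    ∫ t in Ioi (0 : ℝ), gph t * lS K t ≤ ∫ t in Iio (0 : ℝ), gph t * gS K t := by
  have hanti := fS_anti hc hconv hsymm
  have hf0 : 399 / 400 ≤ fS K 0 :=
    hbig.trans (hanti (mem_Ici.2 le_rfl) (mem_Ici.2 (by norm_num)) (by norm_num))
  apply oneDim_core (fS K) (fun t => MM' K t t) (lS K) (gS K) (pS K)
    (fS_meas hc) (mS_meas hc) (lS_meas hc) (gS_meas hc) (pS_meas hc)
    (fun _ => measureReal_nonneg) (fun _ => measureReal_le_one)
    (fun _ => measureReal_nonneg) (fun _ => measureReal_le_one)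
    (fun _ => measureReal_nonneg) (fun _ => measureReal_le_one)
    (fun _ => measureReal_nonneg) (fun _ => measureReal_le_one)
    hanti hbig
  · intro t _
    refine measureReal_mono ?_ (measure_ne_top _ _)
    rintro x ⟨h1, h2⟩
    exact ⟨⟨h1, h1⟩, fun h => h2 (Or.inl h)⟩
  · intro t _
    refine measureReal_mono ?_ (measure_ne_top _ _)
    exact Set.sdiff_subset
  · intro t h0 h1
    exact lS_le3 hc hconv hsymm hbig h0 h1
  · intro t h0 h1 r hr0 hr
    exact gS_ge1 hc hconv hsymm hbig h0 h1 hr0 hr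
  · intro r hr
    exact gS_ge2 hc hconv hsymm hr
  · intro t' ht' t _ htt
    refine measureReal_mono ?_ (measure_ne_top _ _)
    rintro x ⟨h1, h2⟩
    exact ⟨h1, slc_mid hconv ht' htt h1 h2⟩
  · intro t _
    refine measureReal_mono ?_ (measure_ne_top _ _)
    exact Set.inter_subset_right
  · have h1 := HH_ge hc (0 : ℝ) (31 / 10)
    have h2 : HH K 0 (31 / 10) = pS K (31 / 10) := rfl
    rw [h2] at h1
    linarith

/-- **A3a. Core of the measure lemma** (one fixed step `s0`), see PROOF2.md section 1. -/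
theorem vert_measure_ge (K : Set (X × ℝ)) (hc : IsClosed K) (hconv : Convex ℝ K)
    (hsymm : ∀ p ∈ K, -p ∈ K)
    (hK : ((stdGaussian X).prod (gaussianReal 0 1)) Kᶜ ≤ ENNReal.ofReal eps0) :
    ((stdGaussian X).prod (gaussianReal 0 1)) K
      ≤ ((stdGaussian X).prod (gaussianReal 0 1)) (vert K s0) := by
  have hKm := hc.measurableSet
  have hWm := (isClosed_vert hc s0).measurableSet
  have hcore := slices_core hc hconv hsymm (fS_big hc hconv hsymm hK)
  have hL : MeasurableSet (K \ vert K s0) := hKm.diff hWm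
  have hG : MeasurableSet (vert K s0 \ K) := hWm.diff hKm
  have hKs : ∀ p, p ∈ K ↔ -p ∈ K := fun p =>
    ⟨fun h => hsymm p h, fun h => by simpa using hsymm _ h⟩
  have hWs : ∀ p, p ∈ vert K s0 ↔ -p ∈ vert K s0 := fun p =>
    ⟨fun h => vert_symm hsymm s0 p h, fun h => by simpa using vert_symm hsymm s0 _ h⟩
  have hLs : ∀ p, p ∈ K \ vert K s0 ↔ -p ∈ K \ vert K s0 := fun p => by
    rw [Set.mem_sdiff, Set.mem_sdiff, ← hKs, ← hWs]
  have hGs : ∀ p, p ∈ vert K s0 \ K ↔ -p ∈ vert K s0 \ K := fun p => by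
    rw [Set.mem_sdiff, Set.mem_sdiff, ← hKs, ← hWs]
  have hLG : ((stdGaussian X).prod (gaussianReal 0 1)) (K \ vert K s0)
      ≤ ((stdGaussian X).prod (gaussianReal 0 1)) (vert K s0 \ K) := by
    rw [symm_total hL hLs, symm_total hG hGs, ← symm_half hG hGs,
      gaussian_slice hL measurableSet_Ioi, gaussian_slice hG measurableSet_Iio]
    gcongr
    refine le_trans ?_ (hcore.trans ?_)
    · apply setIntegral_mono_on
      · exact (gph_mul_int (slc_real_measurable hL _) (fun _ => measureReal_nonneg)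
          (fun _ => measureReal_le_one)).integrableOn
      · exact (gph_mul_int (lS_meas hc) (fun _ => measureReal_nonneg)
          (fun _ => measureReal_le_one)).integrableOn
      · exact measurableSet_Ioi
      · intro t _
        exact mul_le_mul_of_nonneg_left (measureReal_mono (loss_slice t)) (gph_nonneg t)
    · apply setIntegral_mono_on
      · exact (gph_mul_int (gS_meas hc) (fun _ => measureReal_nonneg)
          (fun _ => measureReal_le_one)).integrableOn
      · exact (gph_mul_int (slc_real_measurable hG _) (fun _ => measureReal_nonneg)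
          (fun _ => measureReal_le_one)).integrableOn
      · exact measurableSet_Iio
      · intro t _
        exact mul_le_mul_of_nonneg_left (measureReal_mono (gain_slice t)) (gph_nonneg t)
  rw [← measure_inter_add_sdiff K hWm, ← measure_inter_add_sdiff (vert K s0) hKm,
    Set.inter_comm (vert K s0) K]
  gcongr

end Vale.Agent.P262B
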