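import Vale.Agent.P262B.Defs

/-! One-dimensional integral part of the measure lemma (A3a): abstract statement. -/

open MeasureTheory ProbabilityTheory Set
open scoped ENNReal NNReal

namespace Vale.Agent.P262B

/-- the standard Gaussian density -/
noncomputable def gph (t : ℝ) : ℝ := gaussianPDFReal 0 1 t

lemma gph_eq (t : ℝ) : gph t = (Real.sqrt (2 * Real.pi))⁻¹ * Real.exp (-t ^ 2 / 2) := by
  simp [gph, gaussianPDFReal]

lemma gph_pos (t : ℝ) : 0 < gph t := by
  rw [gph_eq]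
  positivity

lemma gph_nonneg (t : ℝ) : 0 ≤ gph t := (gph_pos t).le

lemma gph_cont : Continuous gph := by
  have : gph = fun t => (Real.sqrt (2 * Real.pi))⁻¹ * Real.exp (-t ^ 2 / 2) := funext gph_eq
  rw [this]
  fun_prop

lemma gph_anti {a b : ℝ} (h : |a| ≤ |b|) : gph b ≤ gph a := by
  rw [gph_eq, gph_eq]
  have : a ^ 2 ≤ b ^ 2 := sq_le_sq.2 h
  gcongr

lemma gph_neg (t : ℝ) : gph (-t) = gph t := by
  rw [gph_eq, gph_eq, neg_sq]

lemma gph_int : Integrable gph := integrable_gaussianPDFReal 0 1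

lemma integral_gph : ∫ t, gph t = 1 := integral_gaussianPDFReal_eq_one 0 (by norm_num)

lemma gph_le (t : ℝ) : gph t ≤ 2 / 5 := by
  rw [gph_eq]
  have h1 : Real.exp (-t ^ 2 / 2) ≤ 1 := by
    rw [Real.exp_le_one_iff]
    have := sq_nonneg t
    linarith
  have h2 : (5 / 2 : ℝ) ≤ Real.sqrt (2 * Real.pi) := by
    apply Real.le_sqrt_of_sq_le
    have := Real.pi_gt_d2
    norm_num
    linarith
  have h3 : (Real.sqrt (2 * Real.pi))⁻¹ ≤ 2 / 5 := by
    rw [inv_le_comm₀ (by positivity) (by norm_num)]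
    norm_num at h2 ⊢
    linarith
  calc (Real.sqrt (2 * Real.pi))⁻¹ * Real.exp (-t ^ 2 / 2)
      ≤ (Real.sqrt (2 * Real.pi))⁻¹ * 1 := by gcongr
    _ ≤ 2 / 5 := by rw [mul_one]; exact h3

lemma gph_one_ge : 239 / 1000 ≤ gph 1 := by
  rw [gph_eq]
  have h1 : (6 / 10 : ℝ) ≤ Real.exp (-1 ^ 2 / 2) := by
    have h2 : Real.exp (-1 ^ 2 / 2) ^ 2 = Real.exp (-1) := by
      rw [← Real.exp_nat_mul]
      norm_num
    have h3 : (0.367 : ℝ) < Real.exp (-1) := by
      have := Real.exp_neg_one_gt_d9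
      linarith
    have h4 : 0 < Real.exp (-1 ^ 2 / 2) := Real.exp_pos _
    nlinarith
  have h2 : Real.sqrt (2 * Real.pi) ≤ 251 / 100 := by
    rw [Real.sqrt_le_left (by norm_num)]
    have := Real.pi_lt_d2
    norm_num
    linarith
  have h0 : 0 < Real.sqrt (2 * Real.pi) := by positivity
  rw [inv_mul_eq_div, le_div_iff₀ h0]
  linarith

lemma tail_shift {a s : ℝ} (hs : 0 ≤ s) :
    ∫ t in Ioi (a + s), gph t ≤ Real.exp (-(a * s) - s ^ 2 / 2) * ∫ t in Ioi a, gph t := by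
  have h := (measurePreserving_add_right volume s).setIntegral_preimage_emb
    (MeasurableEquiv.addRight s).measurableEmbedding gph (Ioi (a + s))
  rw [← h]
  have hpre : (fun x : ℝ => x + s) ⁻¹' Ioi (a + s) = Ioi a := by
    ext x; simp
  rw [hpre, ← integral_const_mul]
  apply setIntegral_mono_on
  · exact (gph_int.comp_add_right s).integrableOn
  · exact (gph_int.const_mul _).integrableOn
  · exact measurableSet_Ioi
  · intro x hx
    have hx' : a < x := hx
    rw [gph_eq, gph_eq]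
    have e : Real.exp (-(x + s) ^ 2 / 2) ≤ Real.exp (-(a * s) - s ^ 2 / 2) * Real.exp (-x ^ 2 / 2) := by
      rw [← Real.exp_add, Real.exp_le_exp]
      nlinarith
    calc (Real.sqrt (2 * Real.pi))⁻¹ * Real.exp (-(x + s) ^ 2 / 2)
        ≤ (Real.sqrt (2 * Real.pi))⁻¹ * (Real.exp (-(a * s) - s ^ 2 / 2) * Real.exp (-x ^ 2 / 2)) := by
          gcongr
      _ = _ := by ring

lemma tail_nonneg (a : ℝ) : 0 ≤ ∫ t in Ioi a, gph t :=
  setIntegral_nonneg measurableSet_Ioi fun t _ => gph_nonneg t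

lemma tail_le_one (a : ℝ) : ∫ t in Ioi a, gph t ≤ 1 := by
  rw [← integral_gph]
  exact setIntegral_le_integral gph_int (Filter.Eventually.of_forall gph_nonneg)

lemma tail_29 : ∫ t in Ioi (29 / 10), gph t ≤ 2 / 100 := by
  have h := tail_shift (a := 0) (s := 29 / 10) (by norm_num)
  rw [zero_add] at h
  refine h.trans ?_
  have h1 : Real.exp (-(0 * (29 / 10)) - (29 / 10) ^ 2 / 2) ≤ 2 / 100 := by
    have h2 : Real.exp (-(0 * (29 / 10)) - (29 / 10) ^ 2 / 2) ≤ Real.exp (-4) := by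
      rw [Real.exp_le_exp]
      norm_num
    have h3 : Real.exp (-4) = Real.exp (-1) ^ 4 := by
      rw [← Real.exp_nat_mul]
      norm_num
    have h4 : Real.exp (-1) < 0.3678794412 := Real.exp_neg_one_lt_d9
    have h5 : Real.exp (-1) ^ 4 ≤ 0.3678794412 ^ 4 := by
      have := Real.exp_pos (-1)
      gcongr
    rw [h3] at h2
    refine h2.trans (h5.trans ?_)
    norm_num
  calc Real.exp (-(0 * (29 / 10)) - (29 / 10) ^ 2 / 2) * ∫ t in Ioi (0 : ℝ), gph t
      ≤ 2 / 100 * 1 := by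
        apply mul_le_mul h1 (tail_le_one 0) (tail_nonneg 0) (by norm_num)
    _ = 2 / 100 := by norm_num

/-- a fixed proportion of the tail beyond `a ≥ 3` is in `(a, a + 1/20]` -/
lemma tail_step {a : ℝ} (ha : 3 ≤ a) :
    13 / 100 * ∫ t in Ioi a, gph t ≤ ∫ t in a..(a + 1 / 20), gph t := by
  have h := tail_shift (a := a) (s := 1 / 20) (by norm_num)
  have h1 : Real.exp (-(a * (1 / 20)) - (1 / 20) ^ 2 / 2) ≤ 87 / 100 := by
    have h2 : Real.exp (-(a * (1 / 20)) - (1 / 20) ^ 2 / 2) ≤ Real.exp (-(3 / 20)) := by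
      rw [Real.exp_le_exp]
      nlinarith
    have h3 : Real.exp (-(3 / 20)) ≤ 87 / 100 := by
      have h4 : (1 : ℝ) + 3 / 20 ≤ Real.exp (3 / 20) := by
        have := Real.add_one_le_exp (3 / 20 : ℝ)
        linarith
      rw [Real.exp_neg, inv_le_comm₀ (Real.exp_pos _) (by norm_num)]
      refine le_trans ?_ h4
      norm_num
    exact h2.trans h3
  have h2 : ∫ t in Ioi a, gph t = (∫ t in a..(a + 1 / 20), gph t) + ∫ t in Ioi (a + 1 / 20), gph t := by
    rw [intervalIntegral.integral_of_le (by linarith)]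
    rw [← setIntegral_union (Set.Ioc_disjoint_Ioi le_rfl) measurableSet_Ioi gph_int.integrableOn
      gph_int.integrableOn, Ioc_union_Ioi_eq_Ioi (by linarith)]
  have h3 : Real.exp (-(a * (1 / 20)) - (1 / 20) ^ 2 / 2) * ∫ t in Ioi a, gph t
      ≤ 87 / 100 * ∫ t in Ioi a, gph t := by
    apply mul_le_mul_of_nonneg_right h1 (tail_nonneg a)
  linarith

/-- a bounded measurable function times `gph` is integrable -/
lemma gph_mul_int {h : ℝ → ℝ} (hm : Measurable h) (h0 : ∀ t, 0 ≤ h t) (h1 : ∀ t, h t ≤ 1) :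
    Integrable (fun t => gph t * h t) := by
  refine gph_int.mul_bdd (c := 1) hm.aestronglyMeasurable ?_
  refine Filter.Eventually.of_forall fun t => ?_
  rw [Real.norm_eq_abs, abs_of_nonneg (h0 t)]
  exact h1 t

lemma gph_shift_mul_int {h : ℝ → ℝ} (hm : Measurable h) (h0 : ∀ t, 0 ≤ h t) (h1 : ∀ t, h t ≤ 1)
    (s : ℝ) : Integrable (fun t => gph (t + s) * h t) := by
  refine (gph_int.comp_add_right s).mul_bdd (c := 1) hm.aestronglyMeasurable ?_
  refine Filter.Eventually.of_forall fun t => ?_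
  rw [Real.norm_eq_abs, abs_of_nonneg (h0 t)]
  exact h1 t

lemma gph_mul_shift_int {h : ℝ → ℝ} (hm : Measurable h) (h0 : ∀ t, 0 ≤ h t) (h1 : ∀ t, h t ≤ 1)
    (s : ℝ) : Integrable (fun t => gph t * h (t + s)) :=
  gph_mul_int (hm.comp (measurable_add_const s)) (fun _ => h0 _) (fun _ => h1 _)

/-- near part of the loss -/
lemma loss_near {mm l : ℝ → ℝ} {Λ : ℝ} (hΛ : 0 ≤ Λ)
    (hmm : Measurable mm) (hmm0 : ∀ t, 0 ≤ mm t) (hmm1 : ∀ t, mm t ≤ 1)
    (hlm : Measurable l) (hl0 : ∀ t, 0 ≤ l t) (hl1 : ∀ t, l t ≤ 1)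
    (hl3 : ∀ t, 0 ≤ t → t ≤ 29 / 10 → l t ≤ mm t - 99 / 100 * mm (t + 1 / 10))
    (hΛmm : ∀ t, 0 ≤ t → t ≤ 31 / 10 → mm t ≤ Λ) :
    ∫ t in (0 : ℝ)..(29 / 10), gph t * l t ≤ 5 / 100 * Λ := by
  have i1 : ∀ a b : ℝ, IntervalIntegrable (fun t => gph t * mm t) volume a b :=
    fun a b => (gph_mul_int hmm hmm0 hmm1).intervalIntegrable
  have i2 : ∀ a b : ℝ, IntervalIntegrable (fun t => gph t * mm (t + 1 / 10)) volume a b :=
    fun a b => (gph_mul_shift_int hmm hmm0 hmm1 _).intervalIntegrable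
  have i3 : ∀ a b : ℝ, IntervalIntegrable (fun t => gph (t + -(1 / 10)) * mm t) volume a b :=
    fun a b => (gph_shift_mul_int hmm hmm0 hmm1 _).intervalIntegrable
  have i4 : ∀ a b : ℝ, IntervalIntegrable (fun t => gph (t + -(1 / 10))) volume a b :=
    fun a b => (gph_int.comp_add_right _).intervalIntegrable
  -- step 1
  have s1 : ∫ t in (0 : ℝ)..(29 / 10), gph t * l t
      ≤ (∫ t in (0 : ℝ)..(29 / 10), gph t * mm t)
        - 99 / 100 * ∫ t in (0 : ℝ)..(29 / 10), gph t * mm (t + 1 / 10) := by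
    rw [← intervalIntegral.integral_const_mul, ← intervalIntegral.integral_sub (i1 _ _)
      ((i2 _ _).const_mul _)]
    apply intervalIntegral.integral_mono_on (by norm_num)
      (gph_mul_int hlm hl0 hl1).intervalIntegrable ((i1 _ _).sub ((i2 _ _).const_mul _))
    intro t ht
    have := hl3 t ht.1 ht.2
    have hp := gph_nonneg t
    nlinarith
  -- step 2: shift
  have s2 : ∫ t in (0 : ℝ)..(29 / 10), gph t * mm (t + 1 / 10)
      = ∫ t in (1 / 10 : ℝ)..(3 : ℝ), gph (t + -(1 / 10)) * mm t := by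
    have h := intervalIntegral.integral_comp_add_right (a := (0 : ℝ)) (b := 29 / 10)
      (fun t => gph (t + -(1 / 10)) * mm t) (1 / 10)
    rw [show (0 : ℝ) + 1 / 10 = 1 / 10 by norm_num, show (29 / 10 : ℝ) + 1 / 10 = 3 by norm_num] at h
    rw [← h]
    congr 1
    ext t
    rw [show t + 1 / 10 + -(1 / 10) = t by ring]
  have s3 : ∫ t in (1 / 10 : ℝ)..(29 / 10 : ℝ), gph (t + -(1 / 10)) * mm t
      ≤ ∫ t in (1 / 10 : ℝ)..(3 : ℝ), gph (t + -(1 / 10)) * mm t := by
    rw [← intervalIntegral.integral_add_adjacent_intervals (i3 (1 / 10) (29 / 10)) (i3 (29 / 10) 3)]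
    have : 0 ≤ ∫ t in (29 / 10 : ℝ)..(3 : ℝ), gph (t + -(1 / 10)) * mm t :=
      intervalIntegral.integral_nonneg (by norm_num)
        fun t _ => mul_nonneg (gph_nonneg _) (hmm0 t)
    linarith
  have s4 : ∫ t in (0 : ℝ)..(29 / 10), gph t * mm t
      = (∫ t in (0 : ℝ)..(1 / 10), gph t * mm t) + ∫ t in (1 / 10 : ℝ)..(29 / 10), gph t * mm t :=
    (intervalIntegral.integral_add_adjacent_intervals (i1 _ _) (i1 _ _)).symm
  have s5 : ∫ t in (0 : ℝ)..(1 / 10), gph t * mm t ≤ 4 / 100 * Λ := by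
    have h1 : ∫ t in (0 : ℝ)..(1 / 10), gph t * mm t ≤ ∫ _t in (0 : ℝ)..(1 / 10), 2 / 5 * Λ := by
      apply intervalIntegral.integral_mono_on (by norm_num) (i1 _ _) intervalIntegrable_const
      intro t ht
      exact mul_le_mul (gph_le t) (hΛmm t ht.1 (by linarith [ht.2])) (hmm0 t) (by norm_num)
    rw [intervalIntegral.integral_const, smul_eq_mul] at h1
    linarith
  have s6 : (∫ t in (1 / 10 : ℝ)..(29 / 10), gph t * mm t)
      - 99 / 100 * ∫ t in (1 / 10 : ℝ)..(29 / 10 : ℝ), gph (t + -(1 / 10)) * mm t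
      ≤ 1 / 100 * Λ := by
    have h1 : (∫ t in (1 / 10 : ℝ)..(29 / 10), gph t * mm t)
      - 99 / 100 * ∫ t in (1 / 10 : ℝ)..(29 / 10 : ℝ), gph (t + -(1 / 10)) * mm t
      ≤ ∫ t in (1 / 10 : ℝ)..(29 / 10 : ℝ), (1 / 100 * Λ) * gph (t + -(1 / 10)) := by
      rw [← intervalIntegral.integral_const_mul, ← intervalIntegral.integral_sub (i1 _ _)
        ((i3 _ _).const_mul _)]
      apply intervalIntegral.integral_mono_on (by norm_num)
        ((i1 _ _).sub ((i3 _ _).const_mul _)) ((i4 _ _).const_mul _)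
      intro t ht
      have h2 : gph t ≤ gph (t + -(1 / 10)) := by
        apply gph_anti
        rw [abs_of_nonneg (by linarith [ht.1]), abs_of_nonneg (by linarith [ht.1])]
        linarith
      have h3 := hmm0 t
      have h4 := hΛmm t (by linarith [ht.1]) (by linarith [ht.2])
      have h5 := gph_nonneg (t + -(1 / 10))
      have h6 : gph t * mm t ≤ gph (t + -(1 / 10)) * mm t := mul_le_mul_of_nonneg_right h2 h3
      have h7 : gph (t + -(1 / 10)) * mm t ≤ gph (t + -(1 / 10)) * Λ :=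
        mul_le_mul_of_nonneg_left h4 h5
      linarith
    refine h1.trans ?_
    rw [intervalIntegral.integral_const_mul]
    have h2 : ∫ t in (1 / 10 : ℝ)..(29 / 10 : ℝ), gph (t + -(1 / 10)) ≤ 1 := by
      rw [intervalIntegral.integral_of_le (by norm_num)]
      refine (setIntegral_le_integral (gph_int.comp_add_right _)
        (Filter.Eventually.of_forall fun t => gph_nonneg _)).trans ?_
      rw [integral_add_right_eq_self gph, integral_gph]
    nlinarith
  rw [s2] at s1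
  linarith

/-- near part of the gain -/
lemma gain_near {g : ℝ → ℝ} {Λ : ℝ} (hΛ : 0 ≤ Λ)
    (hgm : Measurable g) (hg0 : ∀ t, 0 ≤ g t) (hgle : ∀ t, g t ≤ 1)
    (hg1 : ∀ t, -(31 / 10) ≤ t → t ≤ -(2 / 10) → 97 / 100 * Λ ≤ g t + g (t + 1 / 20)) :
    92 / 1000 * Λ ≤ ∫ t in (-(31 / 10) : ℝ)..0, gph t * g t := by
  have i1 : ∀ a b : ℝ, IntervalIntegrable (fun t => gph t * g t) volume a b :=
    fun a b => (gph_mul_int hgm hg0 hgle).intervalIntegrable
  have i2 : ∀ a b : ℝ, IntervalIntegrable (fun t => gph t * g (t + 1 / 20)) volume a b :=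
    fun a b => (gph_mul_shift_int hgm hg0 hgle _).intervalIntegrable
  set G : ℝ := ∫ t in (-(31 / 10) : ℝ)..0, gph t * g t with hG
  have hpos : ∀ a b : ℝ, a ≤ b → 0 ≤ ∫ t in a..b, gph t * g t := fun a b hab =>
    intervalIntegral.integral_nonneg hab fun t _ => mul_nonneg (gph_nonneg t) (hg0 t)
  have s1 : ∫ t in (-(31 / 10) : ℝ)..(-(2 / 10)), gph t * g t ≤ G := by
    rw [hG, ← intervalIntegral.integral_add_adjacent_intervals (i1 (-(31 / 10)) (-(2 / 10)))
      (i1 (-(2 / 10)) 0)]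
    have := hpos (-(2 / 10)) 0 (by norm_num)
    linarith
  have s2 : ∫ t in (-(31 / 10) : ℝ)..(-(2 / 10)), gph t * g (t + 1 / 20) ≤ G := by
    have h1 : ∫ t in (-(31 / 10) : ℝ)..(-(2 / 10)), gph t * g (t + 1 / 20)
        ≤ ∫ t in (-(31 / 10) : ℝ)..(-(2 / 10)), gph (t + 1 / 20) * g (t + 1 / 20) := by
      apply intervalIntegral.integral_mono_on (by norm_num) (i2 _ _)
      · exact ((gph_mul_int hgm hg0 hgle).comp_add_right (1 / 20)).intervalIntegrable
      · intro t ht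
        apply mul_le_mul_of_nonneg_right _ (hg0 _)
        apply gph_anti
        rw [abs_of_nonpos (by linarith [ht.2]), abs_of_nonpos (by linarith [ht.2])]
        linarith
    rw [intervalIntegral.integral_comp_add_right (fun t => gph t * g t)] at h1
    refine h1.trans ?_
    rw [hG, ← intervalIntegral.integral_add_adjacent_intervals (i1 (-(31 / 10)) (-(31 / 10) + 1 / 20))
      (i1 (-(31 / 10) + 1 / 20) 0),
      ← intervalIntegral.integral_add_adjacent_intervals (i1 (-(31 / 10) + 1 / 20)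
        (-(2 / 10) + 1 / 20)) (i1 (-(2 / 10) + 1 / 20) 0)]
    have h2 := hpos (-(31 / 10)) (-(31 / 10) + 1 / 20) (by norm_num)
    have h3 := hpos (-(2 / 10) + 1 / 20) 0 (by norm_num)
    linarith
  have s3 : (97 / 100 * Λ) * ∫ t in (-(31 / 10) : ℝ)..(-(2 / 10)), gph t
      ≤ (∫ t in (-(31 / 10) : ℝ)..(-(2 / 10)), gph t * g t)
        + ∫ t in (-(31 / 10) : ℝ)..(-(2 / 10)), gph t * g (t + 1 / 20) := by
    rw [← intervalIntegral.integral_const_mul, ← intervalIntegral.integral_add (i1 _ _) (i2 _ _)]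
    apply intervalIntegral.integral_mono_on (by norm_num)
      (gph_int.intervalIntegrable.const_mul _) ((i1 _ _).add (i2 _ _))
    intro t ht
    have h1 := hg1 t ht.1 ht.2
    have h2 := gph_nonneg t
    nlinarith
  have s4 : 191 / 1000 ≤ ∫ t in (-(31 / 10) : ℝ)..(-(2 / 10)), gph t := by
    rw [← intervalIntegral.integral_add_adjacent_intervals
      (gph_int.intervalIntegrable (a := -(31 / 10)) (b := -1)) gph_int.intervalIntegrable]
    have h1 : 0 ≤ ∫ t in (-(31 / 10) : ℝ)..(-1), gph t :=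
      intervalIntegral.integral_nonneg (by norm_num) fun t _ => gph_nonneg t
    have h2 : ∫ _t in (-1 : ℝ)..(-(2 / 10)), (239 / 1000 : ℝ)
        ≤ ∫ t in (-1 : ℝ)..(-(2 / 10)), gph t := by
      apply intervalIntegral.integral_mono_on (by norm_num) intervalIntegrable_const
        gph_int.intervalIntegrable
      intro t ht
      refine gph_one_ge.trans (gph_anti ?_)
      rw [abs_one, abs_le]
      exact ⟨ht.1, by linarith [ht.2]⟩
    rw [intervalIntegral.integral_const, smul_eq_mul] at h2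
    linarith
  have s5 : (97 / 100 * Λ) * (191 / 1000) ≤ (97 / 100 * Λ)
      * ∫ t in (-(31 / 10) : ℝ)..(-(2 / 10)), gph t :=
    mul_le_mul_of_nonneg_left s4 (by positivity)
  nlinarith

/-- far part of the gain, fixed `a'` -/
lemma gain_far {g ψ : ℝ → ℝ} (hgm : Measurable g) (hg0 : ∀ t, 0 ≤ g t) (hgle : ∀ t, g t ≤ 1)
    (hψm : Measurable ψ) (hψ0 : ∀ t, 0 ≤ ψ t) (hψ1 : ∀ t, ψ t ≤ 1)
    (hg2 : ∀ r, 3 / 20 ≤ r → ψ (r - 1 / 20) - ψ r ≤ g (-r))
    (hψa : AntitoneOn ψ (Ici 0)) (hψbig : 398 / 400 ≤ ψ (31 / 10))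
    {a : ℝ} (ha : 31 / 10 ≤ a) (hψs : ψ a ≤ 1 / 10) :
    1 / 10 * ∫ t in Ioi a, gph t ≤ ∫ t in Iio (-(31 / 10) : ℝ), gph t * g t := by
  have iψ : ∀ b c : ℝ, IntervalIntegrable (fun t => gph t * ψ t) volume b c :=
    fun b c => (gph_mul_int hψm hψ0 hψ1).intervalIntegrable
  have iψs : ∀ b c : ℝ, IntervalIntegrable (fun t => gph (t + 1 / 20) * ψ t) volume b c :=
    fun b c => (gph_shift_mul_int hψm hψ0 hψ1 _).intervalIntegrable
  have iψr : ∀ b c : ℝ, IntervalIntegrable (fun t => gph t * ψ (t - 1 / 20)) volume b c := by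
    intro b c
    have := gph_mul_shift_int hψm hψ0 hψ1 (-(1 / 20))
    simp_rw [← sub_eq_add_neg] at this
    exact this.intervalIntegrable
  have ip : ∀ b c : ℝ, IntervalIntegrable gph volume b c := fun b c => gph_int.intervalIntegrable
  have ips : ∀ b c : ℝ, IntervalIntegrable (fun t => gph (t + 1 / 20)) volume b c :=
    fun b c => (gph_int.comp_add_right _).intervalIntegrable
  -- reflection
  have r1 : ∫ t in Iio (-(31 / 10) : ℝ), gph t * g t = ∫ r in Ioi (31 / 10 : ℝ), gph r * g (-r) := by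
    rw [← integral_Iic_eq_integral_Iio, ← integral_comp_neg_Ioi]
    simp_rw [gph_neg]
  have igneg : Integrable (fun r => gph r * g (-r)) :=
    gph_mul_int (hgm.comp measurable_neg) (fun t => hg0 _) (fun t => hgle _)
  have r2 : ∫ r in (31 / 10 : ℝ)..(a + 1 / 20), gph r * (ψ (r - 1 / 20) - ψ r)
      ≤ ∫ r in Ioi (31 / 10 : ℝ), gph r * g (-r) := by
    have h1 : ∫ r in (31 / 10 : ℝ)..(a + 1 / 20), gph r * (ψ (r - 1 / 20) - ψ r)
        ≤ ∫ r in (31 / 10 : ℝ)..(a + 1 / 20), gph r * g (-r) := by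
      apply intervalIntegral.integral_mono_on (by linarith)
      · simp_rw [mul_sub]
        exact (iψr _ _).sub (iψ _ _)
      · exact igneg.intervalIntegrable
      · intro r hr
        exact mul_le_mul_of_nonneg_left (hg2 r (by linarith [hr.1])) (gph_nonneg r)
    refine h1.trans ?_
    rw [intervalIntegral.integral_of_le (by linarith)]
    apply setIntegral_mono_set igneg.integrableOn
    · exact Filter.Eventually.of_forall fun r => mul_nonneg (gph_nonneg r) (hg0 _)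
    · exact Ioc_subset_Ioi_self.eventuallyLE
  have r3 : ∫ r in (31 / 10 : ℝ)..(a + 1 / 20), gph r * (ψ (r - 1 / 20) - ψ r)
      = (∫ r in (61 / 20 : ℝ)..a, gph (r + 1 / 20) * ψ r)
        - ∫ r in (31 / 10 : ℝ)..(a + 1 / 20), gph r * ψ r := by
    simp_rw [mul_sub]
    rw [intervalIntegral.integral_sub (iψr _ _) (iψ _ _)]
    congr 1
    have h := intervalIntegral.integral_comp_add_right (a := (61 / 20 : ℝ)) (b := a)
      (fun r => gph r * ψ (r - 1 / 20)) (1 / 20)
    simp only [add_sub_cancel_right] at h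
    rw [h]
    norm_num
  -- splitting
  have r4 : ∫ r in (61 / 20 : ℝ)..a, gph (r + 1 / 20) * ψ r
      = (∫ r in (61 / 20 : ℝ)..(31 / 10), gph (r + 1 / 20) * ψ r)
        + ∫ r in (31 / 10 : ℝ)..a, gph (r + 1 / 20) * ψ r :=
    (intervalIntegral.integral_add_adjacent_intervals (iψs _ _) (iψs _ _)).symm
  have r5 : ∫ r in (31 / 10 : ℝ)..(a + 1 / 20), gph r * ψ r
      = (∫ r in (31 / 10 : ℝ)..a, gph r * ψ r) + ∫ r in a..(a + 1 / 20), gph r * ψ r :=
    (intervalIntegral.integral_add_adjacent_intervals (iψ _ _) (iψ _ _)).symm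
  have r6 : ψ (31 / 10) * ∫ r in (61 / 20 : ℝ)..(31 / 10), gph (r + 1 / 20)
      ≤ ∫ r in (61 / 20 : ℝ)..(31 / 10), gph (r + 1 / 20) * ψ r := by
    rw [← intervalIntegral.integral_const_mul]
    apply intervalIntegral.integral_mono_on (by norm_num) ((ips _ _).const_mul _) (iψs _ _)
    intro r hr
    rw [mul_comm]
    apply mul_le_mul_of_nonneg_left _ (gph_nonneg _)
    exact hψa (mem_Ici.2 (by linarith [hr.1])) (mem_Ici.2 (by norm_num)) hr.2
  have r7 : (∫ r in (31 / 10 : ℝ)..a, gph r * ψ r) - ∫ r in (31 / 10 : ℝ)..a, gph (r + 1 / 20) * ψ r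
      ≤ ψ (31 / 10) * ((∫ r in (31 / 10 : ℝ)..a, gph r) - ∫ r in (31 / 10 : ℝ)..a, gph (r + 1 / 20)) := by
    rw [← intervalIntegral.integral_sub (iψ _ _) (iψs _ _),
      ← intervalIntegral.integral_sub (ip _ _) (ips _ _), ← intervalIntegral.integral_const_mul]
    apply intervalIntegral.integral_mono_on ha ((iψ _ _).sub (iψs _ _))
      (((ip _ _).sub (ips _ _)).const_mul _)
    intro r hr
    have h1 : ψ r ≤ ψ (31 / 10) := hψa (mem_Ici.2 (by norm_num)) (mem_Ici.2 (by linarith [hr.1])) hr.1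
    have h2 : 0 ≤ gph r - gph (r + 1 / 20) := by
      rw [sub_nonneg]
      apply gph_anti
      rw [abs_of_nonneg (by linarith [hr.1]), abs_of_nonneg (by linarith [hr.1])]
      linarith
    nlinarith
  have r8 : ∫ r in a..(a + 1 / 20), gph r * ψ r ≤ 1 / 10 * ∫ r in a..(a + 1 / 20), gph r := by
    rw [← intervalIntegral.integral_const_mul]
    apply intervalIntegral.integral_mono_on (by linarith) (iψ _ _) ((ip _ _).const_mul _)
    intro r hr
    rw [mul_comm]
    apply mul_le_mul_of_nonneg_right _ (gph_nonneg _)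
    exact (hψa (mem_Ici.2 (by linarith)) (mem_Ici.2 (by linarith [hr.1])) hr.1).trans hψs
  -- evaluation of the gph integrals
  have r9 : ∫ r in (61 / 20 : ℝ)..(31 / 10), gph (r + 1 / 20) = ∫ r in (31 / 10 : ℝ)..(63 / 20), gph r := by
    rw [intervalIntegral.integral_comp_add_right]
    norm_num
  have r10 : ∫ r in (31 / 10 : ℝ)..a, gph (r + 1 / 20) = ∫ r in (63 / 20 : ℝ)..(a + 1 / 20), gph r := by
    rw [intervalIntegral.integral_comp_add_right]
    norm_num
  have r11 : (∫ r in (31 / 10 : ℝ)..(63 / 20), gph r) + ∫ r in (63 / 20 : ℝ)..(a + 1 / 20), gph r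
      = (∫ r in (31 / 10 : ℝ)..a, gph r) + ∫ r in a..(a + 1 / 20), gph r := by
    rw [intervalIntegral.integral_add_adjacent_intervals (ip _ _) (ip _ _),
      intervalIntegral.integral_add_adjacent_intervals (ip _ _) (ip _ _)]
  have r12 : ψ (31 / 10) * (∫ r in a..(a + 1 / 20), gph r) - 1 / 10 * ∫ r in a..(a + 1 / 20), gph r
      ≤ ∫ r in (31 / 10 : ℝ)..(a + 1 / 20), gph r * (ψ (r - 1 / 20) - ψ r) := by
    rw [r3, r4, r5]
    rw [r9] at r6
    rw [r10] at r7
    have e : ψ (31 / 10) * ((∫ r in (31 / 10 : ℝ)..a, gph r) - ∫ r in (63 / 20 : ℝ)..(a + 1 / 20), gph r)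
        = ψ (31 / 10) * (∫ r in (31 / 10 : ℝ)..(63 / 20), gph r)
          - ψ (31 / 10) * ∫ r in a..(a + 1 / 20), gph r := by
      rw [← mul_sub]
      congr 1
      linarith
    rw [e] at r7
    linarith
  have r13 := tail_step (a := a) (by linarith)
  have r14 := tail_nonneg a
  have r15 : 0 ≤ ∫ r in a..(a + 1 / 20), gph r :=
    intervalIntegral.integral_nonneg (by linarith) fun t _ => gph_nonneg t
  rw [r1]
  refine le_trans ?_ r2
  refine le_trans ?_ r12
  nlinarith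

/-- far part of the gain -/
lemma gain_far_V {f g ψ : ℝ → ℝ}
    (hgm : Measurable g) (hg0 : ∀ t, 0 ≤ g t) (hgle : ∀ t, g t ≤ 1)
    (hψm : Measurable ψ) (hψ0 : ∀ t, 0 ≤ ψ t) (hψ1 : ∀ t, ψ t ≤ 1)
    (hfa : AntitoneOn f (Ici 0)) (hfbig : 399 / 400 ≤ f (31 / 10))
    (hg2 : ∀ r, 3 / 20 ≤ r → ψ (r - 1 / 20) - ψ r ≤ g (-r))
    (hψa : AntitoneOn ψ (Ici 0)) (hψf : ∀ t, 0 ≤ t → ψ t ≤ f t) (hψbig : 398 / 400 ≤ ψ (31 / 10)) :
    1 / 10 * ∫ t in {t | 0 < t ∧ f t < 1 / 10}, gph t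
      ≤ ∫ t in Iio (-(31 / 10) : ℝ), gph t * g t := by
  have hG0 : 0 ≤ ∫ t in Iio (-(31 / 10) : ℝ), gph t * g t :=
    setIntegral_nonneg measurableSet_Iio fun t _ => mul_nonneg (gph_nonneg t) (hg0 t)
  set V : Set ℝ := {t | 0 < t ∧ f t < 1 / 10} with hV
  have hVlow : ∀ t ∈ V, 31 / 10 < t := by
    intro t ht
    by_contra hcon
    push Not at hcon
    have := hfa (mem_Ici.2 ht.1.le) (mem_Ici.2 (by norm_num)) hcon
    linarith [ht.2]
  rcases Set.eq_empty_or_nonempty V with h | h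
  · rw [h]
    simpa using hG0
  · have hbdd : BddBelow V := ⟨31 / 10, fun t ht => (hVlow t ht).le⟩
    apply le_of_forall_pos_le_add
    intro ε hε
    obtain ⟨a, haV, ha⟩ := exists_lt_of_csInf_lt h (lt_add_of_pos_right (sInf V) hε)
    have h1 := gain_far hgm hg0 hgle hψm hψ0 hψ1 hg2 hψa hψbig (hVlow a haV).le
      ((hψf a haV.1.le).trans haV.2.le)
    have hle : sInf V ≤ a := csInf_le hbdd haV
    have h2 : ∫ t in V, gph t ≤ ∫ t in Ici (sInf V), gph t := by
      apply setIntegral_mono_set gph_int.integrableOn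
      · exact Filter.Eventually.of_forall gph_nonneg
      · exact LE.le.eventuallyLE fun t ht => csInf_le hbdd ht
    have h3 : ∫ t in Ici (sInf V), gph t = (∫ t in (sInf V)..a, gph t) + ∫ t in Ioi a, gph t := by
      rw [integral_Ici_eq_integral_Ioi, intervalIntegral.integral_of_le hle,
        ← setIntegral_union (Set.Ioc_disjoint_Ioi le_rfl) measurableSet_Ioi gph_int.integrableOn
          gph_int.integrableOn, Ioc_union_Ioi_eq_Ioi hle]
    have h4 : ∫ t in (sInf V)..a, gph t ≤ ε := by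
      have h5 : ∫ t in (sInf V)..a, gph t ≤ ∫ _t in (sInf V)..a, (2 / 5 : ℝ) := by
        apply intervalIntegral.integral_mono_on hle gph_int.intervalIntegrable
          intervalIntegrable_const
        intro t _
        exact gph_le t
      rw [intervalIntegral.integral_const, smul_eq_mul] at h5
      nlinarith
    linarith

/-- **The one-dimensional core of the measure lemma.** -/
theorem oneDim_core (f m l g ψ : ℝ → ℝ)
    (hfm : Measurable f) (hmm : Measurable m) (hlm : Measurable l) (hgm : Measurable g)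
    (hψm : Measurable ψ)
    (hm0 : ∀ t, 0 ≤ m t) (hm1 : ∀ t, m t ≤ 1) (hl0 : ∀ t, 0 ≤ l t) (hlle : ∀ t, l t ≤ 1)
    (hg0 : ∀ t, 0 ≤ g t) (hgle : ∀ t, g t ≤ 1) (hψ0 : ∀ t, 0 ≤ ψ t) (hψ1 : ∀ t, ψ t ≤ 1)
    (hfa : AntitoneOn f (Ici 0)) (hfbig : 399 / 400 ≤ f (31 / 10))
    (hl1 : ∀ t, 0 ≤ t → l t ≤ m t) (hl2 : ∀ t, 0 ≤ t → l t ≤ f t)
    (hl3 : ∀ t, 0 ≤ t → t ≤ 29 / 10 → l t ≤ m t - 99 / 100 * m (t + 1 / 10))
    (hg1 : ∀ t, -(31 / 10) ≤ t → t ≤ -(2 / 10) → ∀ r, 0 ≤ r → 1 / 10 ≤ f r →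
      97 / 100 * m r ≤ g t + g (t + 1 / 20))
    (hg2 : ∀ r, 3 / 20 ≤ r → ψ (r - 1 / 20) - ψ r ≤ g (-r))
    (hψa : AntitoneOn ψ (Ici 0)) (hψf : ∀ t, 0 ≤ t → ψ t ≤ f t) (hψbig : 398 / 400 ≤ ψ (31 / 10)) :
    ∫ t in Ioi (0 : ℝ), gph t * l t ≤ ∫ t in Iio (0 : ℝ), gph t * g t := by
  set U : Set ℝ := {r | 0 ≤ r ∧ 1 / 10 ≤ f r} with hU
  set V : Set ℝ := {t | 0 < t ∧ f t < 1 / 10} with hV
  have hVm : MeasurableSet V := measurableSet_Ioi.inter (hfm measurableSet_Iio)
  set Λ : ℝ := sSup (m '' U) with hΛdef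
  have hbdd : BddAbove (m '' U) := ⟨1, by
    rintro _ ⟨r, _, rfl⟩
    exact hm1 r⟩
  have hsmallU : ∀ t, 0 ≤ t → t ≤ 31 / 10 → t ∈ U := by
    intro t h0 h1
    refine ⟨h0, ?_⟩
    have := hfa (mem_Ici.2 h0) (mem_Ici.2 (by norm_num)) h1
    linarith
  have hUne : (m '' U).Nonempty := ⟨m 0, ⟨0, hsmallU 0 le_rfl (by norm_num), rfl⟩⟩
  have hΛle : ∀ r ∈ U, m r ≤ Λ := fun r hr => le_csSup hbdd ⟨r, hr, rfl⟩
  have hΛ0 : 0 ≤ Λ := (hm0 0).trans (hΛle 0 (hsmallU 0 le_rfl (by norm_num)))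
  have hΛg : ∀ t, -(31 / 10) ≤ t → t ≤ -(2 / 10) → 97 / 100 * Λ ≤ g t + g (t + 1 / 20) := by
    intro t h1 h2
    have h3 : Λ ≤ (g t + g (t + 1 / 20)) / (97 / 100) := by
      apply csSup_le hUne
      rintro _ ⟨r, hr, rfl⟩
      rw [le_div_iff₀ (by norm_num)]
      have := hg1 t h1 h2 r hr.1 hr.2
      linarith
    rw [le_div_iff₀ (by norm_num)] at h3
    linarith
  have hLn := loss_near hΛ0 hmm hm0 hm1 hlm hl0 hlle hl3
    (fun t h0 h1 => hΛle t (hsmallU t h0 h1))
  have hGn := gain_near hΛ0 hgm hg0 hgle hΛg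
  have hGf := gain_far_V hgm hg0 hgle hψm hψ0 hψ1 hfa hfbig hg2 hψa hψf hψbig
  have il : Integrable (fun t => gph t * l t) := gph_mul_int hlm hl0 hlle
  have ig : Integrable (fun t => gph t * g t) := gph_mul_int hgm hg0 hgle
  -- the loss
  have s1 : ∫ t in Ioi (0 : ℝ), gph t * l t
      = (∫ t in (0 : ℝ)..(29 / 10), gph t * l t) + ∫ t in Ioi (29 / 10 : ℝ), gph t * l t := by
    rw [intervalIntegral.integral_of_le (by norm_num),
      ← setIntegral_union (Set.Ioc_disjoint_Ioi le_rfl) measurableSet_Ioi il.integrableOn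
        il.integrableOn, Ioc_union_Ioi_eq_Ioi (by norm_num)]
  have s2 : ∫ t in Ioi (29 / 10 : ℝ), gph t * l t
      ≤ 2 / 100 * Λ + 1 / 10 * ∫ t in V, gph t := by
    have iV : Integrable (V.indicator gph) := gph_int.indicator hVm
    have h1 : ∫ t in Ioi (29 / 10 : ℝ), gph t * l t
        ≤ ∫ t in Ioi (29 / 10 : ℝ), (Λ * gph t + 1 / 10 * V.indicator gph t) := by
      apply setIntegral_mono_on il.integrableOn
        ((gph_int.const_mul _).add (iV.const_mul _)).integrableOn measurableSet_Ioi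
      intro t ht
      have ht0 : (0 : ℝ) < t := lt_trans (by norm_num) ht
      have hp := gph_nonneg t
      change gph t * l t ≤ Λ * gph t + 1 / 10 * V.indicator gph t
      by_cases h : f t < 1 / 10
      · have hmem : t ∈ V := ⟨ht0, h⟩
        rw [Set.indicator_of_mem hmem]
        have h2 : l t ≤ 1 / 10 := (hl2 t ht0.le).trans h.le
        nlinarith
      · have hmem : t ∉ V := fun h' => h h'.2
        rw [Set.indicator_of_notMem hmem]
        have h2 : l t ≤ Λ := (hl1 t ht0.le).trans (hΛle t ⟨ht0.le, not_lt.1 h⟩)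
        nlinarith
    refine h1.trans ?_
    rw [integral_add (gph_int.const_mul _).integrableOn (iV.const_mul _).integrableOn,
      integral_const_mul, integral_const_mul]
    have h2 : ∫ t in Ioi (29 / 10 : ℝ), V.indicator gph t ≤ ∫ t in V, gph t := by
      rw [← integral_indicator hVm]
      exact setIntegral_le_integral iV
        (Filter.Eventually.of_forall fun t => Set.indicator_nonneg (fun _ _ => gph_nonneg _) t)
    have h3 := tail_29
    nlinarith
  -- the gain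
  have s3 : ∫ t in Iio (0 : ℝ), gph t * g t
      = (∫ t in Iio (-(31 / 10) : ℝ), gph t * g t) + ∫ t in (-(31 / 10) : ℝ)..0, gph t * g t := by
    rw [intervalIntegral.integral_of_le (by norm_num), ← integral_Iic_eq_integral_Iio,
      ← integral_Iic_eq_integral_Iio,
      ← setIntegral_union (Set.Iic_disjoint_Ioc le_rfl) measurableSet_Ioc ig.integrableOn
        ig.integrableOn, Iic_union_Ioc_eq_Iic (by norm_num)]
  rw [s1, s3]
  linarith

end Vale.Agent.P262B
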