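import Vale.Agent.P262B.A3S

/-! Measure of slices and symmetry of the product Gaussian (for A3a). -/

open MeasureTheory ProbabilityTheory Set
open scoped ENNReal NNReal Pointwise

namespace Vale.Agent.P262B

variable {X : Type*} [NormedAddCommGroup X] [InnerProductSpace ℝ X] [FiniteDimensional ℝ X]
  [MeasurableSpace X] [BorelSpace X]

/-! ### measurability in `t` -/

omit [NormedAddCommGroup X] [InnerProductSpace ℝ X] [FiniteDimensional ℝ X] [BorelSpace X] in
lemma slc_real_measurable {D : Set (X × ℝ)} (hD : MeasurableSet D) (ν : Measure X)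
    [IsProbabilityMeasure ν] : Measurable (fun t => ν.real {x | (x, t) ∈ D}) := by
  have h := measurable_measure_prodMk_right (μ := ν) hD
  exact h.ennreal_toReal

lemma gaussian_slice {D : Set (X × ℝ)} (hD : MeasurableSet D) {I : Set ℝ} (hI : MeasurableSet I) :
    ((stdGaussian X).prod (gaussianReal 0 1)) (D ∩ {p | p.2 ∈ I})
      = ENNReal.ofReal (∫ t in I, gph t * (stdGaussian X).real {x | (x, t) ∈ D}) := by
  have hDI : MeasurableSet (D ∩ {p : X × ℝ | p.2 ∈ I}) := hD.inter (measurable_snd hI)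
  rw [Measure.prod_apply_symm hDI, gaussianReal_of_var_ne_zero _ (by norm_num)]
  have hm : Measurable (fun t => (stdGaussian X) ((fun x => (x, t)) ⁻¹' (D ∩ {p | p.2 ∈ I}))) :=
    measurable_measure_prodMk_right hDI
  rw [lintegral_withDensity_eq_lintegral_mul _ (measurable_gaussianPDF 0 1) hm]
  have hint : Integrable (fun t => gph t * (stdGaussian X).real {x | (x, t) ∈ D}) :=
    gph_mul_int (slc_real_measurable hD _) (fun _ => measureReal_nonneg) (fun _ => measureReal_le_one)
  rw [ofReal_integral_eq_lintegral_ofReal hint.integrableOn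
    (Filter.Eventually.of_forall fun t => mul_nonneg (gph_nonneg t) measureReal_nonneg),
    ← lintegral_indicator hI]
  apply lintegral_congr
  intro t
  by_cases ht : t ∈ I
  · rw [Set.indicator_of_mem ht]
    have e : (fun x : X => (x, t)) ⁻¹' (D ∩ {p | p.2 ∈ I}) = {x | (x, t) ∈ D} := by
      ext x
      simp [ht]
    rw [Pi.mul_apply, e, ENNReal.ofReal_mul (gph_nonneg t), ofReal_measureReal]
    rfl
  · rw [Set.indicator_of_notMem ht]
    have e : (fun x : X => (x, t)) ⁻¹' (D ∩ {p | p.2 ∈ I}) = ∅ := by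
      ext x
      simp [ht]
    rw [Pi.mul_apply, e, measure_empty, mul_zero]

/-- symmetry of the product measure -/
lemma prod_neg : ((stdGaussian X).prod (gaussianReal 0 1)).map (fun p => -p)
    = (stdGaussian X).prod (gaussianReal 0 1) := by
  have h1 : (gaussianReal 0 1).map (fun x => -x) = gaussianReal 0 1 := by
    rw [gaussianReal_map_neg, neg_zero]
  have h2 := Measure.map_prod_map (stdGaussian X) (gaussianReal 0 1)
    (measurable_neg : Measurable fun x : X => -x) (measurable_neg : Measurable fun x : ℝ => -x)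
  rw [stdGaussian_neg, h1] at h2
  exact h2.symm

/-- a symmetric set has half of its mass above -/
lemma symm_half {D : Set (X × ℝ)} (hD : MeasurableSet D) (hs : ∀ p, p ∈ D ↔ -p ∈ D) :
    ((stdGaussian X).prod (gaussianReal 0 1)) (D ∩ {p | p.2 ∈ Iio (0 : ℝ)})
      = ((stdGaussian X).prod (gaussianReal 0 1)) (D ∩ {p | p.2 ∈ Ioi (0 : ℝ)}) := by
  have hm : MeasurableSet (D ∩ {p : X × ℝ | p.2 ∈ Ioi (0 : ℝ)}) :=
    hD.inter (measurable_snd measurableSet_Ioi)
  have h1 : ((stdGaussian X).prod (gaussianReal 0 1)).map (fun p => -p)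
      (D ∩ {p | p.2 ∈ Ioi (0 : ℝ)})
      = ((stdGaussian X).prod (gaussianReal 0 1)) (D ∩ {p | p.2 ∈ Ioi (0 : ℝ)}) := by
    rw [prod_neg]
  rw [← h1, Measure.map_apply measurable_neg hm]
  congr 1
  ext p
  simp only [Set.mem_inter_iff, Set.mem_ofPred_eq, Set.mem_preimage, Set.mem_Iio, Set.mem_Ioi,
    Prod.snd_neg, Left.neg_pos_iff]
  rw [hs p]

omit [BorelSpace X] in
/-- measure of the hyperplane `t = 0` -/
lemma prod_zero_slice (D : Set (X × ℝ)) :
    ((stdGaussian X).prod (gaussianReal 0 1)) (D ∩ {p | p.2 ∈ ({0} : Set ℝ)}) = 0 := by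
  apply measure_mono_null Set.inter_subset_right
  have : {p : X × ℝ | p.2 ∈ ({0} : Set ℝ)} = (Set.univ : Set X) ×ˢ ({0} : Set ℝ) := by
    ext p
    simp
  rw [this, Measure.prod_prod]
  have h0 : gaussianReal 0 1 {(0 : ℝ)} = 0 := by
    have : NullSingletonClass (gaussianReal 0 1) := nullSingletonClass_gaussianReal (by norm_num)
    exact measure_singleton 0
  rw [h0, mul_zero]

lemma symm_total {D : Set (X × ℝ)} (hD : MeasurableSet D) (hs : ∀ p, p ∈ D ↔ -p ∈ D) :
    ((stdGaussian X).prod (gaussianReal 0 1)) D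
      = 2 * ((stdGaussian X).prod (gaussianReal 0 1)) (D ∩ {p | p.2 ∈ Ioi (0 : ℝ)}) := by
  set μ := (stdGaussian X).prod (gaussianReal 0 1) with hμ
  have hIoi : MeasurableSet {p : X × ℝ | p.2 ∈ Ioi (0 : ℝ)} := measurable_snd measurableSet_Ioi
  have h1 := measure_inter_add_sdiff (μ := μ) D hIoi
  have h2 : μ (D \ {p | p.2 ∈ Ioi (0 : ℝ)}) = μ (D ∩ {p | p.2 ∈ Iio (0 : ℝ)}) := by
    apply le_antisymm
    · have hsub : D \ {p | p.2 ∈ Ioi (0 : ℝ)} ⊆ (D ∩ {p | p.2 ∈ Iio (0 : ℝ)})
          ∪ (D ∩ {p | p.2 ∈ ({0} : Set ℝ)}) := by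
        rintro p ⟨hp1, hp2⟩
        simp only [Set.mem_ofPred_eq, Set.mem_Ioi, not_lt] at hp2
        rcases lt_or_eq_of_le hp2 with h | h
        · exact Or.inl ⟨hp1, h⟩
        · exact Or.inr ⟨hp1, h⟩
      refine (measure_mono hsub).trans ((measure_union_le _ _).trans ?_)
      rw [hμ, prod_zero_slice, add_zero]
    · apply measure_mono
      rintro p ⟨hp1, hp2⟩
      refine ⟨hp1, ?_⟩
      simp only [Set.mem_ofPred_eq, Set.mem_Ioi, not_lt]
      exact le_of_lt hp2
  rw [h2, hμ, symm_half hD hs, ← hμ] at h1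
  rw [← h1, two_mul]

end Vale.Agent.P262B
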