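import Vale.Agent.P262B.A2
import Vale.Agent.P262B.A3V
import Vale.Agent.P262B.A3I

/-! Slices of a closed convex symmetric body of `X × ℝ` (for the measure lemma A3a). -/

open MeasureTheory ProbabilityTheory Set
open scoped ENNReal NNReal

namespace Vale.Agent.P262B

variable {X : Type*} [NormedAddCommGroup X] [InnerProductSpace ℝ X] [FiniteDimensional ℝ X]
  [MeasurableSpace X] [BorelSpace X]

/-- horizontal slice -/
def slc (K : Set (X × ℝ)) (t : ℝ) : Set X := {x | (x, t) ∈ K}

omit [InnerProductSpace ℝ X] [FiniteDimensional ℝ X] [MeasurableSpace X] [BorelSpace X] in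
lemma slc_closed {K : Set (X × ℝ)} (hc : IsClosed K) (t : ℝ) : IsClosed (slc K t) :=
  hc.preimage (by fun_prop : Continuous fun x : X => (x, t))

omit [InnerProductSpace ℝ X] [FiniteDimensional ℝ X] in
lemma slc_meas {K : Set (X × ℝ)} (hc : IsClosed K) (t : ℝ) : MeasurableSet (slc K t) :=
  (slc_closed hc t).measurableSet

omit [FiniteDimensional ℝ X] [MeasurableSpace X] [BorelSpace X] in
/-- convex combination of slices -/
lemma slc_combo {K : Set (X × ℝ)} (hconv : Convex ℝ K) {p q : ℝ} {x y : X} {θ : ℝ}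
    (h0 : 0 ≤ θ) (h1 : θ ≤ 1) (hx : x ∈ slc K p) (hy : y ∈ slc K q) :
    (1 - θ) • x + θ • y ∈ slc K ((1 - θ) * p + θ * q) := by
  have := hconv hx hy (sub_nonneg.2 h1) h0 (by ring)
  simpa [slc] using this

omit [FiniteDimensional ℝ X] [MeasurableSpace X] [BorelSpace X] in
/-- if `p ≤ q ≤ r` then `K^p ∩ K^r ⊆ K^q` -/
lemma slc_mid {K : Set (X × ℝ)} (hconv : Convex ℝ K) {p q r : ℝ} (hpq : p ≤ q) (hqr : q ≤ r)
    {x : X} (hp : x ∈ slc K p) (hr : x ∈ slc K r) : x ∈ slc K q := by
  rcases eq_or_lt_of_le (hpq.trans hqr) with h | h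
  · have : q = p := by linarith
    rwa [this]
  · have hpos : 0 < r - p := sub_pos.2 h
    have h1 := slc_combo hconv (θ := (q - p) / (r - p)) (div_nonneg (by linarith) hpos.le)
      (by rw [div_le_one hpos]; linarith) hp hr
    have h2 : (1 - (q - p) / (r - p)) * p + (q - p) / (r - p) * r = q := by
      field_simp
      ring
    rw [h2, ← add_smul, sub_add_cancel, one_smul] at h1
    exact h1

omit [InnerProductSpace ℝ X] [FiniteDimensional ℝ X] [MeasurableSpace X] [BorelSpace X] in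
lemma slc_neg {K : Set (X × ℝ)} (hsymm : ∀ p ∈ K, -p ∈ K) (t : ℝ) (x : X) :
    x ∈ slc K (-t) ↔ -x ∈ slc K t := by
  constructor
  · intro h
    have := hsymm _ h
    simpa [slc] using this
  · intro h
    have := hsymm _ h
    simpa [slc] using this

/-- `stdGaussian` is symmetric -/
lemma stdGaussian_neg : (stdGaussian X).map (fun x => -x) = stdGaussian X :=
  stdGaussian_map (LinearIsometryEquiv.neg ℝ)

lemma stdGaussian_real_neg (A : Set X) (hA : MeasurableSet A) :
    (stdGaussian X).real ((fun x => -x) ⁻¹' A) = (stdGaussian X).real A := by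
  have h : ((stdGaussian X).map (fun x => -x)).real A = (stdGaussian X).real A := by
    rw [stdGaussian_neg]
  rw [← h, map_measureReal_apply measurable_neg hA]

/-- `H(p,q)` -/
noncomputable def HH (K : Set (X × ℝ)) (p q : ℝ) : ℝ := (stdGaussian X).real (slc K p ∩ slc K q)

/-- `f(t)` -/
noncomputable def fS (K : Set (X × ℝ)) (t : ℝ) : ℝ := (stdGaussian X).real (slc K t)

/-- `M(p,q)` = measure of `(K^p ∩ K^q) \ K^{p - 1/10}` -/
noncomputable def MM' (K : Set (X × ℝ)) (p q : ℝ) : ℝ :=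
  (stdGaussian X).real ((slc K p ∩ slc K q) \ slc K (p - 1 / 10))

omit [BorelSpace X] in
lemma HH_nonneg (K : Set (X × ℝ)) (p q : ℝ) : 0 ≤ HH K p q := measureReal_nonneg

/-- log-concavity of `p ↦ H(p, q)` on `p ≤ q` -/
lemma HH_logConcave {K : Set (X × ℝ)} (hc : IsClosed K) (hconv : Convex ℝ K) {a b q θ : ℝ}
    (h0 : 0 < θ) (h1 : θ < 1) :
    HH K a q ^ (1 - θ) * HH K b q ^ θ ≤ HH K ((1 - θ) * a + θ * b) q := by
  have h := stdGaussian_logConcave h0 h1 ((slc_meas hc a).inter (slc_meas hc q))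
    ((slc_meas hc b).inter (slc_meas hc q))
    ((slc_meas hc ((1 - θ) * a + θ * b)).inter (slc_meas hc q)) (by
      rintro x ⟨hx1, hx2⟩ y ⟨hy1, hy2⟩
      refine ⟨slc_combo hconv h0.le h1.le hx1 hy1, ?_⟩
      have := slc_combo hconv h0.le h1.le hx2 hy2
      rwa [show (1 - θ) * q + θ * q = q by ring] at this)
  have h2 := ENNReal.toReal_mono (measure_ne_top _ _) h
  rw [ENNReal.toReal_mul, ← ENNReal.toReal_rpow, ← ENNReal.toReal_rpow] at h2
  exact h2

/-- four point inequality -/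
lemma HH_four {K : Set (X × ℝ)} (hc : IsClosed K) (hconv : Convex ℝ K) {p' p q : ℝ}
    (hp : p' ≤ p) :
    HH K (p' - 1 / 10) q * HH K p q ≤ HH K p' q * HH K (p - 1 / 10) q := by
  rcases eq_or_lt_of_le hp with h | h
  · rw [h, mul_comm]
  · have hD : 0 < p - p' + 1 / 10 := by linarith
    set θ : ℝ := (1 / 10) / (p - p' + 1 / 10) with hθ
    have hθ0 : 0 < θ := by positivity
    have hθ1 : θ < 1 := by
      rw [hθ, div_lt_one hD]
      linarith
    have e1 : (1 - θ) * (p' - 1 / 10) + θ * p = p' := by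
      rw [hθ]
      field_simp
      ring
    have e2 : (1 - (1 - θ)) * (p' - 1 / 10) + (1 - θ) * p = p - 1 / 10 := by
      rw [hθ]
      field_simp
      ring
    have h1 := HH_logConcave (q := q) hc hconv (a := p' - 1 / 10) (b := p) hθ0 hθ1
    have h2 := HH_logConcave (q := q) hc hconv (a := p' - 1 / 10) (b := p) (θ := 1 - θ)
      (by linarith) (by linarith)
    rw [e1] at h1
    rw [e2] at h2
    have ha := HH_nonneg K (p' - 1 / 10) q
    have hb := HH_nonneg K p q
    set A := HH K (p' - 1 / 10) q with hA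
    set B := HH K p q with hB
    have h3 : A * B = (A ^ (1 - θ) * B ^ θ) * (A ^ (1 - (1 - θ)) * B ^ (1 - θ)) := by
      have hA' : A ^ (1 - θ) * A ^ (1 - (1 - θ)) = A := by
        rw [← Real.rpow_add_of_nonneg ha (by linarith) (by linarith)]
        rw [show (1 - θ) + (1 - (1 - θ)) = 1 by ring, Real.rpow_one]
      have hB' : B ^ θ * B ^ (1 - θ) = B := by
        rw [← Real.rpow_add_of_nonneg hb (by linarith) (by linarith)]
        rw [show θ + (1 - θ) = 1 by ring, Real.rpow_one]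
      calc A * B = (A ^ (1 - θ) * A ^ (1 - (1 - θ))) * (B ^ θ * B ^ (1 - θ)) := by rw [hA', hB']
        _ = _ := by ring
    rw [h3]
    exact mul_le_mul h1 h2 (by positivity) ((by positivity : 0 ≤ A ^ (1 - θ) * B ^ θ).trans h1)

lemma MM'_eq {K : Set (X × ℝ)} (hc : IsClosed K) (hconv : Convex ℝ K) {p q : ℝ} (hpq : p ≤ q) :
    MM' K p q = HH K p q - HH K (p - 1 / 10) q := by
  unfold MM' HH
  have h1 : (slc K p ∩ slc K q) \ slc K (p - 1 / 10)
      = (slc K p ∩ slc K q) \ (slc K (p - 1 / 10) ∩ slc K q) := by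
    ext x
    simp only [Set.mem_sdiff, Set.mem_inter_iff]
    tauto
  rw [h1, measureReal_sdiff]
  · intro x hx
    exact ⟨slc_mid hconv (by linarith) hpq hx.1 hx.2, hx.2⟩
  · exact (slc_meas hc _).inter (slc_meas hc _)

/-- inequality (1) -/
lemma MM'_mul_ge {K : Set (X × ℝ)} (hc : IsClosed K) (hconv : Convex ℝ K) {p' p q : ℝ}
    (hp : p' ≤ p) (hq : p ≤ q) : HH K p' q * MM' K p q ≤ MM' K p' q * HH K p q := by
  rw [MM'_eq hc hconv hq, MM'_eq hc hconv (hp.trans hq)]
  have := HH_four (q := q) hc hconv hp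
  nlinarith

omit [BorelSpace X] in
lemma HH_self (K : Set (X × ℝ)) (t : ℝ) : HH K t t = fS K t := by
  unfold HH fS
  rw [Set.inter_self]

omit [BorelSpace X] in
lemma fS_nonneg (K : Set (X × ℝ)) (t : ℝ) : 0 ≤ fS K t := measureReal_nonneg

lemma fS_le_one (K : Set (X × ℝ)) (t : ℝ) : fS K t ≤ 1 := measureReal_le_one

lemma fS_neg {K : Set (X × ℝ)} (hc : IsClosed K) (hsymm : ∀ p ∈ K, -p ∈ K) (t : ℝ) :
    fS K (-t) = fS K t := by
  unfold fS
  rw [← stdGaussian_real_neg _ (slc_meas hc t)]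
  congr 1
  ext x
  exact slc_neg hsymm t x

/-- `f` is nonincreasing on `[0, ∞)` -/
lemma fS_anti {K : Set (X × ℝ)} (hc : IsClosed K) (hconv : Convex ℝ K)
    (hsymm : ∀ p ∈ K, -p ∈ K) : AntitoneOn (fS K) (Ici 0) := by
  intro t' ht' t _ htt
  rcases eq_or_lt_of_le htt with h | h
  · rw [h]
  · have ht'0 : (0 : ℝ) ≤ t' := ht'
    have ht0 : 0 < t := lt_of_le_of_lt ht'0 h
    set θ : ℝ := (t - t') / (2 * t) with hθ
    have hθ0 : 0 < θ := div_pos (by linarith) (by linarith)
    have hθ1 : θ < 1 := by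
      rw [hθ, div_lt_one (by linarith)]
      linarith
    have e1 : (1 - θ) * t + θ * (-t) = t' := by
      rw [hθ]
      field_simp
      ring
    have h1 := stdGaussian_logConcave hθ0 hθ1 (slc_meas hc t) (slc_meas hc (-t))
      (slc_meas hc t') (by
        intro x hx y hy
        have := slc_combo hconv hθ0.le hθ1.le hx hy
        rwa [e1] at this)
    have h2 := ENNReal.toReal_mono (measure_ne_top _ _) h1
    rw [ENNReal.toReal_mul, ← ENNReal.toReal_rpow, ← ENNReal.toReal_rpow] at h2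
    change fS K t ^ (1 - θ) * fS K (-t) ^ θ ≤ fS K t' at h2
    rw [fS_neg hc hsymm, ← Real.rpow_add_of_nonneg (fS_nonneg K t) (by linarith) hθ0.le,
      sub_add_cancel, Real.rpow_one] at h2
    exact h2

/-- `H(p,q) ≥ f(q) - (1 - f(p))` -/
lemma HH_ge {K : Set (X × ℝ)} (hc : IsClosed K) (p q : ℝ) : fS K q - (1 - fS K p) ≤ HH K p q := by
  unfold HH fS
  have h1 : (stdGaussian X).real (slc K p ∩ slc K q) + (stdGaussian X).real (slc K q \ slc K p)
      = (stdGaussian X).real (slc K q) := by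
    rw [Set.inter_comm]
    exact measureReal_inter_add_sdiff (slc_meas hc p)
  have h2 : (stdGaussian X).real (slc K q \ slc K p) ≤ (stdGaussian X).real (slc K p)ᶜ :=
    measureReal_mono (fun x hx => hx.2)
  have h3 : (stdGaussian X).real (slc K p)ᶜ = 1 - (stdGaussian X).real (slc K p) := by
    rw [measureReal_compl (slc_meas hc p)]
    simp
  linarith

end Vale.Agent.P262B
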