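import Vale.Agent.P262B.Defs

open MeasureTheory ProbabilityTheory
open scoped ENNReal NNReal

namespace Vale.Agent.P262B

/-- one-dimensional computation -/
lemma gauss_exp_sq {l : ℝ} (h0 : 0 ≤ l) (h1 : l ≤ 1) :
    Integrable (fun t : ℝ => Real.exp (l * t ^ 2 / 4)) (gaussianReal 0 1) ∧
    ∫ t, Real.exp (l * t ^ 2 / 4) ∂(gaussianReal 0 1) ≤ Real.exp (l / 2) := by
  have hb : 0 < 1 / 2 - l / 4 := by linarith
  have hpt : ∀ t : ℝ, gaussianPDFReal 0 1 t * Real.exp (l * t ^ 2 / 4) =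
      (√(2 * Real.pi))⁻¹ * Real.exp (-(1 / 2 - l / 4) * t ^ 2) := by
    intro t
    unfold gaussianPDFReal
    simp only [NNReal.coe_one, mul_one, sub_zero]
    rw [mul_assoc, ← Real.exp_add]
    congr 2
    ring
  have hint : Integrable (fun t : ℝ => gaussianPDFReal 0 1 t * Real.exp (l * t ^ 2 / 4)) := by
    simp_rw [hpt]
    exact (integrable_exp_neg_mul_sq hb).const_mul _
  constructor
  · rw [gaussianReal_of_var_ne_zero _ one_ne_zero]
    rw [integrable_withDensity_iff_integrable_smul' (measurable_gaussianPDF _ _)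
      (ae_of_all _ fun _ ↦ gaussianPDF_lt_top)]
    simpa [toReal_gaussianPDF] using hint
  · rw [integral_gaussianReal_eq_integral_smul one_ne_zero]
    simp only [smul_eq_mul]
    simp_rw [hpt]
    rw [integral_const_mul, integral_gaussian]
    have hpi := Real.pi_pos
    rw [← Real.sqrt_inv, ← Real.sqrt_mul (by positivity)]
    have h3' : 0 < 1 - l / 2 := by linarith
    have e1 : (2 * Real.pi)⁻¹ * (Real.pi / (1 / 2 - l / 4)) = 1 / (1 - l / 2) := by
      have e0 : 1 / 2 - l / 4 = (1 - l / 2) / 2 := by ring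
      rw [e0]
      have h4 := h3'.ne'
      field_simp
    rw [e1]
    have h2 : Real.exp (l / 2) = √(Real.exp l) := by
      rw [Real.exp_half]
    rw [h2]
    apply Real.sqrt_le_sqrt
    have h3 : 0 < 1 - l / 2 := by linarith
    rw [div_le_iff₀ h3]
    have h4 := Real.add_one_le_exp l
    nlinarith

/-- **A4. Quadratic tail bound.** `L` a contraction with Hilbert–Schmidt norm² `≤ e`. -/
theorem stdGaussian_quad_tail {κ : Type*} [Fintype κ] [DecidableEq κ]
    {F : Type*} [NormedAddCommGroup F] [InnerProductSpace ℝ F] [FiniteDimensional ℝ F]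
    (L : EuclideanSpace ℝ κ →ₗ[ℝ] F) (hL : ∀ ζ, ‖L ζ‖ ≤ ‖ζ‖) (e x : ℝ)
    (he : ∑ k, ‖L (EuclideanSpace.single k 1)‖ ^ 2 ≤ e) :
    stdGaussian (EuclideanSpace ℝ κ) {ζ | x < ‖L ζ‖ ^ 2} ≤ ENNReal.ofReal (Real.exp (e / 2 - x / 4)) := by
  classical
  set T : EuclideanSpace ℝ κ →ₗ[ℝ] EuclideanSpace ℝ κ := L.adjoint ∘ₗ L with hT
  have hTi : ∀ u v, inner ℝ (T u) v = inner ℝ (L u) (L v) := by
    intro u v
    rw [hT, LinearMap.comp_apply, LinearMap.adjoint_inner_left]
  have hTi' : ∀ u v, inner ℝ u (T v) = inner ℝ (L u) (L v) := by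
    intro u v
    rw [hT, LinearMap.comp_apply, LinearMap.adjoint_inner_right]
  have hsym : T.IsSymmetric := by
    intro u v
    rw [hTi, hTi']
  have hn : Module.finrank ℝ (EuclideanSpace ℝ κ) = Module.finrank ℝ (EuclideanSpace ℝ κ) := rfl
  set n := Module.finrank ℝ (EuclideanSpace ℝ κ) with hndef
  set b := hsym.eigenvectorBasis hn with hb
  set lam : Fin n → ℝ := hsym.eigenvalues hn with hlam
  have hTb : ∀ i, T (b i) = lam i • b i := fun i => hsym.apply_eigenvectorBasis hn i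
  have hLb : ∀ i j, inner ℝ (L (b i)) (L (b j)) = if i = j then lam j else 0 := by
    intro i j
    rw [← hTi', hTb, inner_smul_right, b.inner_eq_ite]
    split_ifs <;> simp
  have hlam_eq : ∀ i, lam i = ‖L (b i)‖ ^ 2 := by
    intro i
    rw [← real_inner_self_eq_norm_sq, hLb, if_pos rfl]
  have hlam0 : ∀ i, 0 ≤ lam i := fun i => by rw [hlam_eq]; positivity
  have hlam1 : ∀ i, lam i ≤ 1 := fun i => by
    rw [hlam_eq]
    have h1 := hL (b i)
    rw [b.norm_eq_one] at h1
    have h2 := norm_nonneg (L (b i))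
    nlinarith
  have hsum : ∑ i, lam i ≤ e := by
    refine le_trans (le_of_eq ?_) he
    have h1 := LinearMap.trace_eq_sum_inner T b
    have h2 := LinearMap.trace_eq_sum_inner T (EuclideanSpace.basisFun κ ℝ)
    rw [h1] at h2
    have h3 : ∀ i, inner ℝ (b i) (T (b i)) = lam i := by
      intro i
      rw [hTi', hLb, if_pos rfl]
    have h4 : ∀ k, inner ℝ (EuclideanSpace.basisFun κ ℝ k) (T (EuclideanSpace.basisFun κ ℝ k)) =
        ‖L (EuclideanSpace.single k 1)‖ ^ 2 := by
      intro k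
      rw [hTi', real_inner_self_eq_norm_sq]
      simp [EuclideanSpace.basisFun_apply]
    simp only [h3, h4] at h2
    exact h2
  have hquad : ∀ y : Fin n → ℝ, ‖L (∑ i, y i • b i)‖ ^ 2 = ∑ i, lam i * y i ^ 2 := by
    intro y
    rw [← real_inner_self_eq_norm_sq, map_sum, sum_inner]
    refine Finset.sum_congr rfl fun i _ => ?_
    rw [inner_sum]
    simp only [map_smul, inner_smul_left, inner_smul_right, hLb]
    simp
    ring
  rw [stdGaussian_eq_map_pi_orthonormalBasis b]
  have hcontL : Continuous L := LinearMap.continuous_of_finiteDimensional L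
  have hmeas : MeasurableSet {ζ : EuclideanSpace ℝ κ | x < ‖L ζ‖ ^ 2} :=
    (isOpen_lt continuous_const (hcontL.norm.pow 2)).measurableSet
  rw [Measure.map_apply (by fun_prop) hmeas]
  set μ : Measure (Fin n → ℝ) := Measure.pi fun _ : Fin n => gaussianReal 0 1 with hμ
  have hexp : (fun y : Fin n → ℝ => Real.exp (1 / 4 * ∑ i, lam i * y i ^ 2)) =
      fun y => ∏ i, Real.exp (lam i * y i ^ 2 / 4) := by
    funext y
    rw [← Real.exp_sum]
    congr 1
    rw [Finset.mul_sum]
    refine Finset.sum_congr rfl fun i _ => ?_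
    ring
  have hint : Integrable (fun y : Fin n → ℝ => Real.exp (1 / 4 * ∑ i, lam i * y i ^ 2)) μ := by
    rw [hexp]
    exact Integrable.fintype_prod_dep (f := fun i (t : ℝ) => Real.exp (lam i * t ^ 2 / 4))
      fun i => (gauss_exp_sq (hlam0 i) (hlam1 i)).1
  have hmgf : mgf (fun y : Fin n → ℝ => ∑ i, lam i * y i ^ 2) μ (1 / 4) ≤ Real.exp (e / 2) := by
    unfold mgf
    have : (fun y : Fin n → ℝ => Real.exp (1 / 4 * (fun y : Fin n → ℝ => ∑ i, lam i * y i ^ 2) y)) =
      fun y => ∏ i, Real.exp (lam i * y i ^ 2 / 4) := hexp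
    rw [this, integral_fintype_prod_eq_prod (f := fun i (t : ℝ) => Real.exp (lam i * t ^ 2 / 4))]
    calc ∏ i, ∫ t, Real.exp (lam i * t ^ 2 / 4) ∂(gaussianReal 0 1)
        ≤ ∏ i, Real.exp (lam i / 2) := by
          refine Finset.prod_le_prod (fun i _ => integral_nonneg fun t => (Real.exp_pos _).le)
            fun i _ => (gauss_exp_sq (hlam0 i) (hlam1 i)).2
      _ = Real.exp ((∑ i, lam i) / 2) := by
          rw [← Real.exp_sum, Finset.sum_div]
      _ ≤ Real.exp (e / 2) := Real.exp_le_exp.2 (by linarith)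
  have hmark := measure_ge_le_exp_mul_mgf (μ := μ) (X := fun y : Fin n → ℝ => ∑ i, lam i * y i ^ 2)
    x (by norm_num : (0 : ℝ) ≤ 1 / 4) hint
  have hsub : (fun y : Fin n → ℝ => ∑ i, y i • b i) ⁻¹' {ζ | x < ‖L ζ‖ ^ 2} ⊆
      {y : Fin n → ℝ | x ≤ ∑ i, lam i * y i ^ 2} := by
    intro y hy
    simp only [Set.mem_preimage, Set.mem_ofPred_eq] at hy ⊢
    rw [hquad] at hy
    exact hy.le
  refine (measure_mono hsub).trans ?_
  rw [← ENNReal.ofReal_toReal (measure_ne_top μ {y : Fin n → ℝ | x ≤ ∑ i, lam i * y i ^ 2})]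
  apply ENNReal.ofReal_le_ofReal
  refine hmark.trans ?_
  rw [sub_eq_add_neg, add_comm, Real.exp_add]
  have : -(1 / 4) * x = -(x / 4) := by ring
  rw [this]
  exact mul_le_mul_of_nonneg_left hmgf (Real.exp_pos _).le

end Vale.Agent.P262B
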