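import Vale.Agent.P262B.A3

open MeasureTheory ProbabilityTheory
open scoped ENNReal NNReal BigOperators

namespace Vale.Agent.P262B

variable {E : Type*} [NormedAddCommGroup E] [InnerProductSpace ℝ E] [FiniteDimensional ℝ E]
  [MeasurableSpace E] [BorelSpace E]

open scoped Pointwise in
omit [FiniteDimensional ℝ E] [MeasurableSpace E] [BorelSpace E] in
private lemma Kstar_eq_add (K : Set E) (u : E) :
    Kstar K u = {y : E | y + u ∈ K ∧ y - u ∈ K} + (fun τ : ℝ => τ • u) '' Set.Icc (-2) 2 := by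
  ext x
  constructor
  · rintro ⟨τ, hτ, h1, h2⟩
    refine Set.mem_add.2 ⟨x + τ • u, ⟨h1, h2⟩, (-τ) • u, ⟨-τ, ?_, rfl⟩, ?_⟩
    · rw [abs_le] at hτ
      constructor <;> linarith [hτ.1, hτ.2]
    · rw [neg_smul]; abel
  · intro hx
    obtain ⟨y, ⟨hy1, hy2⟩, w, ⟨τ, hτ, rfl⟩, rfl⟩ := Set.mem_add.1 hx
    refine ⟨-τ, ?_, ?_, ?_⟩
    · rw [abs_le]
      constructor <;> linarith [hτ.1, hτ.2]
    · have : y + τ • u + (-τ) • u + u = y + u := by rw [neg_smul]; abel
      simpa [this] using hy1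
    · have : y + τ • u + (-τ) • u - u = y - u := by rw [neg_smul]; abel
      simpa [this] using hy2

omit [FiniteDimensional ℝ E] [MeasurableSpace E] [BorelSpace E] in
theorem GoodBody.Kstar {K : Set E} (hK : GoodBody K) (u : E) : GoodBody (Kstar K u) := by
  refine ⟨?_, ?_, ?_⟩
  · rw [Kstar_eq_add K u]
    apply IsClosed.add_right_of_isCompact
    · have h1 : IsClosed ((fun y : E => y + u) ⁻¹' K) := hK.closed.preimage (by fun_prop)
      have h2 : IsClosed ((fun y : E => y - u) ⁻¹' K) := hK.closed.preimage (by fun_prop)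
      exact h1.inter h2
    · exact isCompact_Icc.image (by fun_prop)
  · rintro x ⟨τ₁, h1, h2, h3⟩ y ⟨τ₂, h4, h5, h6⟩ a b ha hb hab
    refine ⟨a * τ₁ + b * τ₂, ?_, ?_, ?_⟩
    · rw [abs_le] at *
      constructor <;> nlinarith [h1.1, h1.2, h4.1, h4.2]
    · have := hK.conv h2 h5 ha hb hab
      convert this using 1
      have hu : u = a • u + b • u := by rw [← add_smul, hab, one_smul]
      nth_rewrite 2 [hu]
      simp only [smul_add, add_smul, mul_smul]
      abel
    · have := hK.conv h3 h6 ha hb hab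
      convert this using 1
      have hu : u = a • u + b • u := by rw [← add_smul, hab, one_smul]
      nth_rewrite 2 [hu]
      simp only [smul_add, smul_sub, add_smul, mul_smul]
      abel
  · rintro x ⟨τ, h1, h2, h3⟩
    refine ⟨-τ, by rwa [abs_neg], ?_, ?_⟩
    · have := hK.symm _ h3
      convert this using 1
      rw [neg_smul]; abel
    · have := hK.symm _ h2
      convert this using 1
      rw [neg_smul]; abel

omit [FiniteDimensional ℝ E] [MeasurableSpace E] [BorelSpace E] in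
theorem Kstar_subset {K : Set E} (hK : GoodBody K) (u x : E) (hx : x ∈ Kstar K u) :
    x + u ∈ K ∨ x - u ∈ K := by
  obtain ⟨τ, hτ, h1, h2⟩ := hx
  rw [abs_le] at hτ
  rcases le_total 0 τ with h | h
  · left
    have h3 := hK.conv h1 h2 (a := (2 - τ) / 2) (b := τ / 2) (by linarith) (by linarith) (by ring)
    convert h3 using 1
    have e1 : u = ((2 - τ) / 2 + τ / 2) • u := by rw [show (2 - τ) / 2 + τ / 2 = (1 : ℝ) by ring, one_smul]
    have e2 : x = ((2 - τ) / 2 + τ / 2) • x := by rw [show (2 - τ) / 2 + τ / 2 = (1 : ℝ) by ring, one_smul]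
    module
  · right
    have h3 := hK.conv h1 h2 (a := (-τ) / 2) (b := (2 + τ) / 2) (by linarith) (by linarith) (by ring)
    convert h3 using 1
    module

omit [FiniteDimensional ℝ E] [MeasurableSpace E] [BorelSpace E] in
lemma GoodBody.zero_mem {K : Set E} (hK : GoodBody K) (hn : K.Nonempty) : (0 : E) ∈ K := by
  obtain ⟨x, hx⟩ := hn
  have := hK.conv hx (hK.symm x hx) (a := 1 / 2) (b := 1 / 2) (by norm_num) (by norm_num)
    (by norm_num)
  convert this using 1
  module

omit [FiniteDimensional ℝ E] [MeasurableSpace E] [BorelSpace E] in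
lemma GoodBody.inter {K K' : Set E} (hK : GoodBody K) (hK' : GoodBody K') :
    GoodBody (K ∩ K') :=
  ⟨hK.closed.inter hK'.closed, hK.conv.inter hK'.conv,
    fun x hx => ⟨hK.symm x hx.1, hK'.symm x hx.2⟩⟩

omit [FiniteDimensional ℝ E] [MeasurableSpace E] [BorelSpace E] in
lemma goodBody_univ : GoodBody (Set.univ : Set E) :=
  ⟨isClosed_univ, convex_univ, fun _ _ => Set.mem_univ _⟩

lemma eps0_lt_one : ENNReal.ofReal eps0 < 1 := by
  rw [← ENNReal.ofReal_one]
  exact (ENNReal.ofReal_lt_ofReal_iff (by norm_num)).2 (by unfold eps0; norm_num)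

lemma nonempty_of_compl_le {K : Set E} (hγ : stdGaussian E Kᶜ ≤ ENNReal.ofReal eps0) :
    K.Nonempty := by
  by_contra h
  rw [Set.not_nonempty_iff_eq_empty] at h
  rw [h, Set.compl_empty, measure_univ] at hγ
  exact absurd hγ (not_le.2 eps0_lt_one)

/-- complement form of the measure lemma -/
lemma stdGaussian_Kstar_compl_le (K : Set E) (hK : GoodBody K)
    (hγ : stdGaussian E Kᶜ ≤ ENNReal.ofReal eps0) (u : E) (hu : ‖u‖ ≤ 1 / 20) :
    stdGaussian E (Vale.Agent.P262B.Kstar K u)ᶜ ≤ stdGaussian E Kᶜ := by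
  have h := stdGaussian_Kstar_ge K hK hγ u hu
  rw [measure_compl (hK.Kstar u).closed.measurableSet (measure_ne_top _ _),
    measure_compl hK.closed.measurableSet (measure_ne_top _ _)]
  exact tsub_le_tsub_left h _

lemma prefix_aux (K : Set E) (hK : GoodBody K) (z : ℕ → E) (hz : ∀ i, ‖z i‖ ≤ 1 / 20)
    (N : ℕ) (S : Finset ℕ) (hS : ∀ k ∈ S, k ≤ N)
    (hγ : (S.card : ℝ≥0∞) * stdGaussian E Kᶜ ≤ ENNReal.ofReal eps0) (n : ℕ) :
    ∀ i, i + n = N → ∃ Ki : Set E, GoodBody Ki ∧
      stdGaussian E Kiᶜ ≤ ((S.filter (fun k => i ≤ k)).card : ℝ≥0∞) * stdGaussian E Kᶜ ∧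
      ∀ s ∈ Ki, ∃ ε : ℕ → ℝ, (∀ i, ε i = 1 ∨ ε i = -1) ∧
        ∀ k ∈ S, i ≤ k → s + ∑ j ∈ Finset.Ico i k, ε j • z j ∈ K := by
  induction n with
  | zero =>
    intro i hi
    have hi' : i = N := by omega
    subst hi'
    by_cases hN : i ∈ S
    · refine ⟨K, hK, ?_, ?_⟩
      · have h1 : 1 ≤ ((S.filter (fun k => i ≤ k)).card : ℝ≥0∞) := by
          have : 1 ≤ (S.filter (fun k => i ≤ k)).card := by
            rw [Nat.one_le_iff_ne_zero, Finset.card_ne_zero]
            exact ⟨i, Finset.mem_filter.2 ⟨hN, le_rfl⟩⟩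
          exact_mod_cast this
        calc stdGaussian E Kᶜ = 1 * stdGaussian E Kᶜ := (one_mul _).symm
          _ ≤ _ := by gcongr
      · intro s hs
        refine ⟨fun _ => 1, fun _ => Or.inl rfl, ?_⟩
        intro k hk hik
        have : k = i := le_antisymm (hS k hk) hik
        subst this
        simpa using hs
    · refine ⟨Set.univ, goodBody_univ, ?_, ?_⟩
      · simp
      · intro s _
        refine ⟨fun _ => 1, fun _ => Or.inl rfl, ?_⟩
        intro k hk hik
        have : k = i := le_antisymm (hS k hk) hik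
        subst this
        exact absurd hk hN
  | succ n ih =>
    intro i hi
    obtain ⟨K1, hK1, hm1, hs1⟩ := ih (i + 1) (by omega)
    have hm1' : stdGaussian E K1ᶜ ≤ ENNReal.ofReal eps0 := by
      refine hm1.trans (le_trans ?_ hγ)
      gcongr
      exact Finset.filter_subset _ _
    have hK2 := hK1.Kstar (z i)
    have hm2 := stdGaussian_Kstar_compl_le K1 hK1 hm1' (z i) (hz i)
    have key : ∀ s ∈ Vale.Agent.P262B.Kstar K1 (z i), ∃ ε : ℕ → ℝ, (∀ i, ε i = 1 ∨ ε i = -1) ∧
        ∀ k ∈ S, i + 1 ≤ k → s + ∑ j ∈ Finset.Ico i k, ε j • z j ∈ K := by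
      intro s hs
      have : ∃ η : ℝ, (η = 1 ∨ η = -1) ∧ s + η • z i ∈ K1 := by
        rcases Kstar_subset hK1 (z i) s hs with h | h
        · exact ⟨1, Or.inl rfl, by simpa using h⟩
        · exact ⟨-1, Or.inr rfl, by simpa [sub_eq_add_neg] using h⟩
      obtain ⟨η, hη, hmem⟩ := this
      obtain ⟨ε, hε, hε2⟩ := hs1 _ hmem
      refine ⟨Function.update ε i η, ?_, ?_⟩
      · intro j
        by_cases hj : j = i
        · subst hj; simpa using hη
        · simpa [Function.update_of_ne hj] using hε j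
      · intro k hk hik
        have h1 := hε2 k hk hik
        have h2 : ∑ j ∈ Finset.Ico i k, Function.update ε i η j • z j
            = η • z i + ∑ j ∈ Finset.Ico (i + 1) k, ε j • z j := by
          rw [Finset.sum_eq_sum_Ico_succ_bot (by omega : i < k)]
          congr 1
          · simp
          · apply Finset.sum_congr rfl
            intro j hj
            have : j ≠ i := by
              have := (Finset.mem_Ico.1 hj).1
              omega
            rw [Function.update_of_ne this]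
        rw [h2, ← add_assoc]
        exact h1
    by_cases hiS : i ∈ S
    · refine ⟨Vale.Agent.P262B.Kstar K1 (z i) ∩ K, hK2.inter hK, ?_, ?_⟩
      · have hcard : (S.filter (fun k => i ≤ k)).card = (S.filter (fun k => i + 1 ≤ k)).card + 1 := by
          have : S.filter (fun k => i ≤ k) = insert i (S.filter (fun k => i + 1 ≤ k)) := by
            ext k
            simp only [Finset.mem_filter, Finset.mem_insert]
            constructor
            · rintro ⟨h1, h2⟩
              rcases Nat.lt_or_ge i k with h | h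
              · exact Or.inr ⟨h1, h⟩
              · exact Or.inl (le_antisymm h h2)
            · rintro (h | ⟨h1, h2⟩)
              · subst h; exact ⟨hiS, le_rfl⟩
              · exact ⟨h1, by omega⟩
          rw [this, Finset.card_insert_of_notMem]
          simp
        rw [hcard, Set.compl_inter]
        calc stdGaussian E ((Vale.Agent.P262B.Kstar K1 (z i))ᶜ ∪ Kᶜ)
            ≤ stdGaussian E (Vale.Agent.P262B.Kstar K1 (z i))ᶜ + stdGaussian E Kᶜ :=
              measure_union_le _ _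
          _ ≤ ((S.filter (fun k => i + 1 ≤ k)).card : ℝ≥0∞) * stdGaussian E Kᶜ
                + stdGaussian E Kᶜ := by
              gcongr
              exact hm2.trans hm1
          _ = _ := by push_cast; ring
      · intro s hs
        obtain ⟨ε, h1, h2⟩ := key s hs.1
        refine ⟨ε, h1, ?_⟩
        intro k hk hik
        rcases Nat.lt_or_ge i k with h | h
        · exact h2 k hk h
        · have : k = i := le_antisymm h hik
          subst this
          simpa using hs.2
    · refine ⟨Vale.Agent.P262B.Kstar K1 (z i), hK2, ?_, ?_⟩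
      · refine (hm2.trans hm1).trans ?_
        gcongr
        omega
      · intro s hs
        obtain ⟨ε, h1, h2⟩ := key s hs
        refine ⟨ε, h1, ?_⟩
        intro k hk hik
        rcases Nat.lt_or_ge i k with h | h
        · exact h2 k hk h
        · have : k = i := le_antisymm h hik
          subst this
          exact absurd hk hiS

/-- **B1. Prefix theorem with checkpoints.** -/
theorem prefix_signs (K : Set E) (hK : GoodBody K) (z : ℕ → E) (hz : ∀ i, ‖z i‖ ≤ 1 / 20)
    (N : ℕ) (S : Finset ℕ) (hS : ∀ k ∈ S, k ≤ N)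
    (hγ : (S.card : ℝ≥0∞) * stdGaussian E Kᶜ ≤ ENNReal.ofReal eps0) :
    ∃ ε : ℕ → ℝ, (∀ i, ε i = 1 ∨ ε i = -1) ∧
      ∀ k ∈ S, ∑ i ∈ Finset.range k, ε i • z i ∈ K := by
  obtain ⟨K0, hK0, hm, h⟩ := prefix_aux K hK z hz N S hS hγ N 0 (by omega)
  have hm' : stdGaussian E K0ᶜ ≤ ENNReal.ofReal eps0 := by
    refine hm.trans (le_trans ?_ hγ)
    gcongr
    exact Finset.filter_subset _ _
  obtain ⟨ε, h1, h2⟩ := h 0 (hK0.zero_mem (nonempty_of_compl_le hm'))
  refine ⟨ε, h1, ?_⟩
  intro k hk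
  have := h2 k hk (Nat.zero_le _)
  rwa [zero_add, ← Finset.range_eq_Ico] at this

variable {ι : Type*} [DecidableEq ι]

lemma signs_aux (K : Set E) (hK : GoodBody K) (hγ : stdGaussian E Kᶜ ≤ ENNReal.ofReal eps0)
    (z : ι → E) (X : Finset ι) :
    (∀ i ∈ X, ‖z i‖ ≤ 1 / 20) → ∃ K0 : Set E, GoodBody K0 ∧ stdGaussian E K0ᶜ ≤ stdGaussian E Kᶜ ∧
      ∀ s ∈ K0, ∃ ε : ι → ℝ, (∀ i, ε i = 1 ∨ ε i = -1) ∧ s + ∑ i ∈ X, ε i • z i ∈ K := by
  induction X using Finset.induction_on with
  | empty =>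
    intro _
    exact ⟨K, hK, le_rfl, fun s hs => ⟨fun _ => 1, fun _ => Or.inl rfl, by simpa using hs⟩⟩
  | insert a X ha ih =>
    intro hz
    obtain ⟨K1, hK1, hm1, hs1⟩ := ih (fun i hi => hz i (Finset.mem_insert_of_mem hi))
    refine ⟨Vale.Agent.P262B.Kstar K1 (z a), hK1.Kstar _,
      (stdGaussian_Kstar_compl_le K1 hK1 (hm1.trans hγ) (z a)
        (hz a (Finset.mem_insert_self _ _))).trans hm1, ?_⟩
    intro s hs
    have : ∃ η : ℝ, (η = 1 ∨ η = -1) ∧ s + η • z a ∈ K1 := by
      rcases Kstar_subset hK1 (z a) s hs with h | h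
      · exact ⟨1, Or.inl rfl, by simpa using h⟩
      · exact ⟨-1, Or.inr rfl, by simpa [sub_eq_add_neg] using h⟩
    obtain ⟨η, hη, hmem⟩ := this
    obtain ⟨ε, hε, hε2⟩ := hs1 _ hmem
    refine ⟨Function.update ε a η, ?_, ?_⟩
    · intro j
      by_cases hj : j = a
      · subst hj; simpa using hη
      · simpa [Function.update_of_ne hj] using hε j
    · rw [Finset.sum_insert ha, ← add_assoc]
      have : ∑ i ∈ X, Function.update ε a η i • z i = ∑ i ∈ X, ε i • z i := by
        apply Finset.sum_congr rfl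
        intro j hj
        have : j ≠ a := fun h => ha (h ▸ hj)
        rw [Function.update_of_ne this]
      rw [this]
      simpa using hε2

/-- **R0. Signs for a finite family, one checkpoint.** -/
theorem signs_one (K : Set E) (hK : GoodBody K) (hγ : stdGaussian E Kᶜ ≤ ENNReal.ofReal eps0)
    (X : Finset ι) (z : ι → E) (hz : ∀ i ∈ X, ‖z i‖ ≤ 1 / 20) :
    ∃ ε : ι → ℝ, (∀ i, ε i = 1 ∨ ε i = -1) ∧ ∑ i ∈ X, ε i • z i ∈ K := by
  obtain ⟨K0, hK0, hm, h⟩ := signs_aux K hK hγ z X hz
  obtain ⟨ε, h1, h2⟩ := h 0 (hK0.zero_mem (nonempty_of_compl_le (hm.trans hγ)))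
  exact ⟨ε, h1, by simpa using h2⟩

/-- rounding of dyadic fractions, error in `(1 - 2^{-L}) K` -/
lemma rounding_dyadic (K : Set E) (hK : GoodBody K) (hγ : stdGaussian E Kᶜ ≤ ENNReal.ofReal eps0)
    (X : Finset ι) (z : ι → E) (hz : ∀ i ∈ X, ‖z i‖ ≤ 1 / 20) (L : ℕ) :
    ∀ x : ι → ℕ, (∀ i ∈ X, x i ≤ 2 ^ L) →
      ∃ S ⊆ X, ∃ k ∈ K,
        ∑ i ∈ S, z i - ∑ i ∈ X, ((x i : ℝ) / 2 ^ L) • z i = (1 - 1 / 2 ^ L : ℝ) • k := by
  have h0K : (0 : E) ∈ K := hK.zero_mem (nonempty_of_compl_le hγ)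
  induction L with
  | zero =>
    intro x hx
    refine ⟨X.filter (fun i => x i = 1), Finset.filter_subset _ _, 0, h0K, ?_⟩
    rw [Finset.sum_filter, ← Finset.sum_sub_distrib, smul_zero]
    apply Finset.sum_eq_zero
    intro i hi
    have := hx i hi
    rw [pow_zero] at this
    interval_cases h : x i <;> simp
  | succ L ih =>
    intro x hx
    obtain ⟨ε, hε, hεK⟩ := signs_one K hK hγ (X.filter (fun i => Odd (x i))) z
      (fun i hi => hz i (Finset.mem_filter.1 hi).1)
    -- the new dyadic fractions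
    let x' : ι → ℕ := fun i => if Odd (x i) then (if ε i = 1 then (x i + 1) / 2 else (x i - 1) / 2)
      else x i / 2
    have hx'1 : ∀ i ∈ X, x' i ≤ 2 ^ L := by
      intro i hi
      have h1 := hx i hi
      rw [pow_succ] at h1
      simp only [x']
      split_ifs with h2 h3
      · obtain ⟨m, hm⟩ := h2
        omega
      · obtain ⟨m, hm⟩ := h2
        omega
      · omega
    have hx'2 : ∀ i, (x' i : ℝ) / 2 ^ L = (x i : ℝ) / 2 ^ (L + 1)
        + (1 / 2 ^ (L + 1) : ℝ) * (if Odd (x i) then ε i else 0) := by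
      intro i
      have h2L : (2 : ℝ) ^ L ≠ 0 := by positivity
      simp only [x']
      split_ifs with h2 h3
      · obtain ⟨m, hm⟩ := h2
        have : (x i + 1) / 2 = m + 1 := by omega
        rw [this, h3, hm, pow_succ]
        push_cast
        field_simp
        ring
      · obtain ⟨m, hm⟩ := h2
        have : (x i - 1) / 2 = m := by omega
        have h4 : ε i = -1 := by
          rcases hε i with h | h
          · exact absurd h h3
          · exact h
        rw [this, h4, hm, pow_succ]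
        push_cast
        field_simp
        ring
      · rw [Nat.not_odd_iff_even] at h2
        obtain ⟨m, hm⟩ := h2
        have : x i / 2 = m := by omega
        rw [this, hm, pow_succ]
        push_cast
        field_simp
        ring
    obtain ⟨S, hS, k, hk, hSk⟩ := ih x' hx'1
    have hsum : ∑ i ∈ X, ((x' i : ℝ) / 2 ^ L) • z i
        = ∑ i ∈ X, ((x i : ℝ) / 2 ^ (L + 1)) • z i
          + (1 / 2 ^ (L + 1) : ℝ) • ∑ i ∈ X.filter (fun i => Odd (x i)), ε i • z i := by
      rw [Finset.sum_filter, Finset.smul_sum, ← Finset.sum_add_distrib]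
      apply Finset.sum_congr rfl
      intro i _
      rw [hx'2 i, add_smul, mul_smul]
      congr 2
      split_ifs
      · rfl
      · simp
    set k' : E := ∑ i ∈ X.filter (fun i => Odd (x i)), ε i • z i with hk'
    -- the total error
    have herr : ∑ i ∈ S, z i - ∑ i ∈ X, ((x i : ℝ) / 2 ^ (L + 1)) • z i
        = (1 - 1 / 2 ^ L : ℝ) • k + (1 / 2 ^ (L + 1) : ℝ) • k' := by
      rw [← hSk, hsum]
      abel
    have hpos : (0 : ℝ) < 1 - 1 / 2 ^ (L + 1) := by
      have : (1 : ℝ) < 2 ^ (L + 1) := one_lt_pow₀ (by norm_num) (by omega)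
      have h3 : 1 / (2 : ℝ) ^ (L + 1) < 1 := by
        rw [div_lt_one (by positivity)]
        exact this
      linarith
    have h2L : (1 : ℝ) ≤ 2 ^ L := one_le_pow₀ (by norm_num)
    have hge : (0 : ℝ) ≤ 1 - 1 / 2 ^ L := by
      have : 1 / (2 : ℝ) ^ L ≤ 1 := by
        rw [div_le_one (by positivity)]
        exact h2L
      linarith
    refine ⟨S, hS, ((1 - 1 / 2 ^ L) / (1 - 1 / 2 ^ (L + 1)) : ℝ) • k
      + ((1 / 2 ^ (L + 1)) / (1 - 1 / 2 ^ (L + 1)) : ℝ) • k', ?_, ?_⟩
    · apply hK.conv hk hεK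
      · positivity
      · positivity
      · rw [← add_div, div_eq_one_iff_eq hpos.ne']
        rw [pow_succ]
        field_simp
        ring
    · rw [herr, smul_add, smul_smul, smul_smul, mul_div_cancel₀ _ hpos.ne',
        mul_div_cancel₀ _ hpos.ne']

/-- **R1. Rounding.** -/
theorem rounding (K : Set E) (hK : GoodBody K) (hγ : stdGaussian E Kᶜ ≤ ENNReal.ofReal eps0)
    (X : Finset ι) (z : ι → E) (hz : ∀ i ∈ X, ‖z i‖ ≤ 1 / 20)
    (x : ι → ℝ) (hx0 : ∀ i ∈ X, 0 ≤ x i) (hx1 : ∀ i ∈ X, x i ≤ 1) :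
    ∃ S ⊆ X, ∑ i ∈ S, z i - ∑ i ∈ X, x i • z i ∈ K := by
  have h0K : (0 : E) ∈ K := hK.zero_mem (nonempty_of_compl_le hγ)
  by_contra hcon
  push Not at hcon
  -- dyadic approximations
  have hlim : ∀ i ∈ X, Filter.Tendsto (fun L : ℕ => ((⌊2 ^ L * x i⌋₊ : ℝ) / 2 ^ L)) Filter.atTop
      (nhds (x i)) := by
    intro i hi
    have h1 : Filter.Tendsto (fun L : ℕ => x i - (1 / 2 : ℝ) ^ L) Filter.atTop (nhds (x i)) := by
      have := (tendsto_pow_atTop_nhds_zero_of_lt_one (r := (1 / 2 : ℝ)) (by norm_num)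
        (by norm_num)).const_sub (x i)
      simpa using this
    refine tendsto_of_tendsto_of_tendsto_of_le_of_le h1 tendsto_const_nhds ?_ ?_
    · intro L
      have h2 : (0 : ℝ) < 2 ^ L := by positivity
      have h3 := Nat.lt_floor_add_one (2 ^ L * x i)
      simp only
      rw [le_div_iff₀ h2, sub_mul, ← mul_pow]
      norm_num
      linarith
    · intro L
      have h2 : (0 : ℝ) < 2 ^ L := by positivity
      have h3 := Nat.floor_le (a := 2 ^ L * x i) (mul_nonneg h2.le (hx0 i hi))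
      simp only
      rw [div_le_iff₀ h2]
      linarith
  have hev : ∀ S ∈ X.powerset, ∀ᶠ L : ℕ in Filter.atTop,
      ∑ i ∈ S, z i - ∑ i ∈ X, ((⌊2 ^ L * x i⌋₊ : ℝ) / 2 ^ L) • z i ∈ Kᶜ := by
    intro S hS
    have h1 : Filter.Tendsto (fun L : ℕ =>
        ∑ i ∈ S, z i - ∑ i ∈ X, ((⌊2 ^ L * x i⌋₊ : ℝ) / 2 ^ L) • z i) Filter.atTop
        (nhds (∑ i ∈ S, z i - ∑ i ∈ X, x i • z i)) := by
      apply Filter.Tendsto.const_sub
      apply tendsto_finsetSum
      intro i hi
      exact (hlim i hi).smul_const _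
    exact h1.eventually (hK.closed.isOpen_compl.mem_nhds (hcon S (Finset.mem_powerset.1 hS)))
  obtain ⟨L, hL⟩ := ((Filter.eventually_all_finset X.powerset).2 hev).exists
  obtain ⟨S, hS, k, hk, hSk⟩ := rounding_dyadic K hK hγ X z hz L (fun i => ⌊2 ^ L * x i⌋₊) (by
    intro i hi
    have h2 : (0 : ℝ) < 2 ^ L := by positivity
    have : (⌊2 ^ L * x i⌋₊ : ℝ) ≤ 2 ^ L := by
      refine (Nat.floor_le (mul_nonneg h2.le (hx0 i hi))).trans ?_
      nlinarith [hx1 i hi]
    exact_mod_cast this)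
  apply hL S (Finset.mem_powerset.2 hS)
  rw [hSk]
  have h2L : (1 : ℝ) ≤ 2 ^ L := one_le_pow₀ (by norm_num)
  have hge : (0 : ℝ) ≤ 1 - 1 / 2 ^ L := by
    have : 1 / (2 : ℝ) ^ L ≤ 1 := by
      rw [div_le_one (by positivity)]
      exact h2L
    linarith
  have := hK.conv hk h0K hge (by positivity : (0 : ℝ) ≤ 1 / 2 ^ L) (by ring)
  simpa using this

end Vale.Agent.P262B
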