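import Vale.Agent.P262B.B2T

/-!
# P262B, B2: partition theorems

`uniform_partition` is in `B2U.lean`, `rounding_two` in `B2R.lean`, `tht`, `cellw` and
`tilted_partition` in `B2T.lean`.
-/
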