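import Vale.Agent.P262B.B1

open MeasureTheory ProbabilityTheory
open scoped ENNReal NNReal BigOperators

namespace Vale.Agent.P262B

section marg

variable {E F : Type*} [NormedAddCommGroup E] [InnerProductSpace ℝ E] [FiniteDimensional ℝ E]
  [MeasurableSpace E] [BorelSpace E]
  [NormedAddCommGroup F] [InnerProductSpace ℝ F] [FiniteDimensional ℝ F]
  [MeasurableSpace F] [BorelSpace F]

/-- the first marginal of the standard Gaussian measure of `E × F` -/
lemma map_fst_stdGaussian :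
    (stdGaussian (WithLp 2 (E × F))).map (fun p => p.fst) = stdGaussian E := by
  have hm : Measurable (fun p : WithLp 2 (E × F) => p.fst) := by fun_prop
  have : IsProbabilityMeasure ((stdGaussian (WithLp 2 (E × F))).map (fun p => p.fst)) :=
    Measure.isProbabilityMeasure_map hm.aemeasurable
  apply Measure.ext_of_charFun
  ext t
  rw [charFun_stdGaussian, charFun_apply, integral_map hm.aemeasurable (by fun_prop)]
  have h := charFun_stdGaussian (E := WithLp 2 (E × F)) (WithLp.toLp 2 (t, 0))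
  rw [charFun_apply] at h
  have hn : ‖(WithLp.toLp 2 (t, 0) : WithLp 2 (E × F))‖ ^ 2 = ‖t‖ ^ 2 := by
    rw [WithLp.prod_norm_sq_eq_of_L2]
    simp
  rw [← Complex.ofReal_pow, hn, Complex.ofReal_pow] at h
  rw [← h]
  congr 1
  ext x
  simp [WithLp.prod_inner_apply]

/-- the second marginal of the standard Gaussian measure of `E × F` -/
lemma map_snd_stdGaussian :
    (stdGaussian (WithLp 2 (E × F))).map (fun p => p.snd) = stdGaussian F := by
  have hm : Measurable (fun p : WithLp 2 (E × F) => p.snd) := by fun_prop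
  have : IsProbabilityMeasure ((stdGaussian (WithLp 2 (E × F))).map (fun p => p.snd)) :=
    Measure.isProbabilityMeasure_map hm.aemeasurable
  apply Measure.ext_of_charFun
  ext t
  rw [charFun_stdGaussian, charFun_apply, integral_map hm.aemeasurable (by fun_prop)]
  have h := charFun_stdGaussian (E := WithLp 2 (E × F)) (WithLp.toLp 2 (0, t))
  rw [charFun_apply] at h
  have hn : ‖(WithLp.toLp 2 (0, t) : WithLp 2 (E × F))‖ ^ 2 = ‖t‖ ^ 2 := by
    rw [WithLp.prod_norm_sq_eq_of_L2]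
    simp
  rw [← Complex.ofReal_pow, hn, Complex.ofReal_pow] at h
  rw [← h]
  congr 1
  ext x
  simp [WithLp.prod_inner_apply]

/-- `K × K'` inside the Hilbert space product -/
def prodBody (K : Set E) (K' : Set F) : Set (WithLp 2 (E × F)) :=
  {p | p.fst ∈ K ∧ p.snd ∈ K'}

omit [FiniteDimensional ℝ E] [MeasurableSpace E] [BorelSpace E] [FiniteDimensional ℝ F]
  [MeasurableSpace F] [BorelSpace F] in
lemma goodBody_prod {K : Set E} {K' : Set F} (hK : GoodBody K) (hK' : GoodBody K') :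
    GoodBody (prodBody K K') := by
  refine ⟨?_, ?_, ?_⟩
  · have h1 : IsClosed ((fun p : WithLp 2 (E × F) => p.fst) ⁻¹' K) :=
      hK.closed.preimage (by fun_prop)
    have h2 : IsClosed ((fun p : WithLp 2 (E × F) => p.snd) ⁻¹' K') :=
      hK'.closed.preimage (by fun_prop)
    exact h1.inter h2
  · intro p hp q hq a b ha hb hab
    exact ⟨by simpa using hK.conv hp.1 hq.1 ha hb hab, by simpa using hK'.conv hp.2 hq.2 ha hb hab⟩
  · intro p hp
    exact ⟨by simpa using hK.symm _ hp.1, by simpa using hK'.symm _ hp.2⟩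

lemma stdGaussian_prodBody_compl {K : Set E} {K' : Set F} (hK : GoodBody K) (hK' : GoodBody K') :
    stdGaussian (WithLp 2 (E × F)) (prodBody K K')ᶜ ≤ stdGaussian E Kᶜ + stdGaussian F K'ᶜ := by
  have hm1 : Measurable (fun p : WithLp 2 (E × F) => p.fst) := by fun_prop
  have hm2 : Measurable (fun p : WithLp 2 (E × F) => p.snd) := by fun_prop
  have hsub : (prodBody K K')ᶜ ⊆ ((fun p : WithLp 2 (E × F) => p.fst) ⁻¹' Kᶜ) ∪
      ((fun p : WithLp 2 (E × F) => p.snd) ⁻¹' K'ᶜ) := by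
    intro p hp
    by_contra h
    simp only [Set.mem_union, Set.mem_preimage, Set.mem_compl_iff, not_or, not_not] at h
    exact hp h
  refine (measure_mono hsub).trans ((measure_union_le _ _).trans ?_)
  rw [← Measure.map_apply hm1 hK.closed.measurableSet.compl,
    ← Measure.map_apply hm2 hK'.closed.measurableSet.compl, map_fst_stdGaussian,
    map_snd_stdGaussian]

end marg

open scoped Pointwise

variable {E : Type*} [NormedAddCommGroup E] [InnerProductSpace ℝ E] [FiniteDimensional ℝ E]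
  [MeasurableSpace E] [BorelSpace E]
variable {ι : Type*} [DecidableEq ι]

/-- **R3. Three-way rounding**: two disjoint sets with prescribed fractions. -/
theorem rounding_two (K : Set E) (hK : GoodBody K)
    (hγ : 2 * stdGaussian E Kᶜ ≤ ENNReal.ofReal eps0)
    (X : Finset ι) (z : ι → E) (hz : ∀ i ∈ X, ‖z i‖ ≤ 1 / 40)
    (x y : ι → ℝ) (hx : ∀ i ∈ X, 0 ≤ x i ∧ x i ≤ 1 / 2) (hy : ∀ i ∈ X, 0 ≤ y i ∧ y i ≤ 1 / 2) :
    ∃ S T : Finset ι, S ⊆ X ∧ T ⊆ X ∧ Disjoint S T ∧
      ∑ i ∈ S, z i - ∑ i ∈ X, x i • z i ∈ K ∧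
      ∑ i ∈ T, z i - ∑ i ∈ X, y i • z i ∈ (2 : ℝ) • K := by
  have hγ1 : stdGaussian E Kᶜ ≤ ENNReal.ofReal eps0 := by
    refine le_trans ?_ hγ
    rw [two_mul]
    exact le_self_add
  have hγ2 : stdGaussian (WithLp 2 (E × E)) (prodBody K K)ᶜ ≤ ENNReal.ofReal eps0 := by
    refine (stdGaussian_prodBody_compl hK hK).trans ?_
    rw [← two_mul]
    exact hγ
  let κ : ι → ℝ := fun i => y i / (1 - x i)
  have hκ : ∀ i ∈ X, 0 ≤ κ i ∧ κ i ≤ 1 := by
    intro i hi
    have h1 := hx i hi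
    have h2 := hy i hi
    constructor
    · exact div_nonneg h2.1 (by linarith)
    · rw [div_le_one (by linarith)]
      linarith
  have hκy : ∀ i ∈ X, y i = κ i - κ i * x i := by
    intro i hi
    have h1 := hx i hi
    have h3 : (1 - x i) ≠ 0 := by linarith
    simp only [κ]
    field_simp
  obtain ⟨S, hS, hSK⟩ := rounding (prodBody K K) (goodBody_prod hK hK) hγ2 X
    (fun i => (WithLp.toLp 2 (z i, κ i • z i) : WithLp 2 (E × E))) (by
      intro i hi
      have h1 : ‖(WithLp.toLp 2 (z i, κ i • z i) : WithLp 2 (E × E))‖ ^ 2 ≤ (1 / 20) ^ 2 := by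
        rw [WithLp.prod_norm_sq_eq_of_L2]
        have h2 : ‖κ i • z i‖ ≤ ‖z i‖ := by
          rw [norm_smul, Real.norm_eq_abs, abs_of_nonneg (hκ i hi).1]
          exact mul_le_of_le_one_left (norm_nonneg _) (hκ i hi).2
        have h3 := hz i hi
        have h4 := norm_nonneg (z i)
        have h5 := norm_nonneg (κ i • z i)
        change ‖z i‖ ^ 2 + ‖κ i • z i‖ ^ 2 ≤ (1 / 20) ^ 2
        nlinarith
      exact (sq_le_sq₀ (norm_nonneg _) (by norm_num)).1 h1)
    x (fun i hi => (hx i hi).1) (fun i hi => by linarith [(hx i hi).2])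
  have hfst : ∑ i ∈ S, z i - ∑ i ∈ X, x i • z i ∈ K := by
    have e : (WithLp.fstₗ 2 ℝ E E) (∑ i ∈ S, (WithLp.toLp 2 (z i, κ i • z i) : WithLp 2 (E × E))
        - ∑ i ∈ X, x i • (WithLp.toLp 2 (z i, κ i • z i) : WithLp 2 (E × E)))
        = ∑ i ∈ S, z i - ∑ i ∈ X, x i • z i := by
      rw [map_sub, map_sum, map_sum]
      congr 1
    rw [← e]
    exact hSK.1
  have hsnd : ∑ i ∈ S, κ i • z i - ∑ i ∈ X, x i • κ i • z i ∈ K := by
    have e : (WithLp.sndₗ 2 ℝ E E) (∑ i ∈ S, (WithLp.toLp 2 (z i, κ i • z i) : WithLp 2 (E × E))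
        - ∑ i ∈ X, x i • (WithLp.toLp 2 (z i, κ i • z i) : WithLp 2 (E × E)))
        = ∑ i ∈ S, κ i • z i - ∑ i ∈ X, x i • κ i • z i := by
      rw [map_sub, map_sum, map_sum]
      congr 1
    rw [← e]
    exact hSK.2
  obtain ⟨T, hT, hTK⟩ := rounding K hK hγ1 (X \ S) z
    (fun i hi => (hz i (Finset.mem_sdiff.1 hi).1).trans (by norm_num)) κ
    (fun i hi => (hκ i (Finset.mem_sdiff.1 hi).1).1) (fun i hi => (hκ i (Finset.mem_sdiff.1 hi).1).2)
  refine ⟨S, T, hS, hT.trans Finset.sdiff_subset, ?_, hfst, ?_⟩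
  · exact Finset.disjoint_of_subset_right hT Finset.disjoint_sdiff
  · rw [Set.mem_smul_set]
    refine ⟨(1 / 2 : ℝ) • (∑ i ∈ T, z i - ∑ i ∈ X \ S, κ i • z i)
      + (1 / 2 : ℝ) • (-(∑ i ∈ S, κ i • z i - ∑ i ∈ X, x i • κ i • z i)),
      hK.conv hTK (hK.symm _ hsnd) (by norm_num) (by norm_num) (by norm_num), ?_⟩
    have h1 : ∑ i ∈ X, y i • z i = ∑ i ∈ X, κ i • z i - ∑ i ∈ X, x i • κ i • z i := by
      rw [← Finset.sum_sub_distrib]
      apply Finset.sum_congr rfl
      intro i hi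
      rw [hκy i hi, sub_smul, smul_smul, mul_comm (κ i)]
    have h2 : ∑ i ∈ X \ S, κ i • z i + ∑ i ∈ S, κ i • z i = ∑ i ∈ X, κ i • z i :=
      Finset.sum_sdiff hS
    rw [h1, ← h2]
    module

end Vale.Agent.P262B
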