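import Vale.Agent.P262B.B1

open MeasureTheory ProbabilityTheory
open scoped ENNReal NNReal BigOperators Pointwise

namespace Vale.Agent.P262B

variable {E : Type*} [NormedAddCommGroup E] [InnerProductSpace ℝ E] [FiniteDimensional ℝ E]
  [MeasurableSpace E] [BorelSpace E]
variable {ι : Type*} [DecidableEq ι]

omit [DecidableEq ι] in
/-- enumeration of a finset, cell after cell -/
lemma exists_enum (X : Finset ι) (c : ι → ℕ) :
    ∃ (N : ℕ) (g : Fin N ≃ X), Monotone fun n => c (g n) := by
  let f : Fin X.card → ℕ := fun n => c (X.equivFin.symm n)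
  exact ⟨X.card, (Tuple.sort f).trans X.equivFin.symm, Tuple.monotone_sort f⟩

/-- signs with all cell ends as checkpoints -/
lemma sorted_signs (K : Set E) (hK : GoodBody K) (M : ℕ)
    (hγ : (M : ℝ≥0∞) * stdGaussian E Kᶜ ≤ ENNReal.ofReal eps0)
    (X : Finset ι) (z : ι → E) (hz : ∀ i ∈ X, ‖z i‖ ≤ 1 / 20) (c : ι → ℕ) :
    ∃ ε : ι → ℝ, (∀ i, ε i = 1 ∨ ε i = -1) ∧
      ∀ k, 1 ≤ k → k ≤ M → ∑ i ∈ X with c i < k, ε i • z i ∈ K := by
  classical
  obtain ⟨N, g, hg⟩ := exists_enum X c
  let z' : ℕ → E := fun n => if h : n < N then z (g ⟨n, h⟩) else 0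
  have hz' : ∀ n, ‖z' n‖ ≤ 1 / 20 := by
    intro n
    simp only [z']
    split_ifs with h
    · exact hz _ (g ⟨n, h⟩).2
    · simp
  let Nk : ℕ → ℕ := fun k => ((Finset.univ : Finset (Fin N)).filter fun n => c (g n) < k).card
  have hNk : ∀ k, Nk k ≤ N := by
    intro k
    have := Finset.card_filter_le (Finset.univ : Finset (Fin N)) fun n => c (g n) < k
    simpa using this
  let S : Finset ℕ := (Finset.Icc 1 M).image Nk
  have hScard : S.card ≤ M := by
    have := Finset.card_image_le (s := Finset.Icc 1 M) (f := Nk)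
    simpa using this
  obtain ⟨ε0, h1, h2⟩ := prefix_signs K hK z' hz' N S (by
      intro k hk
      obtain ⟨j, _, rfl⟩ := Finset.mem_image.1 hk
      exact hNk j) (by
      refine le_trans ?_ hγ
      gcongr)
  -- initial segments
  have hseg : ∀ k, ∀ n : Fin N, (n : ℕ) < Nk k ↔ c (g n) < k := by
    intro k n
    constructor
    · intro h
      by_contra hcon
      push Not at hcon
      have hsub : ((Finset.univ : Finset (Fin N)).filter fun n => c (g n) < k)
          ⊆ (Finset.univ : Finset (Fin N)).filter fun m => m < n := by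
        intro m hm
        rw [Finset.mem_filter] at hm ⊢
        refine ⟨Finset.mem_univ _, ?_⟩
        by_contra hle
        push Not at hle
        have := hg hle
        simp only at this
        omega
      have hc := Finset.card_le_card hsub
      have h3 : ((Finset.univ : Finset (Fin N)).filter fun m => m < n).card = n := by
        have : ((Finset.univ : Finset (Fin N)).filter fun m => m < n) = Finset.Iio n := by
          ext m; simp
        rw [this, Fin.card_Iio]
      have h5 : Nk k ≤ (n : ℕ) := by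
        rw [← h3]
        exact hc
      omega
    · intro h
      have hsub : ((Finset.univ : Finset (Fin N)).filter fun m => m ≤ n)
          ⊆ (Finset.univ : Finset (Fin N)).filter fun n => c (g n) < k := by
        intro m hm
        rw [Finset.mem_filter] at hm ⊢
        refine ⟨Finset.mem_univ _, ?_⟩
        have := hg hm.2
        simp only at this
        omega
      have hc := Finset.card_le_card hsub
      have h3 : ((Finset.univ : Finset (Fin N)).filter fun m => m ≤ n).card = n + 1 := by
        have : ((Finset.univ : Finset (Fin N)).filter fun m => m ≤ n) = Finset.Iic n := by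
          ext m; simp
        rw [this, Fin.card_Iic]
      have : (n : ℕ) + 1 ≤ Nk k := by
        rw [← h3]
        exact hc
      omega
  let ε : ι → ℝ := fun i => if h : i ∈ X then ε0 (g.symm ⟨i, h⟩ : Fin N) else 1
  refine ⟨ε, ?_, ?_⟩
  · intro i
    simp only [ε]
    split_ifs with h
    · exact h1 _
    · exact Or.inl rfl
  · intro k hk1 hkM
    have h3 := h2 (Nk k) (Finset.mem_image.2 ⟨k, Finset.mem_Icc.2 ⟨hk1, hkM⟩, rfl⟩)
    have e1 : ∑ n ∈ Finset.range (Nk k), ε0 n • z' n
        = ∑ n : Fin N, if c (g n) < k then ε0 n • z (g n) else 0 := by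
      have hle := hNk k
      have e2 : ∑ n ∈ Finset.range (Nk k), ε0 n • z' n
          = ∑ n ∈ Finset.range N, if n < Nk k then ε0 n • z' n else 0 := by
        rw [← Finset.sum_filter]
        apply Finset.sum_congr _ (fun _ _ => rfl)
        ext n
        simp only [Finset.mem_range, Finset.mem_filter]
        omega
      rw [e2, Finset.sum_range]
      apply Finset.sum_congr rfl
      intro n _
      have h4 : z' (n : ℕ) = z (g n) := by
        simp only [z']
        rw [dif_pos n.2]
      by_cases h5 : c (g n) < k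
      · rw [if_pos h5, if_pos ((hseg k n).2 h5), h4]
      · rw [if_neg h5, if_neg (fun h => h5 ((hseg k n).1 h))]
    have e3 : ∑ i ∈ X with c i < k, ε i • z i
        = ∑ n : Fin N, if c (g n) < k then ε0 n • z (g n) else 0 := by
      rw [Finset.sum_filter, ← Finset.sum_attach, ← Finset.univ_eq_attach]
      rw [← Equiv.sum_comp g]
      apply Finset.sum_congr rfl
      intro n _
      have h6 : ε (g n) = ε0 n := by
        simp only [ε]
        rw [dif_pos (g n).2]
        simp
      rw [h6]
    rw [e3, ← e1]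
    exact h3

omit [FiniteDimensional ℝ E] [MeasurableSpace E] [BorelSpace E] in
lemma GoodBody.half {K : Set E} (hK : GoodBody K) {t : ℝ} (ht : 0 ≤ t) {a b : E}
    (ha : a ∈ t • K) (hb : b ∈ K) : (1 / 2 : ℝ) • (a + b) ∈ ((t + 1) / 2) • K := by
  have h1 : a + b ∈ (t + 1) • K := by
    rw [hK.conv.add_smul ht (by norm_num)]
    exact Set.add_mem_add ha (by simpa using hb)
  obtain ⟨x, hx, hxe⟩ := Set.mem_smul_set.1 h1
  rw [← hxe]
  refine Set.mem_smul_set.2 ⟨x, hx, ?_⟩
  rw [smul_smul]
  congr 1
  ring

omit [FiniteDimensional ℝ E] [MeasurableSpace E] [BorelSpace E] in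
lemma GoodBody.neg_smul {K : Set E} (hK : GoodBody K) {t : ℝ} {a : E}
    (ha : a ∈ t • K) : -a ∈ t • K := by
  obtain ⟨x, hx, rfl⟩ := Set.mem_smul_set.1 ha
  exact Set.mem_smul_set.2 ⟨-x, hK.symm x hx, by simp⟩

/-- boundary error -/
noncomputable def berr (M : ℕ) (X : Finset ι) (z : ι → E) (c : ι → ℕ) (k : ℕ) : E :=
  ∑ i ∈ X with c i < k, z i - ((k : ℝ) / M) • ∑ i ∈ X, z i

/-- one reflection step -/
lemma improve (K : Set E) (hK : GoodBody K) (h0 : (0 : E) ∈ K) (M : ℕ) (hM : 1 ≤ M)
    (hγ : (M : ℝ≥0∞) * stdGaussian E Kᶜ ≤ ENNReal.ofReal eps0)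
    (X : Finset ι) (z : ι → E) (hz : ∀ i ∈ X, ‖z i‖ ≤ 1 / 20) (c : ι → ℕ)
    (hc : ∀ i ∈ X, c i < M) (t : ℝ) (ht : 0 ≤ t) (he : ∀ k ≤ M, berr M X z c k ∈ t • K) :
    ∃ c' : ι → ℕ, (∀ i ∈ X, c' i < M) ∧ ∀ k ≤ M, berr M X z c' k ∈ ((t + 1) / 2) • K := by
  classical
  obtain ⟨ε, h1, h2⟩ := sorted_signs K hK M hγ X z hz c
  have hMr : (M : ℝ) ≠ 0 := by positivity
  have hne : ¬ ((-1 : ℝ) = 1) := by norm_num
  have hS : ∀ k ≤ M, ∑ i ∈ X with c i < k, ε i • z i ∈ K := by
    intro k hk
    rcases Nat.eq_zero_or_pos k with h | h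
    · subst h
      simpa using h0
    · exact h2 k h hk
  refine ⟨fun i => if ε i = 1 then c i / 2 else (2 * M - 1 - c i) / 2, ?_, ?_⟩
  · intro i hi
    have := hc i hi
    simp only
    split_ifs <;> omega
  · intro k hk
    by_cases h2k : 2 * k ≤ M
    · have e1 : ∑ i ∈ X with (if ε i = 1 then c i / 2 else (2 * M - 1 - c i) / 2) < k, z i
          = (1 / 2 : ℝ) • (∑ i ∈ X with c i < 2 * k, z i + ∑ i ∈ X with c i < 2 * k, ε i • z i) := by
        rw [← Finset.sum_add_distrib, Finset.smul_sum, Finset.sum_filter, Finset.sum_filter]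
        apply Finset.sum_congr rfl
        intro i hi
        have hci := hc i hi
        rcases h1 i with h | h
        · rw [h, if_pos rfl]
          by_cases h3 : c i < 2 * k
          · rw [if_pos (by omega), if_pos h3]
            module
          · rw [if_neg (by omega), if_neg h3]
        · rw [h, if_neg hne, if_neg (by omega)]
          by_cases h3 : c i < 2 * k
          · rw [if_pos h3]
            module
          · rw [if_neg h3]
      have e2 : berr M X z (fun i => if ε i = 1 then c i / 2 else (2 * M - 1 - c i) / 2) k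
          = (1 / 2 : ℝ) • (berr M X z c (2 * k) + ∑ i ∈ X with c i < 2 * k, ε i • z i) := by
        simp only [berr]
        rw [e1]
        have : ((k : ℝ) / M) = (1 / 2 : ℝ) * (((2 * k : ℕ) : ℝ) / M) := by
          push_cast
          ring
        rw [this, mul_smul]
        module
      rw [e2]
      exact hK.half ht (he (2 * k) h2k) (hS (2 * k) h2k)
    · obtain ⟨j, hj⟩ : ∃ j, j = 2 * M - 2 * k := ⟨_, rfl⟩
      have hjM : j ≤ M := by omega
      have e1 : ∑ i ∈ X with (if ε i = 1 then c i / 2 else (2 * M - 1 - c i) / 2) < k, z i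
          = ∑ i ∈ X, z i
            - (1 / 2 : ℝ) • (∑ i ∈ X with c i < j, z i - ∑ i ∈ X with c i < j, ε i • z i) := by
        rw [← Finset.sum_sub_distrib, Finset.smul_sum, Finset.sum_filter, Finset.sum_filter,
          ← Finset.sum_sub_distrib]
        apply Finset.sum_congr rfl
        intro i hi
        have hci := hc i hi
        rcases h1 i with h | h
        · rw [h, if_pos rfl, if_pos (by omega)]
          by_cases h3 : c i < j
          · rw [if_pos h3]
            module
          · rw [if_neg h3]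
            module
        · rw [h, if_neg hne]
          by_cases h3 : c i < j
          · rw [if_pos h3, if_neg (by omega)]
            module
          · rw [if_neg h3, if_pos (by omega)]
            module
      have e2 : berr M X z (fun i => if ε i = 1 then c i / 2 else (2 * M - 1 - c i) / 2) k
          = (1 / 2 : ℝ) • (-berr M X z c j + ∑ i ∈ X with c i < j, ε i • z i) := by
        simp only [berr]
        rw [e1]
        have : ((k : ℝ) / M) = 1 - (1 / 2 : ℝ) * ((j : ℝ) / M) := by
          have hjr : (j : ℝ) = 2 * M - 2 * k := by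
            rw [hj, Nat.cast_sub (by omega)]
            push_cast
            ring
          rw [hjr]
          field_simp
          ring
        rw [this, sub_smul, mul_smul, one_smul]
        module
      rw [e2]
      exact hK.half ht (hK.neg_smul (he j hjM)) (hS j hjM)

/-- a good body of large measure absorbs everything -/
lemma absorb (K : Set E) (hK : GoodBody K)
    (hγ : stdGaussian E Kᶜ ≤ ENNReal.ofReal eps0) (x : E) {t : ℝ} (ht : 0 < t)
    (hx : 20 * ‖x‖ ≤ t) : x ∈ t • K := by
  have hn : ‖(1 / t) • x‖ ≤ 1 / 20 := by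
    rw [norm_smul, Real.norm_eq_abs, abs_of_pos (by positivity), one_div_mul_eq_div,
      div_le_div_iff₀ ht (by norm_num)]
    linarith
  obtain ⟨ε, h1, h2⟩ := signs_one K hK hγ ({()} : Finset Unit) (fun _ => (1 / t) • x)
    (fun _ _ => hn)
  rw [Finset.sum_singleton] at h2
  have h3 : (1 / t) • x ∈ K := by
    rcases h1 () with h | h
    · rw [h, one_smul] at h2
      exact h2
    · rw [h] at h2
      have := hK.symm _ h2
      simpa using this
  exact Set.mem_smul_set.2 ⟨_, h3, by rw [smul_smul, mul_one_div_cancel ht.ne', one_smul]⟩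

/-- **B2. Uniform partition theorem** (Chobanyan reflection applied to cells). -/
theorem uniform_partition (K : Set E) (hK : GoodBody K) (M : ℕ) (hM : 1 ≤ M)
    (hγ : (M : ℝ≥0∞) * stdGaussian E Kᶜ ≤ ENNReal.ofReal eps0)
    (X : Finset ι) (z : ι → E) (hz : ∀ i ∈ X, ‖z i‖ ≤ 1 / 20) :
    ∃ c : ι → ℕ, (∀ i ∈ X, c i < M) ∧
      ∀ k ≤ M, ∑ i ∈ X with c i < k, z i - ((k : ℝ) / M) • ∑ i ∈ X, z i ∈ K := by
  classical
  have hγ1 : stdGaussian E Kᶜ ≤ ENNReal.ofReal eps0 := by
    refine le_trans ?_ hγ
    have : (1 : ℝ≥0∞) ≤ M := by exact_mod_cast hM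
    calc stdGaussian E Kᶜ = 1 * stdGaussian E Kᶜ := (one_mul _).symm
      _ ≤ _ := by gcongr
  have h0 : (0 : E) ∈ K := hK.zero_mem (nonempty_of_compl_le hγ1)
  -- initial bound
  obtain ⟨C, hC0, hC⟩ : ∃ C : ℝ, 0 < C ∧ ∀ k ≤ M, berr M X z (fun _ => 0) k ∈ (1 + C) • K := by
    refine ⟨1 + ∑ k ∈ Finset.range (M + 1), 20 * ‖berr M X z (fun _ => 0) k‖, by positivity, ?_⟩
    intro k hk
    apply absorb K hK hγ1 _ (by positivity)
    have := Finset.single_le_sum (f := fun k => 20 * ‖berr M X z (fun _ => 0) k‖)
      (fun i _ => by positivity) (Finset.mem_range.2 (Nat.lt_succ_of_le hk))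
    linarith
  have hstep : ∀ n : ℕ, ∃ c : ι → ℕ, (∀ i ∈ X, c i < M) ∧
      ∀ k ≤ M, berr M X z c k ∈ (1 + C / 2 ^ n) • K := by
    intro n
    induction n with
    | zero => exact ⟨fun _ => 0, fun _ _ => hM, by simpa using hC⟩
    | succ n ih =>
      obtain ⟨c, hc, he⟩ := ih
      obtain ⟨c', hc', he'⟩ := improve K hK h0 M hM hγ X z hz c hc _ (by positivity) he
      refine ⟨c', hc', ?_⟩
      intro k hk
      have := he' k hk
      have e : (1 + C / 2 ^ n + 1) / 2 = 1 + C / 2 ^ (n + 1) := by
        rw [pow_succ]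
        field_simp
        ring
      rwa [e] at this
  choose cs hcs hes using hstep
  -- pigeonhole
  let F : ℕ → (X → Fin M) := fun n i => ⟨cs n i, hcs n i i.2⟩
  obtain ⟨y, hy⟩ := Finite.exists_infinite_fiber F
  let c : ι → ℕ := fun i => if h : i ∈ X then y ⟨i, h⟩ else 0
  refine ⟨c, ?_, ?_⟩
  · intro i hi
    simp only [c]
    rw [dif_pos hi]
    exact (y ⟨i, hi⟩).2
  · intro k hk
    have hfr : ∃ᶠ n in Filter.atTop, berr M X z c k ∈ (1 + C / 2 ^ n) • K := by
      have h1 : ∃ᶠ n in Filter.atTop, F n = y := by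
        rw [Nat.frequently_atTop_iff_infinite]
        exact Set.infinite_coe_iff.1 hy
      refine h1.mono ?_
      intro n hn
      have h2 : berr M X z c k = berr M X z (cs n) k := by
        simp only [berr]
        congr 1
        apply Finset.sum_congr _ (fun _ _ => rfl)
        apply Finset.filter_congr
        intro i hi
        have h3 : c i = cs n i := by
          simp only [c]
          rw [dif_pos hi, ← hn]
        rw [h3]
      rw [h2]
      exact hes n k hk
    have hfr2 : ∃ᶠ n in Filter.atTop, (1 + C / 2 ^ n)⁻¹ • berr M X z c k ∈ K := by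
      refine hfr.mono ?_
      intro n hn
      obtain ⟨x, hx, hxe⟩ := Set.mem_smul_set.1 hn
      rw [← hxe, smul_smul, inv_mul_cancel₀ (by positivity), one_smul]
      exact hx
    have hlim : Filter.Tendsto (fun n : ℕ => (1 + C / 2 ^ n)⁻¹ • berr M X z c k) Filter.atTop
        (nhds ((1 + (0 : ℝ))⁻¹ • berr M X z c k)) := by
      apply Filter.Tendsto.smul_const
      apply Filter.Tendsto.inv₀ _ (by norm_num)
      apply Filter.Tendsto.const_add
      have : Filter.Tendsto (fun n : ℕ => C * (1 / 2 : ℝ) ^ n) Filter.atTop (nhds (C * 0)) :=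
        (tendsto_pow_atTop_nhds_zero_of_lt_one (by norm_num) (by norm_num)).const_mul C
      rw [mul_zero] at this
      refine this.congr ?_
      intro n
      rw [one_div, inv_pow]
      rfl
    have h4 := hK.closed.mem_of_frequently_of_tendsto hfr2 hlim
    rw [add_zero, inv_one, one_smul] at h4
    exact h4

end Vale.Agent.P262B
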