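import Vale.Agent.P262B.B2R
import Vale.Agent.P262B.B2U

open MeasureTheory ProbabilityTheory
open scoped ENNReal NNReal BigOperators Pointwise

namespace Vale.Agent.P262B

section smulBody

variable {E : Type*} [NormedAddCommGroup E] [InnerProductSpace ℝ E]

lemma GoodBody.smul_mem {K : Set E} (hK : GoodBody K) (h0 : (0 : E) ∈ K) {a c : ℝ}
    (hac : |a| ≤ c) {k : E} (hk : k ∈ K) : a • k ∈ c • K := by
  rcases eq_or_lt_of_le ((abs_nonneg a).trans hac) with hc | hc
  · have ha : a = 0 := by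
      have : |a| ≤ 0 := by rw [hc]; exact hac
      exact abs_eq_zero.1 (le_antisymm this (abs_nonneg a))
    exact Set.mem_smul_set.2 ⟨0, h0, by rw [ha, smul_zero, zero_smul]⟩
  · refine Set.mem_smul_set.2 ⟨(a / c) • k, ?_, by rw [smul_smul, mul_div_cancel₀ _ hc.ne']⟩
    have hb : |a / c| ≤ 1 := by
      rw [abs_div, abs_of_pos hc, div_le_one hc]
      exact hac
    rw [abs_le] at hb
    have h1 := hK.conv hk (hK.symm k hk) (a := (1 + a / c) / 2) (b := (1 - a / c) / 2)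
      (by linarith [hb.1]) (by linarith [hb.2]) (by ring)
    convert h1 using 1
    module

lemma GoodBody.smul_mono {K : Set E} (hK : GoodBody K) (h0 : (0 : E) ∈ K) {a c : ℝ}
    (ha : 0 ≤ a) (hac : a ≤ c) {u : E} (hu : u ∈ a • K) : u ∈ c • K := by
  obtain ⟨k, hk, rfl⟩ := Set.mem_smul_set.1 hu
  exact hK.smul_mem h0 (by rwa [abs_of_nonneg ha]) hk

lemma GoodBody.add_mem {K : Set E} (hK : GoodBody K) {a b : ℝ} (ha : 0 ≤ a) (hb : 0 ≤ b)
    {u v : E} (hu : u ∈ a • K) (hv : v ∈ b • K) : u + v ∈ (a + b) • K := by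
  rw [hK.conv.add_smul ha hb]
  exact Set.add_mem_add hu hv

lemma GoodBody.smul_smul_mem {K : Set E} (hK : GoodBody K) (h0 : (0 : E) ∈ K) {a b c : ℝ}
    (hb : 0 ≤ b) (hac : |a| * b ≤ c) {u : E} (hu : u ∈ b • K) : a • u ∈ c • K := by
  obtain ⟨k, hk, rfl⟩ := Set.mem_smul_set.1 hu
  rw [smul_smul]
  exact hK.smul_mem h0 (by rwa [abs_mul, abs_of_nonneg hb]) hk

end smulBody

variable {E : Type*} [NormedAddCommGroup E] [InnerProductSpace ℝ E] [FiniteDimensional ℝ E]
  [MeasurableSpace E] [BorelSpace E]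
variable {ι : Type*} [DecidableEq ι]

/-- interpolation parameter of boundary `k` between the first and the last inner boundary -/
noncomputable def tht (M k : ℕ) : ℝ := if M = 2 then 0 else ((k : ℝ) - 1) / ((M : ℝ) - 2)

/-- perturbation of the fraction of cell `k` -/
noncomputable def cellw (M : ℕ) (φ₁ φ₂ : ι → ℝ) (k : ℕ) (i : ι) : ℝ :=
  if k = 0 then -φ₁ i else if k = M - 1 then φ₂ i else (φ₁ i - φ₂ i) / ((M : ℝ) - 2)

/-- the case `M = 2` of the partition lemma with tilt -/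
lemma tilted_two (K : Set E) (hK : GoodBody K) (hγ : stdGaussian E Kᶜ ≤ ENNReal.ofReal eps0)
    (X : Finset ι) (z : ι → E) (hz : ∀ i ∈ X, ‖z i‖ ≤ 1 / 40)
    (φ : ι → ℝ) (h₁ : ∀ i ∈ X, |φ i| ≤ 1 / 4) :
    ∃ c : ι → ℕ, (∀ i ∈ X, c i < 2) ∧
      (∀ k, 1 ≤ k → k < 2 →
        ∑ i ∈ X with c i < k, z i - ((k : ℝ) / (2 : ℕ)) • ∑ i ∈ X, z i
          + ∑ i ∈ X, ((1 - tht 2 k) * φ i + tht 2 k * φ i) • z i ∈ (3 : ℝ) • K) ∧
      (∀ k < 2, ∑ i ∈ X with c i = k, z i
          - ∑ i ∈ X, (1 / ((2 : ℕ) : ℝ) + cellw 2 φ φ k i) • z i ∈ (4 : ℝ) • K) := by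
  have h0 : (0 : E) ∈ K := hK.zero_mem (nonempty_of_compl_le hγ)
  obtain ⟨S, hS, hSK⟩ := rounding K hK hγ X z (fun i hi => (hz i hi).trans (by norm_num))
    (fun i => 1 / 2 - φ i)
    (fun i hi => by have := (abs_le.1 (h₁ i hi)).2; linarith)
    (fun i hi => by have := (abs_le.1 (h₁ i hi)).1; linarith)
  have hsplit : ∑ i ∈ X, (1 / 2 - φ i) • z i = (1 / 2 : ℝ) • ∑ i ∈ X, z i - ∑ i ∈ X, φ i • z i := by
    rw [Finset.smul_sum, ← Finset.sum_sub_distrib]
    exact Finset.sum_congr rfl fun i _ => sub_smul _ _ _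
  refine ⟨fun i => if i ∈ S then 0 else 1, ?_, ?_, ?_⟩
  · intro i _
    simp only
    split_ifs <;> norm_num
  · intro k hk1 hk2
    have hk : k = 1 := by omega
    subst hk
    have hf : X.filter (fun i => (if i ∈ S then 0 else 1) < 1) = S := by
      ext i
      simp only [Finset.mem_filter]
      constructor
      · rintro ⟨_, h⟩
        by_contra hi
        simp [hi] at h
      · intro hi
        exact ⟨hS hi, by simp [hi]⟩
    rw [hf]
    have e : ∑ i ∈ S, z i - (((1 : ℕ) : ℝ) / (2 : ℕ)) • ∑ i ∈ X, z i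
          + ∑ i ∈ X, ((1 - tht 2 1) * φ i + tht 2 1 * φ i) • z i
        = (1 : ℝ) • (∑ i ∈ S, z i - ∑ i ∈ X, (1 / 2 - φ i) • z i) := by
      rw [one_smul, hsplit]
      have : ∑ i ∈ X, ((1 - tht 2 1) * φ i + tht 2 1 * φ i) • z i = ∑ i ∈ X, φ i • z i := by
        apply Finset.sum_congr rfl
        intro i _
        congr 1
        ring
      rw [this]
      push_cast
      abel
    rw [e]
    exact hK.smul_mem h0 (by norm_num) hSK
  · intro k hk
    interval_cases k
    · have hf : X.filter (fun i => (if i ∈ S then 0 else 1) = 0) = S := by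
        ext i
        simp only [Finset.mem_filter]
        constructor
        · rintro ⟨_, h⟩
          by_contra hi
          simp [hi] at h
        · intro hi
          exact ⟨hS hi, by simp [hi]⟩
      rw [hf]
      have e : ∑ i ∈ S, z i - ∑ i ∈ X, (1 / ((2 : ℕ) : ℝ) + cellw 2 φ φ 0 i) • z i
          = (1 : ℝ) • (∑ i ∈ S, z i - ∑ i ∈ X, (1 / 2 - φ i) • z i) := by
        rw [one_smul]
        congr 1
      rw [e]
      exact hK.smul_mem h0 (by norm_num) hSK
    · have hf : X.filter (fun i => (if i ∈ S then 0 else 1) = 1) = X \ S := by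
        ext i
        simp only [Finset.mem_filter, Finset.mem_sdiff]
        constructor
        · rintro ⟨h1, h⟩
          refine ⟨h1, fun hi => ?_⟩
          simp [hi] at h
        · rintro ⟨h1, hi⟩
          exact ⟨h1, by simp [hi]⟩
      rw [hf]
      have e : ∑ i ∈ X \ S, z i - ∑ i ∈ X, (1 / ((2 : ℕ) : ℝ) + cellw 2 φ φ 1 i) • z i
          = (-1 : ℝ) • (∑ i ∈ S, z i - ∑ i ∈ X, (1 / 2 - φ i) • z i) := by
        have h3 : ∑ i ∈ X, (1 / ((2 : ℕ) : ℝ) + cellw 2 φ φ 1 i) • z i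
            = (1 / 2 : ℝ) • ∑ i ∈ X, z i + ∑ i ∈ X, φ i • z i := by
          rw [Finset.smul_sum, ← Finset.sum_add_distrib]
          apply Finset.sum_congr rfl
          intro i _
          rw [← add_smul]
          congr 1
        have h4 : ∑ i ∈ X \ S, z i = ∑ i ∈ X, z i - ∑ i ∈ S, z i := by
          rw [← Finset.sum_sdiff hS]
          abel
        rw [h3, h4, hsplit]
        module
      rw [e]
      exact hK.smul_mem h0 (by norm_num) hSK

/-- the partition built from the first cell `S`, the last cell `T` and a partition `c₀` of the rest -/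
lemma filter_lt {X S T : Finset ι} (hS : S ⊆ X) (c₀ : ι → ℕ)
    {M k : ℕ} (hk1 : 1 ≤ k) (hk : k < M) :
    X.filter (fun i => (if i ∈ S then 0 else if i ∈ T then M - 1 else c₀ i + 1) < k)
      = S ∪ (X \ (S ∪ T)).filter (fun i => c₀ i < k - 1) := by
  ext i
  simp only [Finset.mem_filter, Finset.mem_union, Finset.mem_sdiff, not_or]
  constructor
  · rintro ⟨h1, h⟩
    by_cases hi : i ∈ S
    · exact Or.inl hi
    · by_cases hi' : i ∈ T
      · rw [if_neg hi, if_pos hi'] at h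
        omega
      · rw [if_neg hi, if_neg hi'] at h
        exact Or.inr ⟨⟨h1, hi, hi'⟩, by omega⟩
  · rintro (hi | ⟨⟨h1, hi, hi'⟩, h⟩)
    · exact ⟨hS hi, by rw [if_pos hi]; omega⟩
    · exact ⟨h1, by rw [if_neg hi, if_neg hi']; omega⟩

lemma filter_eq_zero {X S T : Finset ι} (hS : S ⊆ X) (c₀ : ι → ℕ) {M : ℕ} (hM : 2 ≤ M) :
    X.filter (fun i => (if i ∈ S then 0 else if i ∈ T then M - 1 else c₀ i + 1) = 0) = S := by
  ext i
  simp only [Finset.mem_filter]
  constructor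
  · rintro ⟨h1, h⟩
    by_contra hi
    rw [if_neg hi] at h
    split_ifs at h
    omega
  · intro hi
    exact ⟨hS hi, by rw [if_pos hi]⟩

lemma filter_eq_last {X S T : Finset ι} (hT : T ⊆ X) (hST : Disjoint S T) (c₀ : ι → ℕ) {M : ℕ}
    (hM : 2 ≤ M) (hc : ∀ i ∈ X \ (S ∪ T), c₀ i < M - 2) :
    X.filter (fun i => (if i ∈ S then 0 else if i ∈ T then M - 1 else c₀ i + 1) = M - 1) = T := by
  ext i
  simp only [Finset.mem_filter]
  constructor
  · rintro ⟨h1, h⟩
    by_contra hi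
    by_cases hi' : i ∈ S
    · rw [if_pos hi'] at h
      omega
    · rw [if_neg hi', if_neg hi] at h
      have := hc i (by simp [h1, hi, hi'])
      omega
  · intro hi
    have : i ∉ S := fun h => (Finset.disjoint_left.1 hST h) hi
    exact ⟨hT hi, by rw [if_neg this, if_pos hi]⟩

lemma filter_eq_mid {X S T : Finset ι} (c₀ : ι → ℕ) {M k : ℕ} (hk1 : 1 ≤ k) (hk : k < M - 1) :
    X.filter (fun i => (if i ∈ S then 0 else if i ∈ T then M - 1 else c₀ i + 1) = k)
      = (X \ (S ∪ T)).filter (fun i => c₀ i = k - 1) := by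
  ext i
  simp only [Finset.mem_filter, Finset.mem_union, Finset.mem_sdiff, not_or]
  constructor
  · rintro ⟨h1, h⟩
    by_cases hi : i ∈ S
    · rw [if_pos hi] at h
      omega
    · by_cases hi' : i ∈ T
      · rw [if_neg hi, if_pos hi'] at h
        omega
      · rw [if_neg hi, if_neg hi'] at h
        exact ⟨⟨h1, hi, hi'⟩, by omega⟩
  · rintro ⟨⟨h1, hi, hi'⟩, h⟩
    exact ⟨h1, by rw [if_neg hi, if_neg hi']; omega⟩

/-- the case `4 ≤ M` of the partition lemma with tilt -/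
lemma tilted_many (K : Set E) (hK : GoodBody K) (M : ℕ) (hM : 4 ≤ M)
    (hγ : 2 * (M : ℝ≥0∞) * stdGaussian E Kᶜ ≤ ENNReal.ofReal eps0)
    (X : Finset ι) (z : ι → E) (hz : ∀ i ∈ X, ‖z i‖ ≤ 1 / 40)
    (φ₁ φ₂ : ι → ℝ) (h₁ : ∀ i ∈ X, |φ₁ i| ≤ 1 / (2 * M)) (h₂ : ∀ i ∈ X, |φ₂ i| ≤ 1 / (2 * M)) :
    ∃ c : ι → ℕ, (∀ i ∈ X, c i < M) ∧
      (∀ k, 1 ≤ k → k < M →
        ∑ i ∈ X with c i < k, z i - ((k : ℝ) / M) • ∑ i ∈ X, z i
          + ∑ i ∈ X, ((1 - tht M k) * φ₁ i + tht M k * φ₂ i) • z i ∈ (3 : ℝ) • K) ∧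
      (∀ k < M, ∑ i ∈ X with c i = k, z i
          - ∑ i ∈ X, (1 / (M : ℝ) + cellw M φ₁ φ₂ k i) • z i ∈ (4 : ℝ) • K) := by
  have hMr : (4 : ℝ) ≤ M := by exact_mod_cast hM
  have hM0 : (M : ℝ) ≠ 0 := by linarith
  have hM2 : (M : ℝ) - 2 ≠ 0 := by linarith
  have hM2pos : (0 : ℝ) < (M : ℝ) - 2 := by linarith
  have hinv : (1 : ℝ) / M ≤ 1 / 4 := by
    apply one_div_le_one_div_of_le (by norm_num) hMr
  have hinv2 : (1 : ℝ) / (2 * M) = (1 / M) / 2 := by
    field_simp
  have hγ2 : 2 * stdGaussian E Kᶜ ≤ ENNReal.ofReal eps0 := by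
    refine le_trans ?_ hγ
    gcongr
    have : (1 : ℝ≥0∞) ≤ M := by exact_mod_cast (by omega : 1 ≤ M)
    calc (2 : ℝ≥0∞) = 2 * 1 := (mul_one _).symm
      _ ≤ 2 * M := by gcongr
  have hγ1 : stdGaussian E Kᶜ ≤ ENNReal.ofReal eps0 := by
    refine le_trans ?_ hγ2
    rw [two_mul]
    exact le_self_add
  have hγM : ((M - 2 : ℕ) : ℝ≥0∞) * stdGaussian E Kᶜ ≤ ENNReal.ofReal eps0 := by
    refine le_trans ?_ hγ
    gcongr
    calc ((M - 2 : ℕ) : ℝ≥0∞) ≤ M := by exact_mod_cast (by omega : M - 2 ≤ M)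
      _ ≤ 2 * M := by
        rw [two_mul]
        exact le_self_add
  have h0 : (0 : E) ∈ K := hK.zero_mem (nonempty_of_compl_le hγ1)
  obtain ⟨S, T, hS, hT, hST, heS, heT⟩ := rounding_two K hK hγ2 X z hz
    (fun i => 1 / (M : ℝ) - φ₁ i) (fun i => 1 / (M : ℝ) + φ₂ i)
    (fun i hi => by
      have := abs_le.1 (h₁ i hi)
      rw [hinv2] at this
      constructor <;> linarith [this.1, this.2, (by positivity : (0 : ℝ) < 1 / M)])
    (fun i hi => by
      have := abs_le.1 (h₂ i hi)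
      rw [hinv2] at this
      constructor <;> linarith [this.1, this.2, (by positivity : (0 : ℝ) < 1 / M)])
  obtain ⟨c₀, hc₀, hcK⟩ := uniform_partition K hK (M - 2) (by omega) hγM (X \ (S ∪ T)) z
    (fun i hi => (hz i (Finset.mem_sdiff.1 hi).1).trans (by norm_num))
  have hcast : ((M - 2 : ℕ) : ℝ) = (M : ℝ) - 2 := by
    rw [Nat.cast_sub (by omega)]
    norm_num
  rw [hcast] at hcK
  set eS : E := ∑ i ∈ S, z i - ∑ i ∈ X, (1 / (M : ℝ) - φ₁ i) • z i with heSdef
  set eT : E := ∑ i ∈ T, z i - ∑ i ∈ X, (1 / (M : ℝ) + φ₂ i) • z i with heTdef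
  have hsumR : ∑ i ∈ X \ (S ∪ T), z i = ∑ i ∈ X, z i - ∑ i ∈ S, z i - ∑ i ∈ T, z i := by
    have h1 : ∑ i ∈ X \ (S ∪ T), z i + ∑ i ∈ S ∪ T, z i = ∑ i ∈ X, z i :=
      Finset.sum_sdiff (Finset.union_subset hS hT)
    rw [Finset.sum_union hST] at h1
    rw [← h1]
    abel
  have hsumS : ∑ i ∈ S, z i = eS + (1 / (M : ℝ)) • ∑ i ∈ X, z i - ∑ i ∈ X, φ₁ i • z i := by
    have : ∑ i ∈ X, (1 / (M : ℝ) - φ₁ i) • z i
        = (1 / (M : ℝ)) • ∑ i ∈ X, z i - ∑ i ∈ X, φ₁ i • z i := by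
      rw [Finset.smul_sum, ← Finset.sum_sub_distrib]
      exact Finset.sum_congr rfl fun i _ => sub_smul _ _ _
    rw [heSdef, this]
    abel
  have hsumT : ∑ i ∈ T, z i = eT + (1 / (M : ℝ)) • ∑ i ∈ X, z i + ∑ i ∈ X, φ₂ i • z i := by
    have : ∑ i ∈ X, (1 / (M : ℝ) + φ₂ i) • z i
        = (1 / (M : ℝ)) • ∑ i ∈ X, z i + ∑ i ∈ X, φ₂ i • z i := by
      rw [Finset.smul_sum, ← Finset.sum_add_distrib]
      exact Finset.sum_congr rfl fun i _ => add_smul _ _ _
    rw [heTdef, this]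
    abel
  refine ⟨fun i => if i ∈ S then 0 else if i ∈ T then M - 1 else c₀ i + 1, ?_, ?_, ?_⟩
  · intro i hi
    simp only
    split_ifs with h1 h2
    · omega
    · omega
    · have := hc₀ i (by simp [hi, h1, h2])
      omega
  · intro k hk1 hk
    rw [filter_lt hS c₀ hk1 hk]
    have hdisj : Disjoint S ((X \ (S ∪ T)).filter (fun i => c₀ i < k - 1)) := by
      rw [Finset.disjoint_left]
      intro i hi hi'
      have := (Finset.mem_sdiff.1 (Finset.mem_filter.1 hi').1).2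
      exact this (Finset.mem_union_left _ hi)
    rw [Finset.sum_union hdisj]
    have he := hcK (k - 1) (by omega)
    have hkcast : ((k - 1 : ℕ) : ℝ) = (k : ℝ) - 1 := by
      rw [Nat.cast_sub hk1]
      norm_num
    rw [hkcast] at he
    set e : E := ∑ i ∈ (X \ (S ∪ T)).filter (fun i => c₀ i < k - 1), z i
      - (((k : ℝ) - 1) / ((M : ℝ) - 2)) • ∑ i ∈ X \ (S ∪ T), z i with hedef
    have htht : tht M k = ((k : ℝ) - 1) / ((M : ℝ) - 2) := by
      unfold tht
      rw [if_neg (by omega)]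
    set θ : ℝ := ((k : ℝ) - 1) / ((M : ℝ) - 2) with hθ
    have hk1r : (1 : ℝ) ≤ k := by exact_mod_cast hk1
    have hkr : (k : ℝ) + 1 ≤ M := by exact_mod_cast hk
    have hθ0 : 0 ≤ θ := div_nonneg (by linarith) hM2pos.le
    have hθ1 : θ ≤ 1 := by
      rw [hθ, div_le_one hM2pos]
      linarith
    have hksum : (k : ℝ) / M = (1 - θ) * (1 / M) + θ - θ * (1 / M) := by
      rw [hθ]
      field_simp
      ring
    have hmem : (1 - θ) • eS + (-θ) • eT + (1 : ℝ) • e ∈ (3 : ℝ) • K := by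
      have m1 : (1 - θ) • eS ∈ (1 - θ) • K := Set.smul_mem_smul_set heS
      have m2 : (-θ) • eT ∈ (2 * θ) • K := by
        refine hK.smul_smul_mem h0 (by norm_num : (0 : ℝ) ≤ 2) ?_ heT
        rw [abs_neg, abs_of_nonneg hθ0]
        linarith
      have m3 : (1 : ℝ) • e ∈ (1 : ℝ) • K := Set.smul_mem_smul_set he
      have m := hK.add_mem (by linarith) (by norm_num) (hK.add_mem (by linarith) (by linarith) m1 m2) m3
      exact hK.smul_mono h0 (by linarith) (by linarith) m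
    have hφ : ∑ i ∈ X, ((1 - tht M k) * φ₁ i + tht M k * φ₂ i) • z i
        = (1 - θ) • ∑ i ∈ X, φ₁ i • z i + θ • ∑ i ∈ X, φ₂ i • z i := by
      rw [Finset.smul_sum, Finset.smul_sum, ← Finset.sum_add_distrib, htht]
      apply Finset.sum_congr rfl
      intro i _
      rw [add_smul, mul_smul, mul_smul]
    have hR : ∑ i ∈ (X \ (S ∪ T)).filter (fun i => c₀ i < k - 1), z i
        = e + θ • ∑ i ∈ X \ (S ∪ T), z i := by
      rw [hedef]
      abel
    rw [hR, hsumR, hφ, hksum, hsumT, hsumS]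
    convert hmem using 1
    module
  · intro k hk
    rcases Nat.eq_zero_or_pos k with hk0 | hkpos
    · subst hk0
      rw [filter_eq_zero hS c₀ (by omega)]
      have e : ∑ i ∈ S, z i - ∑ i ∈ X, (1 / (M : ℝ) + cellw M φ₁ φ₂ 0 i) • z i = (1 : ℝ) • eS := by
        rw [one_smul, heSdef]
        rfl
      rw [e]
      exact hK.smul_mem h0 (by norm_num) heS
    · rcases Nat.lt_or_ge k (M - 1) with hkM | hkM
      · rw [filter_eq_mid c₀ hkpos hkM]
        have hkcast : ((k - 1 : ℕ) : ℝ) = (k : ℝ) - 1 := by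
          rw [Nat.cast_sub hkpos]
          norm_num
        have he := hcK (k - 1) (by omega)
        have he' := hcK k (by omega)
        rw [hkcast] at he
        set e : E := ∑ i ∈ (X \ (S ∪ T)).filter (fun i => c₀ i < k - 1), z i
          - (((k : ℝ) - 1) / ((M : ℝ) - 2)) • ∑ i ∈ X \ (S ∪ T), z i with hedef
        set e' : E := ∑ i ∈ (X \ (S ∪ T)).filter (fun i => c₀ i < k), z i
          - ((k : ℝ) / ((M : ℝ) - 2)) • ∑ i ∈ X \ (S ∪ T), z i with hedef'
        have hcell : ∑ i ∈ (X \ (S ∪ T)).filter (fun i => c₀ i = k - 1), z i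
            = ∑ i ∈ (X \ (S ∪ T)).filter (fun i => c₀ i < k), z i
              - ∑ i ∈ (X \ (S ∪ T)).filter (fun i => c₀ i < k - 1), z i := by
          have hun : (X \ (S ∪ T)).filter (fun i => c₀ i < k)
              = (X \ (S ∪ T)).filter (fun i => c₀ i < k - 1)
                ∪ (X \ (S ∪ T)).filter (fun i => c₀ i = k - 1) := by
            ext i
            simp only [Finset.mem_filter, Finset.mem_union]
            constructor
            · rintro ⟨h1, h2⟩
              rcases Nat.lt_or_ge (c₀ i) (k - 1) with h | h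
              · exact Or.inl ⟨h1, h⟩
              · exact Or.inr ⟨h1, by omega⟩
            · rintro (⟨h1, h2⟩ | ⟨h1, h2⟩)
              · exact ⟨h1, by omega⟩
              · exact ⟨h1, by omega⟩
          have hd : Disjoint ((X \ (S ∪ T)).filter (fun i => c₀ i < k - 1))
              ((X \ (S ∪ T)).filter (fun i => c₀ i = k - 1)) := by
            rw [Finset.disjoint_left]
            intro i hi hi'
            have h1 := (Finset.mem_filter.1 hi).2
            have h2 := (Finset.mem_filter.1 hi').2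
            omega
          rw [hun, Finset.sum_union hd]
          abel
        have hcw : ∑ i ∈ X, (1 / (M : ℝ) + cellw M φ₁ φ₂ k i) • z i
            = (1 / (M : ℝ)) • ∑ i ∈ X, z i
              + (1 / ((M : ℝ) - 2)) • (∑ i ∈ X, φ₁ i • z i - ∑ i ∈ X, φ₂ i • z i) := by
          rw [← Finset.sum_sub_distrib, Finset.smul_sum, Finset.smul_sum, ← Finset.sum_add_distrib]
          apply Finset.sum_congr rfl
          intro i _
          unfold cellw
          rw [if_neg (by omega), if_neg (by omega), add_smul, ← sub_smul, smul_smul]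
          congr 2
          ring
        have hmem : (-(1 / ((M : ℝ) - 2))) • eS + (-(1 / ((M : ℝ) - 2))) • eT
            + ((1 : ℝ) • e' + (-1 : ℝ) • e) ∈ (4 : ℝ) • K := by
          have hle : 1 / ((M : ℝ) - 2) ≤ 1 / 2 := by
            apply one_div_le_one_div_of_le (by norm_num)
            linarith
          have hge : 0 ≤ 1 / ((M : ℝ) - 2) := by positivity
          have m1 : (-(1 / ((M : ℝ) - 2))) • eS ∈ (1 / 2 : ℝ) • K := by
            refine hK.smul_mem h0 ?_ heS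
            rw [abs_neg, abs_of_nonneg hge]
            exact hle
          have m2 : (-(1 / ((M : ℝ) - 2))) • eT ∈ (1 : ℝ) • K := by
            refine hK.smul_smul_mem h0 (by norm_num : (0 : ℝ) ≤ 2) ?_ heT
            rw [abs_neg, abs_of_nonneg hge]
            linarith
          have m3 : (1 : ℝ) • e' ∈ (1 : ℝ) • K := Set.smul_mem_smul_set he'
          have m4 : (-1 : ℝ) • e ∈ (1 : ℝ) • K := hK.smul_mem h0 (by norm_num) he
          have m := hK.add_mem (by norm_num) (by norm_num)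
            (hK.add_mem (by norm_num) (by norm_num) m1 m2)
            (hK.add_mem (by norm_num) (by norm_num) m3 m4)
          exact hK.smul_mono h0 (by norm_num) (by norm_num) m
        have hR : ∑ i ∈ (X \ (S ∪ T)).filter (fun i => c₀ i < k - 1), z i
            = e + (((k : ℝ) - 1) / ((M : ℝ) - 2)) • ∑ i ∈ X \ (S ∪ T), z i := by
          rw [hedef]
          abel
        have hR' : ∑ i ∈ (X \ (S ∪ T)).filter (fun i => c₀ i < k), z i
            = e' + ((k : ℝ) / ((M : ℝ) - 2)) • ∑ i ∈ X \ (S ∪ T), z i := by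
          rw [hedef']
          abel
        have hcoef : (k : ℝ) / ((M : ℝ) - 2) = ((k : ℝ) - 1) / ((M : ℝ) - 2) + 1 / ((M : ℝ) - 2) := by
          rw [← add_div]
          ring_nf
        have hcoef2 : (1 / ((M : ℝ) - 2)) * (1 - 2 * (1 / (M : ℝ))) = 1 / (M : ℝ) := by
          field_simp
        rw [hcell, hR, hR', hcw, hcoef]
        have hfin : e' + (((k : ℝ) - 1) / ((M : ℝ) - 2) + 1 / ((M : ℝ) - 2)) • ∑ i ∈ X \ (S ∪ T), z i
            - (e + (((k : ℝ) - 1) / ((M : ℝ) - 2)) • ∑ i ∈ X \ (S ∪ T), z i)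
            - ((1 / (M : ℝ)) • ∑ i ∈ X, z i
              + (1 / ((M : ℝ) - 2)) • (∑ i ∈ X, φ₁ i • z i - ∑ i ∈ X, φ₂ i • z i))
            = (-(1 / ((M : ℝ) - 2))) • eS + (-(1 / ((M : ℝ) - 2))) • eT
            + ((1 : ℝ) • e' + (-1 : ℝ) • e)
              + ((1 / ((M : ℝ) - 2)) * (1 - 2 * (1 / (M : ℝ))) - 1 / (M : ℝ)) • ∑ i ∈ X, z i := by
          rw [hsumR, hsumS, hsumT]
          module
        rw [hfin, hcoef2, sub_self, zero_smul, add_zero]
        exact hmem
      · have hkM' : k = M - 1 := by omega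
        subst hkM'
        rw [filter_eq_last hT hST c₀ (by omega) hc₀]
        have e : ∑ i ∈ T, z i - ∑ i ∈ X, (1 / (M : ℝ) + cellw M φ₁ φ₂ (M - 1) i) • z i = eT := by
          rw [heTdef]
          congr 1
          apply Finset.sum_congr rfl
          intro i _
          unfold cellw
          rw [if_neg (by omega), if_pos rfl]
        rw [e]
        exact hK.smul_mono h0 (by norm_num) (by norm_num) heT

/-- **PL. Partition lemma with tilt.** `M` cells; boundary `k` means the union of the cells `< k`. -/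
theorem tilted_partition (K : Set E) (hK : GoodBody K) (M : ℕ) (hM : M = 2 ∨ 4 ≤ M)
    (hγ : 2 * (M : ℝ≥0∞) * stdGaussian E Kᶜ ≤ ENNReal.ofReal eps0)
    (X : Finset ι) (z : ι → E) (hz : ∀ i ∈ X, ‖z i‖ ≤ 1 / 40)
    (φ₁ φ₂ : ι → ℝ) (h₁ : ∀ i ∈ X, |φ₁ i| ≤ 1 / (2 * M)) (h₂ : ∀ i ∈ X, |φ₂ i| ≤ 1 / (2 * M))
    (h2 : M = 2 → φ₁ = φ₂) :
    ∃ c : ι → ℕ, (∀ i ∈ X, c i < M) ∧
      (∀ k, 1 ≤ k → k < M →
        ∑ i ∈ X with c i < k, z i - ((k : ℝ) / M) • ∑ i ∈ X, z i
          + ∑ i ∈ X, ((1 - tht M k) * φ₁ i + tht M k * φ₂ i) • z i ∈ (3 : ℝ) • K) ∧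
      (∀ k < M, ∑ i ∈ X with c i = k, z i
          - ∑ i ∈ X, (1 / (M : ℝ) + cellw M φ₁ φ₂ k i) • z i ∈ (4 : ℝ) • K) := by
  rcases hM with hM | hM
  · subst hM
    have hφ := h2 rfl
    subst hφ
    refine tilted_two K hK ?_ X z hz φ₁ ?_
    · refine le_trans ?_ hγ
      calc stdGaussian E Kᶜ = 1 * stdGaussian E Kᶜ := (one_mul _).symm
        _ ≤ _ := by
          gcongr
          norm_num
    · intro i hi
      have := h₁ i hi
      norm_num at this
      exact this
  · exact tilted_many K hK M hM hγ X z hz φ₁ φ₂ h₁ h₂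

end Vale.Agent.P262B
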