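import Vale.Agent.P262B.Defs

/-!
# P262B, part 2: definitions (instance, spectrum, levels, groups, potential, cell state)

Everything in this file is used verbatim by all modules of part 2.
-/

open scoped BigOperators
open Finset

namespace Vale.Agent.P262B

abbrev Vec (d : ℕ) := EuclideanSpace ℝ (Fin d)

/-- restriction of a vector to a set of coordinates -/
noncomputable def proj {d : ℕ} (J : Finset (Fin d)) (x : Vec d) : Vec d :=
  WithLp.toLp 2 (fun j => if j ∈ J then x j else 0)

/-- normalised instance: the Gram matrix `∑ v vᵀ` is diagonal on the coordinates with `t j > 0`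
(with entries `2 ^ t j`), and has diagonal entries `≤ 1` on the others. -/
structure Inst (d : ℕ) (ι : Type) [Fintype ι] where
  v : ι → Vec d
  hv : ∀ i, ‖v i‖ ≤ 1
  t : Fin d → ℝ
  ht : ∀ j, 0 ≤ t j
  cov : ∀ j j', 0 < t j → 0 < t j' →
    ∑ i, v i j * v i j' = if j = j' then (2 : ℝ) ^ (t j) else 0
  cov0 : ∀ j, t j = 0 → ∑ i, (v i j) ^ 2 ≤ 1

/-! ### The spectrum -/

section Spec

variable {d : ℕ} (t : Fin d → ℝ)

noncomputable def cc : ℝ := 1 / 10 ^ 7

/-- weighted number of coordinates above level `T` -/
noncomputable def DD (T : ℕ) : ℝ :=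
  ∑ j with (T : ℝ) < t j, (2 : ℝ) ^ (-(t j - T) / 8)

def good (T : ℕ) : Prop := DD t T ≤ cc

theorem exists_good (T : ℕ) : ∃ T', T < T' ∧ good t T' := by
  obtain ⟨n, hn⟩ := exists_nat_gt (∑ j, |t j|)
  refine ⟨max n (T + 1), by omega, ?_⟩
  have h : DD t (max n (T + 1)) = 0 := by
    unfold DD
    rw [Finset.sum_eq_zero]
    intro j hj
    exfalso
    have hj' := (Finset.mem_filter.mp hj).2
    have h1 : t j ≤ ∑ j, |t j| :=
      (le_abs_self _).trans (Finset.single_le_sum (f := fun j => |t j|) (fun _ _ => abs_nonneg _) (Finset.mem_univ j))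
    have h2 : (n : ℝ) ≤ ((max n (T + 1) : ℕ) : ℝ) := by exact_mod_cast le_max_left _ _
    linarith
  unfold good
  rw [h]
  norm_num [cc]

open Classical in
/-- the levels of the stages: `Lev 0 = 0`, `Lev (k+1)` = next good level. -/
noncomputable def Lev : ℕ → ℕ
  | 0 => 0
  | k + 1 => Nat.find (exists_good t (Lev k))

/-- length of stage `k` -/
noncomputable def ww (k : ℕ) : ℕ := Lev t (k + 1) - Lev t k

/-- long stages -/
def long (k : ℕ) : Prop := k = 0 ∨ 2 ≤ ww t k

open Classical in
noncomputable def wb (k : ℕ) : ℕ := if long t k then ww t k else 0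

open Classical in
/-- width of the sacrificed zone above the end of stage `k` -/
noncomputable def rho (k : ℕ) : ℕ := if long t k then 2 * Nat.clog 2 (ww t k) + 40 else 0

noncomputable def zz : ℕ → ℕ
  | 0 => 0
  | k + 1 => max (zz k) (Lev t (k + 1) + rho t k)

/-- alive coordinates at the beginning of stage `k` -/
noncomputable def alive (k : ℕ) : Finset (Fin d) := univ.filter (fun j => (zz t k : ℝ) < t j)

/-- base groups. `PP 0 false` = coordinates with `t = 0`; `PP (k+1) false` = coordinates passed
during stage `k`; `PP (k+1) true` = coordinates of the zone of stage `k`. -/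
noncomputable def PP : ℕ → Bool → Finset (Fin d)
  | 0, false => univ.filter (fun j => t j ≤ 0)
  | 0, true => ∅
  | k + 1, false => univ.filter (fun j => (zz t k : ℝ) < t j ∧ t j ≤ (Lev t (k + 1) : ℝ))
  | k + 1, true => univ.filter (fun j => (zz t k : ℝ) < t j ∧ (Lev t (k + 1) : ℝ) < t j ∧
      t j ≤ (zz t (k + 1) : ℝ))

/-- birth indices of nonempty groups -/
def LB (b : ℕ) : Prop := b = 0 ∨ long t (b - 1)

/-- length of the stage which created the groups of index `b` (convention `1` for `b = 0`,
`0` for short stages) -/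
noncomputable def wc (b : ℕ) : ℕ := if b = 0 then 1 else wb t (b - 1)

/-- budget of the groups with index `b` -/
noncomputable def NN (b : ℕ) : ℕ := (PP t b false).card + (PP t b true).card + 4096 * wc t b

noncomputable def sstar (b : ℕ) : ℕ := 4 * Nat.clog 2 (NN t b)

/-- the groups of index `b` are critical at stage `k` -/
def crit (b k : ℕ) : Prop := Lev t k < Lev t b + sstar t b

/-- the groups of index `b` are absorbed at stage `k` -/
def absb (b k : ℕ) : Prop := b ≤ k ∧ crit t b k ∧ NN t b < (ww t k) ^ 2

/-- the base groups of index `b` still exist at the beginning of stage `k` -/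
def present (b k : ℕ) : Prop := b ≤ k ∧ ∀ k' < k, ¬ absb t b k'

open Classical in
/-- coordinates of the groups absorbed during stage `k` -/
noncomputable def Mg (k : ℕ) : Finset (Fin d) :=
  ((range (k + 1)).filter (fun b => absb t b k)).biUnion (fun b => PP t b false ∪ PP t b true)

/-- group indices: birth index and type (0: base, 1: zone, 2: merged) -/
abbrev Grp := ℕ × Fin 3

open Classical in
/-- coordinates of group `g` at the beginning of stage `k` -/
noncomputable def GS (k : ℕ) (g : Grp) : Finset (Fin d) :=
  if g.2 = 0 then (if present t g.1 k then PP t g.1 false else ∅)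
  else if g.2 = 1 then (if present t g.1 k then PP t g.1 true else ∅)
  else (if 1 ≤ g.1 ∧ g.1 ≤ k then Mg t (g.1 - 1) else ∅)

/-- all group indices which can occur at stage `k` -/
def grps (k : ℕ) : Finset Grp := (range (k + 1)) ×ˢ univ

/-- age of group `g` at the beginning of stage `k` -/
noncomputable def age (k : ℕ) (g : Grp) : ℕ :=
  if g.2 = 2 then Lev t k - Lev t (g.1 - 1) else Lev t k - Lev t g.1

/-- critical groups -/
def critg (k : ℕ) (g : Grp) : Prop := g.2 ≠ 2 ∧ crit t g.1 k

/-- weight of group `g` in the potential -/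
noncomputable def om (k : ℕ) (g : Grp) : ℝ :=
  (if g.2 = 2 then 1 else 4) * (1 + (2 : ℝ) ^ (-(age t k g : ℝ) / 64))

/-- initial size bound used for the functional of group `g` -/
noncomputable def BB (g : Grp) : ℝ :=
  if g.2 = 0 then (NN t g.1 : ℝ) else if g.2 = 1 then ((wc t g.1 : ℕ) : ℝ) ^ (9 / 4 : ℝ) else 0

end Spec

end Vale.Agent.P262B
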