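import Vale.Agent.P262B.C0

/-!
# P262B, part 2: constants, potential, cell state
-/

open scoped BigOperators RealInnerProductSpace
open Finset

namespace Vale.Agent.P262B

noncomputable def Cf : ℝ := 10 ^ 9
noncomputable def Cr : ℝ := 10 ^ 30
noncomputable def Cc : ℝ := 10 ^ 60
noncomputable def Gc : ℝ := 12000000
noncomputable def RRR : ℝ := 32 * Gc

section Spec

variable {d : ℕ} (t : Fin d → ℝ)

/-- number of coordinates of `AL` below `l` -/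
noncomputable def mm (AL : Finset (Fin d)) (l : ℝ) : ℕ := (AL.filter (fun j => t j ≤ l)).card

/-- square of the threshold of the soft thresholding -/
noncomputable def tauSq (AL : Finset (Fin d)) (wb : ℕ) (j : Fin d) : ℝ :=
  4 * Gc * (mm t AL (t j) + wb)

/-- bound for the functional of group `g` in the cells of stage `k` -/
noncomputable def phi (k : ℕ) (g : Grp) : ℝ :=
  Cf * ((2 : ℝ) ^ (-(3 / 4) * (age t k g : ℝ)) * BB t g + (1 + (age t k g : ℝ)) ^ 2)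

open Classical in
/-- bound for the `ℓ¹` norm of the granular part in group `g` at stage `k` -/
noncomputable def RR (k : ℕ) (g : Grp) : ℝ :=
  if critg t k g then 0
  else Cr * (Real.sqrt (NN t g.1) + ∑ k' ∈ Ico g.1 k,
    (2 : ℝ) ^ (-((Lev t k' : ℝ) - Lev t g.1) / 32) * Real.sqrt (1 + wb t k'))

open Classical in
/-- cost of stage `k` -/
noncomputable def cost (k : ℕ) : ℝ :=
  Cc * (∑ b ∈ (range (k + 1)).filter (fun b => LB t b),
      (2 : ℝ) ^ (-((Lev t k : ℝ) - Lev t b) / 64) * (NN t b + 1 + wb t k)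
    + NN t (k + 1) + wb t k)

/-- accumulated budget -/
noncomputable def bb (k : ℕ) : ℝ :=
  ∑ k' ∈ range k, (RRR * ((PP t (k' + 1) false).card + (PP t (k' + 1) true).card)
    + cost t k' + 32 * Gc * wb t k')

/-- size bound of the cells -/
noncomputable def sz (n : ℕ) : ℕ → ℝ
  | 0 => n
  | k + 1 => (51 / 50) * (2 : ℝ) ^ (-(ww t k : ℝ)) * sz n k + 5000 * Real.sqrt (1 + wb t k)

/-! ### quantities of one stage depending only on the spectrum -/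

/-- clipping of the `j`-th coordinate at `√(tauSq)` (thresholds of the end of stage `k`) -/
noncomputable def clipv (k : ℕ) (x : Vec d) (j : Fin d) : ℝ :=
  max (-Real.sqrt (tauSq t (alive t (k + 1)) (wb t k) j))
    (min (Real.sqrt (tauSq t (alive t (k + 1)) (wb t k) j)) (x j))

/-- energy of the tilt -/
noncomputable def YY (k : ℕ) : ℝ :=
  ∑ j ∈ alive t (k + 1), tauSq t (alive t (k + 1)) (wb t k) j
    * (2 : ℝ) ^ (-(t j - Lev t (k + 1)))

/-- number of cells of stage `k` -/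
noncomputable def MM (k : ℕ) : ℕ := 2 ^ ww t k

open Classical in
/-- union of the absorbed groups of one type -/
noncomputable def Jabs (k : ℕ) (τ : Bool) : Finset (Fin d) :=
  ((range (k + 1)).filter (fun b => absb t b k)).biUnion (fun b => PP t b τ)

/-- the factor in `(a+b)² ≤ (1+η)a² + (1+1/η)b²` for group `g` at stage `k` -/
noncomputable def eta (k : ℕ) (g : Grp) : ℝ :=
  if g.1 ≤ k then (2 : ℝ) ^ (-(age t k g : ℝ) / 64) / 200 else 1

/-- the potential inequality at stage `k` -/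
def Pot (k : ℕ) (x : Vec d) : Prop :=
  ∀ l : ℝ, ∑ g ∈ grps k, om t k g * ∑ j ∈ GS t k g, x j ^ 2
    + 32 * ∑ j ∈ alive t k with t j ≤ l, x j ^ 2
    ≤ bb t k + RRR * mm t (alive t k) l

end Spec

/-! ### cells -/

section Cell

variable {d : ℕ} {ι : Type} [Fintype ι] [DecidableEq ι] (I : Inst d ι)

/-- functional of group `g` at stage `k` -/
noncomputable def ff (k : ℕ) (g : Grp) (i : ι) : ℝ :=
  min 1 ((2 : ℝ) ^ ((age I.t k g : ℝ) / 8) * ‖proj (GS I.t k g) (I.v i)‖ ^ 2)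

/-- `i` is granular for group `g` at stage `k` -/
def gran (k : ℕ) (g : Grp) (i : ι) : Prop :=
  ¬ critg I.t k g ∧ 1 ≤ (2 : ℝ) ^ ((age I.t k g : ℝ) / 8) * ‖proj (GS I.t k g) (I.v i)‖ ^ 2

/-- covariance control of a set `X` at level `T` on the coordinates of `AL` -/
def CovOK (X : Finset ι) (T : ℕ) (AL : Finset (Fin d)) : Prop :=
  ∀ l : ℝ, (T : ℝ) ≤ l → ∀ x : Vec d, (∀ j, x j ≠ 0 → j ∈ AL ∧ l < I.t j) →
    |∑ i ∈ X, ⟪x, I.v i⟫ ^ 2 - ∑ j, (2 : ℝ) ^ (I.t j - T) * x j ^ 2|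
      ≤ (1 / 4) * (2 : ℝ) ^ (-(l - T) / 2) * ∑ j, (2 : ℝ) ^ (I.t j - T) * x j ^ 2

/-- the granular part of a boundary -/
noncomputable def GV (k : ℕ) (κ : Grp → ι → ℝ) : Vec d :=
  ∑ g ∈ grps k, ∑ i, κ g i • proj (GS I.t k g) (I.v i)

/-- granular data of a cell with two ends -/
structure GranOK (k : ℕ) (X : Finset ι) (S : Grp → Finset ι) (κa κb : Grp → ι → ℝ) : Prop where
  bda : ∀ g i, |κa g i| ≤ 1
  bdb : ∀ g i, |κb g i| ≤ 1
  offa : ∀ g i, i ∉ S g → κa g i = 0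
  offb : ∀ g i, i ∉ S g → κb g i = 0
  signa : ∀ g, ∀ i ∈ X, κa g i ≤ 0
  signb : ∀ g, ∀ i ∈ X, 0 ≤ κb g i
  critE : ∀ g ∈ grps k, critg I.t k g → S g = ∅
  offS : ∀ g, g ∉ grps k → S g = ∅
  granS : ∀ g ∈ grps k, ∀ i ∈ X, gran I k g i → i ∈ S g
  l1 : ∀ g ∈ grps k, ∑ i ∈ S g, ‖proj (GS I.t k g) (I.v i)‖ ≤ RR I.t k g

/-- the invariant of a cell `X` at stage `k` with left end `Ea` and right end `Eb` -/
structure CellState (k : ℕ) (X : Finset ι) (Ea Eb : Vec d) : Prop where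
  sum : Eb = Ea + ∑ i ∈ X, I.v i
  covX : CovOK I X (Lev I.t k) (alive I.t k)
  card : (X.card : ℝ) ≤ sz I.t (Fintype.card ι) k
  F : ∀ g ∈ grps k, ∑ i ∈ X, ff I k g i ≤ phi I.t k g
  ends : ∃ (S : Grp → Finset ι) (κa κb : Grp → ι → ℝ), GranOK I k X S κa κb ∧
    Pot I.t k (Ea - GV I k κa) ∧ Pot I.t k (Eb - GV I k κb)

/-! ### one stage -/

/-- noise coefficients of boundary `m` -/
noncomputable def uu (k : ℕ) (c : ι → ℕ) (yb : Vec d) (m : ℕ) (i : ι) : ℝ :=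
  (if c i < m then 1 else 0) - (m : ℝ) / MM I.t k + ⟪yb, I.v i⟫

/-- vector `∑ u_i v_i` over a set -/
noncomputable def cmb (X : Finset ι) (u : ι → ℝ) : Vec d := ∑ i ∈ X, u i • I.v i

open Classical in
/-- outcome of one stage. `yb m` = tilt vector of boundary `m`, `yc m` = tilt vector of cell `m`. -/
structure StageOut (k : ℕ) (X : Finset ι) (Ea Eb : Vec d) (S : Grp → Finset ι)
    (c : ι → ℕ) (yb yc : ℕ → Vec d) : Prop where
  cM : ∀ i ∈ X, c i < MM I.t k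
  suppb : ∀ m j, j ∉ alive I.t (k + 1) → yb m j = 0
  suppc : ∀ m j, j ∉ alive I.t (k + 1) → yc m j = 0
  cancel : ∀ m, 1 ≤ m → m < MM I.t k → ∀ j ∈ alive I.t (k + 1),
    (cmb I X (fun i => ⟪yb m, I.v i⟫)) j
      = (1 - (m : ℝ) / MM I.t k) * clipv I.t k Ea j + (m : ℝ) / MM I.t k * clipv I.t k Eb j
  enb : ∀ m, 1 ≤ m → m < MM I.t k → ∑ i ∈ X, ⟪yb m, I.v i⟫ ^ 2 ≤ 2 * YY I.t k / MM I.t k
  enc : ∀ m < MM I.t k, ∑ i ∈ X, ⟪yc m, I.v i⟫ ^ 2 ≤ 2 * YY I.t k / MM I.t k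
  smallc : ∀ m < MM I.t k, ‖yc m‖ ≤ 1 / (1000 * MM I.t k)
  /-- alive coordinates -/
  noiseA : ∀ m, 1 ≤ m → m < MM I.t k → ∀ l : ℝ,
    ∑ j ∈ alive I.t (k + 1) with I.t j ≤ l, (cmb I X (uu I k c (yb m) m) j) ^ 2
      ≤ Gc * (mm I.t (alive I.t (k + 1)) l + wb I.t k)
  /-- critical, non absorbed groups of type 0 -/
  noise0 : ∀ m, 1 ≤ m → m < MM I.t k → ∀ b ≤ k, crit I.t b k → ¬ absb I.t b k →
    ‖proj (GS I.t k (b, 0)) (cmb I X (uu I k c (yb m) m))‖ ^ 2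
      ≤ Gc * (phi I.t k (b, 0) + 1 + wb I.t k + age I.t k (b, 0))
  /-- critical, non absorbed groups of type 1 -/
  noise1 : ∀ m, 1 ≤ m → m < MM I.t k → ∀ b ≤ k, crit I.t b k → ¬ absb I.t b k →
    ‖proj (GS I.t k (b, 1)) (cmb I X (uu I k c (yb m) m))‖ ^ 2
      ≤ Gc * ((PP I.t b true).card + 1 + wb I.t k + age I.t k (b, 1))
  /-- noncritical groups: fine part -/
  noiseF : ∀ m, 1 ≤ m → m < MM I.t k → ∀ g ∈ grps k, ¬ critg I.t k g →
    ‖∑ i ∈ X \ S g, uu I k c (yb m) m i • proj (GS I.t k g) (I.v i)‖ ^ 2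
      ≤ Gc * ((2 : ℝ) ^ (-(age I.t k g : ℝ) / 8) * phi I.t k g) * (1 + wb I.t k + age I.t k g)
  /-- absorbed groups -/
  noiseM0 : ∀ m, 1 ≤ m → m < MM I.t k →
    ‖proj (Jabs I.t k false) (cmb I X (uu I k c (yb m) m))‖ ^ 2
      ≤ Gc * (∑ b ∈ (range (k + 1)).filter (fun b => absb I.t b k), phi I.t k (b, 0) + 1 + wb I.t k)
  noiseM1 : ∀ m, 1 ≤ m → m < MM I.t k →
    ‖proj (Jabs I.t k true) (cmb I X (uu I k c (yb m) m))‖ ^ 2
      ≤ Gc * (∑ b ∈ (range (k + 1)).filter (fun b => absb I.t b k), ((PP I.t b true).card : ℝ)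
          + 1 + wb I.t k)
  /-- new groups -/
  noiseN : ∀ m, 1 ≤ m → m < MM I.t k →
    ‖proj (PP I.t (k + 1) false ∪ PP I.t (k + 1) true) (cmb I X (uu I k c (yb m) m))‖ ^ 2
      ≤ Gc * ((PP I.t (k + 1) false).card + (PP I.t (k + 1) true).card + 1 + wb I.t k)
  /-- functionals -/
  func : ∀ m < MM I.t k, ∀ g ∈ grps (k + 1),
    ∑ i ∈ X with c i = m, ff I (k + 1) g i
      ≤ (51 / 50) * (2 : ℝ) ^ (-(ww I.t k : ℝ)) * ∑ i ∈ X, ff I (k + 1) g i
        + 15000 * (1 + age I.t k g) * Real.sqrt (1 + wb I.t k + age I.t k g)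
  /-- covariance -/
  covN : ∀ m < MM I.t k,
    ∑ j ∈ alive I.t (k + 1), ∑ j' ∈ alive I.t (k + 1),
      (∑ i ∈ X with c i = m, I.v i j * I.v i j'
        - ∑ i ∈ X, (1 / (MM I.t k : ℝ) + ⟪yc m, I.v i⟫) * (I.v i j * I.v i j')) ^ 2
      * (2 : ℝ) ^ (-((I.t j - Lev I.t (k + 1)) + (I.t j' - Lev I.t (k + 1))) / 2) ≤ 16 / 10 ^ 4
  /-- cardinality -/
  card : ∀ m < MM I.t k, ((X.filter (fun i => c i = m)).card : ℝ)
      ≤ (51 / 50) * (2 : ℝ) ^ (-(ww I.t k : ℝ)) * X.card + 5000 * Real.sqrt (1 + wb I.t k)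

/-- total (noise + leak) of the fine part of group `g` at boundary `m` -/
noncomputable def gt (k : ℕ) (X : Finset ι) (S : Grp → Finset ι) (c : ι → ℕ) (m : ℕ) (g : Grp) :
    Vec d :=
  ∑ i ∈ X \ S g, ((if c i < m then 1 else 0) - (m : ℝ) / MM I.t k) • proj (GS I.t (k + 1) g) (I.v i)

/-- granular coefficients of boundary `m` -/
noncomputable def kap (k : ℕ) (X : Finset ι) (S : Grp → Finset ι) (κa κb : Grp → ι → ℝ)
    (c : ι → ℕ) (m : ℕ) (g : Grp) (i : ι) : ℝ :=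
  (1 - (m : ℝ) / MM I.t k) * κa g i + (m : ℝ) / MM I.t k * κb g i
    + if i ∈ X ∧ i ∈ S g then ((if c i < m then 1 else 0) - (m : ℝ) / MM I.t k) else 0

end Cell

end Vale.Agent.P262B
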