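import Mathlib

/-!
# P262 (second part): common definitions

`γ E` = standard Gaussian measure of a finite dimensional Euclidean space (Mathlib's `stdGaussian`).
`GoodBody K`: closed, convex, symmetric.
-/

open MeasureTheory ProbabilityTheory

namespace Vale.Agent.P262B

/-- closed convex symmetric set -/
structure GoodBody {E : Type*} [NormedAddCommGroup E] [InnerProductSpace ℝ E] (K : Set E) : Prop where
  closed : IsClosed K
  conv : Convex ℝ K
  symm : ∀ x ∈ K, -x ∈ K

/-- absolute small constant of the measure lemma -/
noncomputable def eps0 : ℝ := 1 / 1000000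

/-- `Kstar K u`: union of all chords of `K` in direction `u` of length `≥ 2‖u‖`, prolonged by `u` on
both sides. -/
def Kstar {E : Type*} [NormedAddCommGroup E] [InnerProductSpace ℝ E] (K : Set E) (u : E) : Set E :=
  {x | ∃ τ : ℝ, |τ| ≤ 2 ∧ x + τ • u + u ∈ K ∧ x + τ • u - u ∈ K}

end Vale.Agent.P262B
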