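import Vale.Agent.P262B.N2

open scoped BigOperators RealInnerProductSpace
open Finset

namespace Vale.Agent.P262B

theorem e1b_geom {r : ℝ} (h0 : 0 ≤ r) (h1 : r < 1) (n : ℕ) :
    ∑ i ∈ range n, r ^ i ≤ (1 - r)⁻¹ := by
  rw [← tsum_geometric_of_lt_one h0 h1]
  exact (summable_geometric_of_lt_one h0 h1).sum_le_tsum _ (fun i _ => pow_nonneg h0 i)

theorem e1b_geom_Ico {r : ℝ} (h0 : 0 ≤ r) (h1 : r < 1) (b k : ℕ) :
    ∑ k' ∈ Ico b k, r ^ (k' - b) ≤ (1 - r)⁻¹ := by
  rw [Finset.sum_Ico_eq_sum_range]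
  simp only [Nat.add_sub_cancel_left]
  exact e1b_geom h0 h1 _

theorem e1b_geom_flip {r : ℝ} (h0 : 0 ≤ r) (h1 : r < 1) (k : ℕ) :
    ∑ b ∈ range (k + 1), r ^ (k - b) ≤ (1 - r)⁻¹ := by
  have h := Finset.sum_range_reflect (fun i => r ^ i) (k + 1)
  simp only [Nat.add_sub_cancel] at h
  rw [h]
  exact e1b_geom h0 h1 _

theorem e1b_sum_wc {d : ℕ} (t : Fin d → ℝ) (k : ℕ) :
    ∑ b ∈ range (k + 1), (wc t b : ℝ) = 1 + ∑ b ∈ range k, (wb t b : ℝ) := by
  rw [Finset.sum_range_succ']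
  unfold wc
  simp only [Nat.add_eq_zero_iff, one_ne_zero, and_false, if_false, Nat.add_sub_cancel, if_true,
    Nat.cast_one]
  ring

theorem e1b_sum_NN {d : ℕ} (t : Fin d → ℝ) (k : ℕ) :
    ∑ b ∈ range (k + 1), (NN t b : ℝ) ≤ d + 4096 * (1 + ∑ b ∈ range k, (wb t b : ℝ)) := by
  have h1 := sum_card_PP t (k + 1)
  have h2 := e1b_sum_wc t k
  have h3 : ∑ b ∈ range (k + 1), (NN t b : ℝ)
      = ∑ b ∈ range (k + 1), ((PP t b false).card + (PP t b true).card : ℝ)
        + 4096 * ∑ b ∈ range (k + 1), (wc t b : ℝ) := by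
    rw [Finset.mul_sum, ← Finset.sum_add_distrib]
    apply Finset.sum_congr rfl
    intro b _
    unfold NN
    push_cast
    ring
  rw [h3, h2]
  linarith

open Classical in
theorem e1b_sum_LB {d : ℕ} (t : Fin d → ℝ) (k : ℕ) :
    ∑ b ∈ range (k + 1), (if LB t b then (1 : ℝ) else 0) ≤ 1 + ∑ b ∈ range k, (wb t b : ℝ) := by
  rw [Finset.sum_range_succ', add_comm]
  have h0 : LB t 0 := Or.inl rfl
  rw [if_pos h0]
  have : ∀ b ∈ range k, (if LB t (b + 1) then (1 : ℝ) else 0) ≤ (wb t b : ℝ) := by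
    intro b _
    split_ifs with h
    · rcases h with h | h
      · omega
      · rw [Nat.add_sub_cancel] at h
        unfold wb
        rw [if_pos h]
        exact_mod_cast ww_pos t b
    · positivity
  linarith [Finset.sum_le_sum this]

/-- double sums, exchange of the order of summation -/
theorem e1b_exchange {r : ℝ} (h0 : 0 ≤ r) (h1 : r < 1) (k : ℕ) (a : ℕ → ℝ) (ha : ∀ n, 0 ≤ a n) :
    ∑ b ∈ range (k + 1), ∑ k' ∈ Ico b k, r ^ (k' - b) * a k'
      ≤ (1 - r)⁻¹ * ∑ k' ∈ range k, a k' := by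
  have h2 : ∑ b ∈ range (k + 1), ∑ k' ∈ Ico b k, r ^ (k' - b) * a k'
      = ∑ k' ∈ range k, ∑ b ∈ range (k' + 1), r ^ (k' - b) * a k' := by
    apply Finset.sum_comm'
    intro x y
    simp only [Finset.mem_range, Finset.mem_Ico]
    omega
  rw [h2, Finset.mul_sum]
  apply Finset.sum_le_sum
  intro k' _
  rw [← Finset.sum_mul]
  exact mul_le_mul_of_nonneg_right (e1b_geom_flip h0 h1 k') (ha k')

noncomputable def e1br (n : ℝ) : ℝ := (2 : ℝ) ^ (-(1 : ℝ) / n)

theorem e1br_nonneg (n : ℝ) : 0 ≤ e1br n := by unfold e1br; positivity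

theorem e1br_lt {n : ℝ} (hn : 0 < n) : e1br n < 1 := by
  unfold e1br
  apply Real.rpow_lt_one_of_one_lt_of_neg (by norm_num)
  exact div_neg_of_neg_of_pos (by norm_num) hn

/-- the decay in the level is at least the decay in the index -/
theorem e1b_decay {d : ℕ} (t : Fin d → ℝ) {n : ℝ} (hn : 0 < n) {b k : ℕ} (h : b ≤ k) :
    (2 : ℝ) ^ (-((Lev t k : ℝ) - Lev t b) / n) ≤ (e1br n) ^ (k - b) := by
  unfold e1br
  rw [← Real.rpow_natCast, ← Real.rpow_mul (by norm_num)]
  apply Real.rpow_le_rpow_of_exponent_le (by norm_num)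
  have h1 := Lev_mono t h
  have h2 : (Lev t b : ℝ) + ((k - b : ℕ) : ℝ) ≤ Lev t k := by exact_mod_cast h1
  rw [div_mul_eq_mul_div, div_le_div_iff_of_pos_right hn]
  linarith

open Classical in
/-- **E1b. Total granular radius.** -/
theorem RR_le : ∃ C : ℝ, ∀ (d : ℕ) (t : Fin d → ℝ), 1 ≤ d → ∀ k,
    ∑ g ∈ (grps k).filter (fun g => LB t g.1), RR t k g ^ 2 ≤ C * d := by
  obtain ⟨r, hr⟩ : ∃ r, r = e1br 32 := ⟨_, rfl⟩
  have hr0 : 0 ≤ r := hr ▸ e1br_nonneg 32
  have hr1 : r < 1 := hr ▸ e1br_lt (by norm_num)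
  obtain ⟨c, hc⟩ : ∃ c, c = (1 - r)⁻¹ := ⟨_, rfl⟩
  have hc0 : 0 ≤ c := by rw [hc]; exact inv_nonneg.mpr (by linarith)
  obtain ⟨W, hW⟩ : ∃ W : ℝ, W = 3 * 10 ^ 8 := ⟨_, rfl⟩
  refine ⟨3 * (Cr ^ 2 * (2 * (1 + 4096 * (1 + W)) + 2 * c * (c * (1 + W) + c * W))), ?_⟩
  intro d t hd k
  have hd1 : (1 : ℝ) ≤ d := by exact_mod_cast hd
  obtain ⟨SW, hSW⟩ : ∃ S : ℝ, S = ∑ b ∈ range k, (wb t b : ℝ) := ⟨_, rfl⟩
  have hSW1 : SW ≤ W * d := by rw [hSW, hW]; exact sum_wb t hd k
  have hSW0 : 0 ≤ SW := by rw [hSW]; positivity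
  -- the bound of one group
  obtain ⟨E, hE⟩ : ∃ E : ℕ → ℝ, E = fun b => ∑ k' ∈ Ico b k, r ^ (k' - b) * (1 + wb t k') :=
    ⟨_, rfl⟩
  have hE0 : ∀ b, 0 ≤ E b := by
    intro b; rw [hE]
    exact Finset.sum_nonneg (fun k' _ => mul_nonneg (pow_nonneg hr0 _) (by positivity))
  obtain ⟨Fb, hFb⟩ : ∃ F : ℕ → ℝ, F = fun b => Cr ^ 2 * (2 * NN t b + 2 * c * E b) := ⟨_, rfl⟩
  have hFb0 : ∀ b, 0 ≤ Fb b := by
    intro b; rw [hFb]
    have := hE0 b
    positivity
  have hone : ∀ g : Grp, RR t k g ^ 2 ≤ Fb g.1 := by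
    intro g
    unfold RR
    split_ifs with hcr
    · simpa using hFb0 g.1
    · obtain ⟨b, hb⟩ : ∃ b, b = g.1 := ⟨_, rfl⟩
      rw [← hb]
      obtain ⟨U, hU⟩ : ∃ U : ℝ, U = ∑ k' ∈ Ico b k,
        (2 : ℝ) ^ (-((Lev t k' : ℝ) - Lev t b) / 32) * Real.sqrt (1 + wb t k') := ⟨_, rfl⟩
      have hU2 : U ^ 2 ≤ c * E b := by
        have h1 : U ≤ ∑ k' ∈ Ico b k, r ^ (k' - b) * Real.sqrt (1 + wb t k') := by
          rw [hU]
          apply Finset.sum_le_sum
          intro k' hk'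
          apply mul_le_mul_of_nonneg_right _ (Real.sqrt_nonneg _)
          rw [hr]
          exact e1b_decay t (by norm_num) (Finset.mem_Ico.mp hk').1
        have hU0 : 0 ≤ U := by
          rw [hU]
          exact Finset.sum_nonneg (fun k' _ => by positivity)
        have h2 : (∑ k' ∈ Ico b k, r ^ (k' - b) * Real.sqrt (1 + wb t k')) ^ 2
            ≤ (∑ k' ∈ Ico b k, r ^ (k' - b)) * ∑ k' ∈ Ico b k, r ^ (k' - b) * (1 + wb t k') := by
          have h3 := Finset.sum_mul_sq_le_sq_mul_sq (Ico b k)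
            (fun k' => Real.sqrt (r ^ (k' - b)))
            (fun k' => Real.sqrt (r ^ (k' - b)) * Real.sqrt (1 + wb t k'))
          have e1 : ∀ k' ∈ Ico b k, Real.sqrt (r ^ (k' - b)) *
              (Real.sqrt (r ^ (k' - b)) * Real.sqrt (1 + wb t k'))
              = r ^ (k' - b) * Real.sqrt (1 + wb t k') := by
            intro k' _
            rw [← mul_assoc, Real.mul_self_sqrt (pow_nonneg hr0 _)]
          have e2 : ∀ k' ∈ Ico b k, Real.sqrt (r ^ (k' - b)) ^ 2 = r ^ (k' - b) := by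
            intro k' _
            rw [Real.sq_sqrt (pow_nonneg hr0 _)]
          have e3 : ∀ k' ∈ Ico b k, (Real.sqrt (r ^ (k' - b)) * Real.sqrt (1 + wb t k')) ^ 2
              = r ^ (k' - b) * (1 + wb t k') := by
            intro k' _
            rw [mul_pow, Real.sq_sqrt (pow_nonneg hr0 _), Real.sq_sqrt (by positivity)]
          rw [Finset.sum_congr rfl e1, Finset.sum_congr rfl e2, Finset.sum_congr rfl e3] at h3
          exact h3
        calc U ^ 2 ≤ (∑ k' ∈ Ico b k, r ^ (k' - b) * Real.sqrt (1 + wb t k')) ^ 2 :=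
              pow_le_pow_left₀ hU0 h1 2
          _ ≤ _ := h2
          _ ≤ c * E b := by
              have h3 := hE0 b
              rw [hE] at h3 ⊢
              apply mul_le_mul_of_nonneg_right _ h3
              rw [hc]
              exact e1b_geom_Ico hr0 hr1 b k
      rw [← hU, hFb, mul_pow]
      simp only
      apply mul_le_mul_of_nonneg_left _ (sq_nonneg _)
      have h4 : Real.sqrt (NN t b) ^ 2 = NN t b := Real.sq_sqrt (by positivity)
      nlinarith [sq_nonneg (Real.sqrt (NN t b) - U)]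
  -- sum over the groups
  have hsum : ∑ g ∈ (grps k).filter (fun g => LB t g.1), RR t k g ^ 2
      ≤ 3 * ∑ b ∈ range (k + 1), (if LB t b then Fb b else 0) := by
    rw [Finset.sum_filter]
    calc ∑ g ∈ grps k, (if LB t g.1 then RR t k g ^ 2 else 0)
        ≤ ∑ g ∈ grps k, (if LB t g.1 then Fb g.1 else 0) := by
          apply Finset.sum_le_sum
          intro g _
          split_ifs
          · exact hone g
          · exact le_refl _
      _ = ∑ b ∈ range (k + 1), ∑ _τ : Fin 3, (if LB t b then Fb b else 0) := by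
          unfold grps
          rw [Finset.sum_product]
      _ = 3 * ∑ b ∈ range (k + 1), (if LB t b then Fb b else 0) := by
          rw [Finset.mul_sum]
          apply Finset.sum_congr rfl
          intro b _
          simp
  have hNN : ∑ b ∈ range (k + 1), (NN t b : ℝ) ≤ (1 + 4096 * (1 + W)) * d := by
    have h1 := e1b_sum_NN t k
    rw [← hSW] at h1
    nlinarith
  have hEE : ∑ b ∈ range (k + 1), (if LB t b then E b else 0) ≤ (c * (1 + W) + c * W) * d := by
    have h1 : ∀ b ∈ range (k + 1), (if LB t b then E b else 0)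
        ≤ c * (if LB t b then (1 : ℝ) else 0) + ∑ k' ∈ Ico b k, r ^ (k' - b) * (wb t k' : ℝ) := by
      intro b _
      have h2 : 0 ≤ ∑ k' ∈ Ico b k, r ^ (k' - b) * (wb t k' : ℝ) :=
        Finset.sum_nonneg (fun k' _ => mul_nonneg (pow_nonneg hr0 _) (by positivity))
      split_ifs with h
      · have h3 : E b = ∑ k' ∈ Ico b k, r ^ (k' - b)
            + ∑ k' ∈ Ico b k, r ^ (k' - b) * (wb t k' : ℝ) := by
          rw [hE, ← Finset.sum_add_distrib]
          apply Finset.sum_congr rfl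
          intro k' _
          ring
        rw [h3, hc, mul_one]
        have := e1b_geom_Ico hr0 hr1 b k
        linarith
      · linarith
    refine (Finset.sum_le_sum h1).trans ?_
    rw [Finset.sum_add_distrib, ← Finset.mul_sum]
    have h2 := e1b_sum_LB t k
    have h3 := e1b_exchange hr0 hr1 k (fun k' => (wb t k' : ℝ)) (fun _ => by positivity)
    rw [← hc] at h3
    simp only [← hSW] at h2 h3
    have h4 : c * ∑ b ∈ range (k + 1), (if LB t b then (1 : ℝ) else 0) ≤ c * (1 + SW) :=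
      mul_le_mul_of_nonneg_left h2 hc0
    have h5 : c * (1 + SW) ≤ c * ((1 + W) * d) := by
      apply mul_le_mul_of_nonneg_left _ hc0
      nlinarith
    have h6 : c * SW ≤ c * (W * d) := mul_le_mul_of_nonneg_left hSW1 hc0
    nlinarith
  have hfin : ∑ b ∈ range (k + 1), (if LB t b then Fb b else 0)
      ≤ Cr ^ 2 * (2 * (1 + 4096 * (1 + W)) + 2 * c * (c * (1 + W) + c * W)) * d := by
    have h1 : ∀ b ∈ range (k + 1), (if LB t b then Fb b else 0)
        ≤ Cr ^ 2 * (2 * NN t b + 2 * c * (if LB t b then E b else 0)) := by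
      intro b _
      split_ifs
      · rw [hFb]
      · have : (0 : ℝ) ≤ NN t b := by positivity
        positivity
    refine (Finset.sum_le_sum h1).trans ?_
    rw [← Finset.mul_sum, Finset.sum_add_distrib, ← Finset.mul_sum, ← Finset.mul_sum]
    have h2 : 2 * c * ∑ b ∈ range (k + 1), (if LB t b then E b else 0)
        ≤ 2 * c * ((c * (1 + W) + c * W) * d) := mul_le_mul_of_nonneg_left hEE (by positivity)
    calc Cr ^ 2 * (2 * ∑ b ∈ range (k + 1), (NN t b : ℝ)
          + 2 * c * ∑ b ∈ range (k + 1), (if LB t b then E b else 0))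
        ≤ Cr ^ 2 * ((2 * (1 + 4096 * (1 + W)) + 2 * c * (c * (1 + W) + c * W)) * d) :=
          mul_le_mul_of_nonneg_left (by nlinarith) (sq_nonneg _)
      _ = _ := by ring
  calc _ ≤ _ := hsum
    _ ≤ 3 * (Cr ^ 2 * (2 * (1 + 4096 * (1 + W)) + 2 * c * (c * (1 + W) + c * W)) * d) := by
        linarith
    _ = _ := by ring

theorem e1b_sz_nonneg {d : ℕ} (t : Fin d → ℝ) (n : ℕ) (k : ℕ) : 0 ≤ sz t n k := by
  induction k with
  | zero => simp [sz]
  | succ k ih =>
      unfold sz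
      positivity

/-- **E1c. Sizes.** -/
theorem sz_eventually : ∃ C : ℝ, ∀ (d : ℕ) (t : Fin d → ℝ), 1 ≤ d → ∀ n : ℕ, ∃ K, sz t n K ≤ C := by
  refine ⟨10301, ?_⟩
  intro d t hd n
  have hsum : Summable (fun k => (wb t k : ℝ)) :=
    summable_of_sum_range_le (fun k => by positivity) (fun K => sum_wb t hd K)
  have htend := hsum.tendsto_atTop_zero
  have hev : ∀ᶠ k in Filter.atTop, (wb t k : ℝ) < 1 :=
    htend.eventually (gt_mem_nhds (by norm_num))
  obtain ⟨K0, hK0⟩ := Filter.eventually_atTop.mp hev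
  have hz : ∀ k ≥ K0, wb t k = 0 := by
    intro k hk
    have h1 := hK0 k hk
    have h2 : wb t k < 1 := by exact_mod_cast h1
    omega
  have hstep : ∀ m, sz t n (K0 + (m + 1)) ≤ 0.51 * sz t n (K0 + m) + 5000 := by
    intro m
    rw [← add_assoc]
    have h1 : sz t n (K0 + m + 1) = (51 / 50) * (2 : ℝ) ^ (-(ww t (K0 + m) : ℝ)) * sz t n (K0 + m)
      + 5000 * Real.sqrt (1 + wb t (K0 + m)) := rfl
    rw [h1, hz (K0 + m) (by omega)]
    have h2 : (2 : ℝ) ^ (-(ww t (K0 + m) : ℝ)) ≤ 1 / 2 := by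
      have h3 : (2 : ℝ) ^ (-(ww t (K0 + m) : ℝ)) ≤ (2 : ℝ) ^ (-(1 : ℝ)) := by
        apply Real.rpow_le_rpow_of_exponent_le (by norm_num)
        have : (1 : ℝ) ≤ ww t (K0 + m) := by exact_mod_cast ww_pos t (K0 + m)
        linarith
      rw [Real.rpow_neg_one] at h3
      linarith
    have h4 := e1b_sz_nonneg t n (K0 + m)
    have h5 : (51 / 50) * (2 : ℝ) ^ (-(ww t (K0 + m) : ℝ)) * sz t n (K0 + m)
        ≤ 0.51 * sz t n (K0 + m) := by
      apply mul_le_mul_of_nonneg_right _ h4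
      linarith
    have h6 : Real.sqrt (1 + ((0 : ℕ) : ℝ)) = 1 := by simp
    rw [h6]
    linarith
  have hbound : ∀ m, sz t n (K0 + m) ≤ 0.51 ^ m * sz t n K0 + 10300 := by
    intro m
    induction m with
    | zero => simp
    | succ m ih =>
        have := hstep m
        rw [pow_succ]
        nlinarith
  have htend2 : Filter.Tendsto (fun m : ℕ => (0.51 : ℝ) ^ m * sz t n K0) Filter.atTop
      (nhds (0 * sz t n K0)) :=
    (tendsto_pow_atTop_nhds_zero_of_lt_one (by norm_num) (by norm_num)).mul_const _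
  rw [zero_mul] at htend2
  obtain ⟨m, hm⟩ := (htend2.eventually (gt_mem_nhds (by norm_num : (0 : ℝ) < 1))).exists
  exact ⟨K0 + m, by linarith [hbound m]⟩

end Vale.Agent.P262B
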