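import Vale.Agent.P262B.E1A
import Vale.Agent.P262B.E1B

/-! `bb_le` (E1A.lean), `RR_le` and `sz_eventually` (E1B.lean). -/
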