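import Vale.Agent.P262B.N2

open scoped BigOperators
open Finset

namespace Vale.Agent.P262B

/-! **E1a: total budget.** -/

/-- ratio of the geometric series -/
noncomputable def e1r : ℝ := (2 : ℝ) ^ (-(1 : ℝ) / 64)

theorem e1r_pos : 0 < e1r := by
  unfold e1r
  positivity

theorem e1r_lt : e1r < 1 := by
  unfold e1r
  apply Real.rpow_lt_one_of_one_lt_of_neg (by norm_num) (by norm_num)

theorem e1_geom (n : ℕ) : ∑ i ∈ range n, e1r ^ i ≤ (1 - e1r)⁻¹ := by
  rw [← tsum_geometric_of_lt_one e1r_pos.le e1r_lt]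
  exact (summable_geometric_of_lt_one e1r_pos.le e1r_lt).sum_le_tsum (range n)
    (fun i _ => pow_nonneg e1r_pos.le i)

theorem e1_geom_up (b k : ℕ) : ∑ k' ∈ Ico b k, e1r ^ (k' - b) ≤ (1 - e1r)⁻¹ := by
  rw [Finset.sum_Ico_eq_sum_range]
  simp only [Nat.add_sub_cancel_left]
  exact e1_geom _

theorem e1_geom_down (k : ℕ) : ∑ b ∈ range (k + 1), e1r ^ (k - b) ≤ (1 - e1r)⁻¹ := by
  have h := Finset.sum_range_reflect (fun j => e1r ^ j) (k + 1)
  simp only [Nat.add_sub_cancel] at h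
  rw [h]
  exact e1_geom _

section

variable {d : ℕ} (t : Fin d → ℝ)

/-- the weights decay geometrically -/
theorem e1_weight {b k : ℕ} (h : b ≤ k) :
    (2 : ℝ) ^ (-((Lev t k : ℝ) - Lev t b) / 64) ≤ e1r ^ (k - b) := by
  unfold e1r
  rw [← Real.rpow_natCast, ← Real.rpow_mul (by norm_num)]
  apply Real.rpow_le_rpow_of_exponent_le (by norm_num)
  have h1 : ((Lev t b : ℝ) + ((k - b : ℕ) : ℝ)) ≤ (Lev t k : ℝ) := by
    exact_mod_cast Lev_mono t h
  linarith

/-- total length of the creating stages -/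
theorem e1_sum_wc (hd : 1 ≤ d) (K : ℕ) :
    ∑ b ∈ range K, (wc t b : ℝ) ≤ 1 + 3 * 10 ^ 8 * d := by
  have hd' : (0 : ℝ) ≤ d := Nat.cast_nonneg d
  rcases K with _ | K
  · simp
    positivity
  · rw [Finset.sum_range_succ']
    have h1 : ∑ b ∈ range K, (wc t (b + 1) : ℝ) = ∑ b ∈ range K, (wb t b : ℝ) := by
      apply Finset.sum_congr rfl
      intro b _
      simp [wc]
    have h2 := sum_wb t hd K
    have h3 : (wc t 0 : ℝ) = 1 := by simp [wc]
    rw [h1, h3]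
    linarith

theorem e1_sum_NN (hd : 1 ≤ d) (K : ℕ) :
    ∑ b ∈ range K, (NN t b : ℝ) ≤ d + 4096 * (1 + 3 * 10 ^ 8 * d) := by
  have h1 := e1_sum_wc t hd K
  have h2 := sum_card_PP t K
  have h3 : ∑ b ∈ range K, (NN t b : ℝ)
      = ∑ b ∈ range K, ((PP t b false).card + (PP t b true).card : ℝ)
        + 4096 * ∑ b ∈ range K, (wc t b : ℝ) := by
    rw [Finset.mul_sum, ← Finset.sum_add_distrib]
    apply Finset.sum_congr rfl
    intro b _
    unfold NN
    push_cast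
    ring
  rw [h3]
  linarith

open Classical in
/-- the double sum with the budgets -/
theorem e1_double (hd : 1 ≤ d) (k : ℕ) :
    ∑ k' ∈ range k, ∑ b ∈ (range (k' + 1)).filter (fun b => LB t b),
      (2 : ℝ) ^ (-((Lev t k' : ℝ) - Lev t b) / 64) * ((NN t b : ℝ) + 1)
      ≤ (1 - e1r)⁻¹ * (d + 4097 * (1 + 3 * 10 ^ 8 * d)) := by
  have hS : 0 ≤ (1 - e1r)⁻¹ := inv_nonneg.mpr (by linarith [e1r_lt])
  calc ∑ k' ∈ range k, ∑ b ∈ (range (k' + 1)).filter (fun b => LB t b),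
      (2 : ℝ) ^ (-((Lev t k' : ℝ) - Lev t b) / 64) * ((NN t b : ℝ) + 1)
      ≤ ∑ k' ∈ range k, ∑ b ∈ range (k' + 1), e1r ^ (k' - b) * ((NN t b : ℝ) + wc t b) := by
        apply Finset.sum_le_sum
        intro k' _
        rw [Finset.sum_filter]
        apply Finset.sum_le_sum
        intro b hb
        have hb' : b ≤ k' := by
          have := Finset.mem_range.mp hb
          omega
        split_ifs with hLB
        · have h1 : (1 : ℝ) ≤ wc t b := by exact_mod_cast wc_pos t hLB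
          apply mul_le_mul (e1_weight t hb') (by linarith) (by positivity)
            (pow_nonneg e1r_pos.le _)
        · exact mul_nonneg (pow_nonneg e1r_pos.le _) (by positivity)
    _ = ∑ b ∈ range k, ∑ k' ∈ Ico b k, e1r ^ (k' - b) * ((NN t b : ℝ) + wc t b) := by
        rw [Finset.range_eq_Ico, Finset.sum_Ico_Ico_comm]
        apply Finset.sum_congr rfl
        intro k' _
        rw [Finset.range_eq_Ico]
    _ ≤ ∑ b ∈ range k, (1 - e1r)⁻¹ * ((NN t b : ℝ) + wc t b) := by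
        apply Finset.sum_le_sum
        intro b _
        rw [← Finset.sum_mul]
        exact mul_le_mul_of_nonneg_right (e1_geom_up b k) (by positivity)
    _ = (1 - e1r)⁻¹ * (∑ b ∈ range k, (NN t b : ℝ) + ∑ b ∈ range k, (wc t b : ℝ)) := by
        rw [← Finset.mul_sum, Finset.sum_add_distrib]
    _ ≤ _ := by
        apply mul_le_mul_of_nonneg_left _ hS
        have h1 := e1_sum_NN t hd k
        have h2 := e1_sum_wc t hd k
        linarith

open Classical in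
/-- the double sum with the stage lengths -/
theorem e1_double_w (hd : 1 ≤ d) (k : ℕ) :
    ∑ k' ∈ range k, ∑ b ∈ (range (k' + 1)).filter (fun b => LB t b),
      (2 : ℝ) ^ (-((Lev t k' : ℝ) - Lev t b) / 64) * (wb t k' : ℝ)
      ≤ (1 - e1r)⁻¹ * (3 * 10 ^ 8 * d) := by
  have hS : 0 ≤ (1 - e1r)⁻¹ := inv_nonneg.mpr (by linarith [e1r_lt])
  calc ∑ k' ∈ range k, ∑ b ∈ (range (k' + 1)).filter (fun b => LB t b),
      (2 : ℝ) ^ (-((Lev t k' : ℝ) - Lev t b) / 64) * (wb t k' : ℝ)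
      ≤ ∑ k' ∈ range k, (1 - e1r)⁻¹ * (wb t k' : ℝ) := by
        apply Finset.sum_le_sum
        intro k' _
        rw [← Finset.sum_mul]
        apply mul_le_mul_of_nonneg_right _ (Nat.cast_nonneg _)
        calc ∑ b ∈ (range (k' + 1)).filter (fun b => LB t b),
              (2 : ℝ) ^ (-((Lev t k' : ℝ) - Lev t b) / 64)
            ≤ ∑ b ∈ range (k' + 1), (2 : ℝ) ^ (-((Lev t k' : ℝ) - Lev t b) / 64) :=
              Finset.sum_le_sum_of_subset_of_nonneg (Finset.filter_subset _ _)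
                (fun _ _ _ => by positivity)
          _ ≤ ∑ b ∈ range (k' + 1), e1r ^ (k' - b) := by
              apply Finset.sum_le_sum
              intro b hb
              have hb' : b ≤ k' := by
                have := Finset.mem_range.mp hb
                omega
              exact e1_weight t hb'
          _ ≤ _ := e1_geom_down k'
    _ = (1 - e1r)⁻¹ * ∑ k' ∈ range k, (wb t k' : ℝ) := by rw [← Finset.mul_sum]
    _ ≤ _ := mul_le_mul_of_nonneg_left (sum_wb t hd k) hS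

/-- total cost -/
theorem e1_cost (hd : 1 ≤ d) (k : ℕ) :
    ∑ k' ∈ range k, cost t k' ≤ Cc * ((1 - e1r)⁻¹ * (d + 4097 * (1 + 3 * 10 ^ 8 * d))
      + (1 - e1r)⁻¹ * (3 * 10 ^ 8 * d) + (d + 4096 * (1 + 3 * 10 ^ 8 * d)) + 3 * 10 ^ 8 * d) := by
  classical
  have h1 := e1_double t hd k
  have h2 := e1_double_w t hd k
  have h3 := sum_wb t hd k
  have h4 : ∑ k' ∈ range k, (NN t (k' + 1) : ℝ) ≤ d + 4096 * (1 + 3 * 10 ^ 8 * d) := by
    have h := e1_sum_NN t hd (k + 1)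
    rw [Finset.sum_range_succ'] at h
    have h0 : (0 : ℝ) ≤ NN t 0 := Nat.cast_nonneg _
    linarith
  have h5 : ∑ k' ∈ range k, cost t k' = Cc * (
      ∑ k' ∈ range k, ∑ b ∈ (range (k' + 1)).filter (fun b => LB t b),
        (2 : ℝ) ^ (-((Lev t k' : ℝ) - Lev t b) / 64) * ((NN t b : ℝ) + 1)
      + ∑ k' ∈ range k, ∑ b ∈ (range (k' + 1)).filter (fun b => LB t b),
        (2 : ℝ) ^ (-((Lev t k' : ℝ) - Lev t b) / 64) * (wb t k' : ℝ)
      + ∑ k' ∈ range k, (NN t (k' + 1) : ℝ) + ∑ k' ∈ range k, (wb t k' : ℝ)) := by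
    rw [← Finset.sum_add_distrib, ← Finset.sum_add_distrib, ← Finset.sum_add_distrib,
      Finset.mul_sum]
    apply Finset.sum_congr rfl
    intro k' _
    unfold cost
    rw [← Finset.sum_add_distrib]
    congr 1
    congr 1
    congr 1
    apply Finset.sum_congr
    · congr
    · intro b _
      ring
  rw [h5]
  apply mul_le_mul_of_nonneg_left _ (by norm_num [Cc])
  linarith

end

/-- **E1a. Total budget.** -/
theorem bb_le : ∃ C : ℝ, ∀ (d : ℕ) (t : Fin d → ℝ), 1 ≤ d → ∀ k, bb t k ≤ C * d := by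
  refine ⟨RRR + Cc * ((1 - e1r)⁻¹ * (1 + 4097 * (1 + 3 * 10 ^ 8))
      + (1 - e1r)⁻¹ * (3 * 10 ^ 8) + (1 + 4096 * (1 + 3 * 10 ^ 8)) + 3 * 10 ^ 8)
      + 32 * Gc * (3 * 10 ^ 8), ?_⟩
  intro d t hd k
  have hS : 0 ≤ (1 - e1r)⁻¹ := inv_nonneg.mpr (by linarith [e1r_lt])
  have hd1 : (1 : ℝ) ≤ d := by exact_mod_cast hd
  have hG : (0 : ℝ) ≤ Gc := by norm_num [Gc]
  have hR : (0 : ℝ) ≤ RRR := by norm_num [RRR, Gc]
  have hC : (0 : ℝ) ≤ Cc := by norm_num [Cc]
  have h1 := e1_cost t hd k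
  have h2 := sum_wb t hd k
  have h3 : ∑ k' ∈ range k, (((PP t (k' + 1) false).card : ℝ) + (PP t (k' + 1) true).card) ≤ d := by
    have h := sum_card_PP t (k + 1)
    rw [Finset.sum_range_succ'] at h
    have h0 : (0 : ℝ) ≤ ((PP t 0 false).card : ℝ) + (PP t 0 true).card := by positivity
    linarith
  have h4 : bb t k = RRR * ∑ k' ∈ range k, (((PP t (k' + 1) false).card : ℝ)
        + (PP t (k' + 1) true).card)
      + ∑ k' ∈ range k, cost t k' + 32 * Gc * ∑ k' ∈ range k, (wb t k' : ℝ) := by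
    unfold bb
    rw [Finset.mul_sum, Finset.mul_sum, ← Finset.sum_add_distrib, ← Finset.sum_add_distrib]
  rw [h4]
  have h5 : RRR * ∑ k' ∈ range k, (((PP t (k' + 1) false).card : ℝ)
      + (PP t (k' + 1) true).card) ≤ RRR * d := mul_le_mul_of_nonneg_left h3 hR
  have h6 : 32 * Gc * ∑ k' ∈ range k, (wb t k' : ℝ) ≤ 32 * Gc * (3 * 10 ^ 8 * d) :=
    mul_le_mul_of_nonneg_left h2 (by positivity)
  have h7 : Cc * ((1 - e1r)⁻¹ * (d + 4097 * (1 + 3 * 10 ^ 8 * d))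
      + (1 - e1r)⁻¹ * (3 * 10 ^ 8 * d) + (d + 4096 * (1 + 3 * 10 ^ 8 * d)) + 3 * 10 ^ 8 * d)
      ≤ Cc * (((1 - e1r)⁻¹ * (1 + 4097 * (1 + 3 * 10 ^ 8))
      + (1 - e1r)⁻¹ * (3 * 10 ^ 8) + (1 + 4096 * (1 + 3 * 10 ^ 8)) + 3 * 10 ^ 8) * d) := by
    apply mul_le_mul_of_nonneg_left _ hC
    have h8 : (1 - e1r)⁻¹ * ((d : ℝ) + 4097 * (1 + 3 * 10 ^ 8 * d))
        ≤ (1 - e1r)⁻¹ * ((1 + 4097 * (1 + 3 * 10 ^ 8)) * d) := by
      apply mul_le_mul_of_nonneg_left _ hS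
      nlinarith
    nlinarith
  calc _ ≤ RRR * d + Cc * (((1 - e1r)⁻¹ * (1 + 4097 * (1 + 3 * 10 ^ 8))
      + (1 - e1r)⁻¹ * (3 * 10 ^ 8) + (1 + 4096 * (1 + 3 * 10 ^ 8)) + 3 * 10 ^ 8) * d)
      + 32 * Gc * (3 * 10 ^ 8 * d) := by linarith
    _ = _ := by ring

end Vale.Agent.P262B
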