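import Vale.Agent.P262B.S9
import Vale.Agent.P262B.E1

open scoped BigOperators RealInnerProductSpace
open Finset

namespace Vale.Agent.P262B

section
variable {d : ℕ} {ι : Type} [Fintype ι] [DecidableEq ι]

theorem s9_inner_eq (x y : Vec d) : ⟪x, y⟫ = ∑ j, x j * y j := by
  rw [PiLp.inner_apply]
  apply Finset.sum_congr rfl
  intro j _
  simp [mul_comm]

theorem s9_proj_norm_sq (J : Finset (Fin d)) (x : Vec d) : ‖proj J x‖ ^ 2 = ∑ j ∈ J, x j ^ 2 := by
  rw [s9_norm_sq_eq]
  simp only [s9_proj_apply]
  rw [← Finset.sum_subset (Finset.subset_univ J)]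
  · apply Finset.sum_congr rfl
    intro j hj
    simp [hj]
  · intro j _ hj
    simp [hj]

theorem s9_proj_empty (x : Vec d) : proj ∅ x = 0 := by
  ext j; simp [s9_proj_apply]

theorem s9_RR_nonneg (t : Fin d → ℝ) (k : ℕ) (g : Grp) : 0 ≤ RR t k g := by
  unfold RR Cr
  split_ifs
  · exact le_rfl
  · positivity

theorem s9_om_ge_one (t : Fin d → ℝ) (k : ℕ) (g : Grp) : 1 ≤ om t k g := by
  unfold om
  have h1 : (0 : ℝ) < (2 : ℝ) ^ (-(age t k g : ℝ) / 64) := by positivity
  split_ifs <;> nlinarith

theorem s9_mem_grps_zero {g : Grp} (hg : g ∈ grps 0) : g.1 = 0 := by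
  have : g.1 ∈ range 1 := (Finset.mem_product.mp hg).1
  simpa using this

omit [DecidableEq ι] in
/-- **F1a.** -/
theorem root_state (I : Inst d ι) (hsum : ∑ i, I.v i = 0) : CellState I 0 univ 0 0 where
  sum := by simp [hsum]
  covX := by
    intro l hl x hx
    have key : ∑ i, ⟪x, I.v i⟫ ^ 2 = ∑ j, (2 : ℝ) ^ (I.t j - (Lev I.t 0 : ℕ)) * x j ^ 2 := by
      have e1 : ∀ i, ⟪x, I.v i⟫ ^ 2 = ∑ j, ∑ j', x j * x j' * (I.v i j * I.v i j') := by
        intro i
        rw [s9_inner_eq, sq, Finset.sum_mul_sum]
        apply Finset.sum_congr rfl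
        intro j _
        apply Finset.sum_congr rfl
        intro j' _
        ring
      simp only [e1]
      rw [Finset.sum_comm]
      apply Finset.sum_congr rfl
      intro j _
      rw [Finset.sum_comm]
      have hL : ((Lev I.t 0 : ℕ) : ℝ) = 0 := by simp [Lev]
      rw [hL, sub_zero]
      by_cases hxj : x j = 0
      · simp [hxj]
      have htj : 0 < I.t j := by
        have := (hx j hxj).1
        simpa [alive, zz] using this
      rw [Finset.sum_eq_single j]
      · rw [← Finset.mul_sum, I.cov j j htj htj]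
        simp
        ring
      · intro j' _ hj'
        by_cases hxj' : x j' = 0
        · simp [hxj']
        have htj' : 0 < I.t j' := by
          have := (hx j' hxj').1
          simpa [alive, zz] using this
        rw [← Finset.mul_sum, I.cov j j' htj htj']
        simp [Ne.symm hj']
      · intro h; exact absurd (Finset.mem_univ j) h
    rw [key, sub_self, abs_zero]
    positivity
  card := by simp [sz]
  F := by
    intro g hg
    have hg0 := s9_mem_grps_zero hg
    have hage : age I.t 0 g = 0 := by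
      unfold age; split_ifs <;> simp [hg0]
    have hff : ∀ i, ff I 0 g i ≤ ‖proj (GS I.t 0 g) (I.v i)‖ ^ 2 := by
      intro i
      unfold ff
      refine (min_le_right _ _).trans (le_of_eq ?_)
      rw [hage]; simp
    have h1 : ∑ i, ff I 0 g i ≤ ((GS I.t 0 g).card : ℝ) := by
      calc ∑ i, ff I 0 g i ≤ ∑ i, ‖proj (GS I.t 0 g) (I.v i)‖ ^ 2 :=
            Finset.sum_le_sum (fun i _ => hff i)
        _ = ∑ i, ∑ j ∈ GS I.t 0 g, (I.v i j) ^ 2 := by
            apply Finset.sum_congr rfl; intro i _; rw [s9_proj_norm_sq]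
        _ = ∑ j ∈ GS I.t 0 g, ∑ i, (I.v i j) ^ 2 := Finset.sum_comm
        _ ≤ ∑ j ∈ GS I.t 0 g, (1 : ℝ) := by
            apply Finset.sum_le_sum
            intro j hj
            have hj0 : I.t j ≤ 0 := by
              have h2 := (Finset.disjoint_left.mp (GS_disjoint_alive I.t (k := 0) (g := g))) hj
              by_contra hcon
              exact h2 (by simp [alive, zz]; linarith)
            exact I.cov0 j (le_antisymm hj0 (I.ht j))
        _ = ((GS I.t 0 g).card : ℝ) := by simp
    refine h1.trans ?_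
    unfold phi
    rw [hage]
    have hcard : ((GS I.t 0 g).card : ℝ) ≤ BB I.t g + 0 := by
      obtain ⟨b, τ⟩ := g
      simp only at hg0
      subst hg0
      unfold GS BB
      fin_cases τ
      · simp only [Fin.zero_eta, ↓reduceIte, add_zero]
        split_ifs
        · have : (PP I.t 0 false).card ≤ NN I.t 0 := by
            unfold NN; omega
          exact_mod_cast this
        · simp
      · simp only [Fin.mk_one, Fin.isValue, one_ne_zero, ↓reduceIte, add_zero]
        split_ifs
        · simp [PP, wc]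
        · simp [wc]
      · simp
    have hBB : 0 ≤ BB I.t g := by
      unfold BB; split_ifs <;> positivity
    have hCf : (1 : ℝ) ≤ Cf := by unfold Cf; norm_num
    have : (2 : ℝ) ^ (-(3 / 4) * (((0 : ℕ) : ℝ))) = 1 := by simp
    rw [this]
    simp only [one_mul, Nat.cast_zero, add_zero, one_pow]
    nlinarith
  ends := by
    refine ⟨fun _ => ∅, fun _ _ => 0, fun _ _ => 0, ?_, ?_, ?_⟩
    · refine ⟨by simp, by simp, by simp, by simp, by simp, by simp, by simp, by simp, ?_, ?_⟩
      · intro g hg i _ hgr
        exfalso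
        have hg0 := s9_mem_grps_zero hg
        obtain ⟨hc, hge⟩ := hgr
        by_cases h2 : g.2 = 2
        · have : GS I.t 0 g = ∅ := by
            unfold GS
            simp [h2, hg0]
          rw [this, s9_proj_empty] at hge
          simp at hge
          linarith
        · apply hc
          refine ⟨h2, ?_⟩
          unfold crit
          rw [hg0]
          have hLB : LB I.t 0 := Or.inl rfl
          have hN := NN_ge I.t hLB
          have : 0 < sstar I.t 0 := by
            unfold sstar
            have : 0 < Nat.clog 2 (NN I.t 0) := Nat.clog_pos (by norm_num) (by omega)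
            omega
          omega
      · intro g hg
        simp [s9_RR_nonneg]
    all_goals
      have : GV I 0 (fun _ _ => 0) = 0 := by
        unfold GV; simp
      rw [this, sub_zero]
      intro l
      have h1 : (0 : ℝ) ≤ RRR * mm I.t (alive I.t 0) l := by
        unfold RRR Gc; positivity
      simp [bb]
      exact h1

/-- **F1b.** the ends of all cells are short -/
theorem ends_bound : ∃ C : ℝ, ∀ (d : ℕ) (ι : Type) [Fintype ι] [DecidableEq ι] (I : Inst d ι),
    1 ≤ d → ∀ (k : ℕ) (X : Finset ι) (Ea Eb : Vec d), CellState I k X Ea Eb →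
      ‖Ea‖ ≤ C * Real.sqrt d := by
  obtain ⟨C1, hC1⟩ := bb_le
  obtain ⟨C2, hC2⟩ := RR_le
  refine ⟨Real.sqrt (C1 + RRR) + Real.sqrt C2, ?_⟩
  intro d ι _ _ I hd k X Ea Eb h
  classical
  obtain ⟨S, κa, κb, hG, hPa, hPb⟩ := h.ends
  have hdr : (1 : ℝ) ≤ d := by exact_mod_cast hd
  -- the fine part
  have hfine : ‖Ea - GV I k κa‖ ^ 2 ≤ (C1 + RRR) * d := by
    set x : Vec d := Ea - GV I k κa with hx
    have hl := hPa (∑ j, |I.t j|)
    have hle : ∀ j, I.t j ≤ ∑ j, |I.t j| := fun j =>
      (le_abs_self _).trans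
        (Finset.single_le_sum (f := fun j => |I.t j|) (fun _ _ => abs_nonneg _) (Finset.mem_univ j))
    have hfil : (alive I.t k).filter (fun j => I.t j ≤ ∑ j, |I.t j|) = alive I.t k :=
      Finset.filter_true_of_mem (fun j _ => hle j)
    rw [hfil] at hl
    have hmm : (mm I.t (alive I.t k) (∑ j, |I.t j|) : ℝ) ≤ d := by
      unfold mm
      have : ((alive I.t k).filter (fun j => I.t j ≤ ∑ j, |I.t j|)).card ≤ d := by
        simpa using Finset.card_le_univ ((alive I.t k).filter (fun j => I.t j ≤ ∑ j, |I.t j|))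
      exact_mod_cast this
    have hcover : ‖x‖ ^ 2 ≤ ∑ g ∈ grps k, om I.t k g * ∑ j ∈ GS I.t k g, x j ^ 2
        + 32 * ∑ j ∈ alive I.t k, x j ^ 2 := by
      rw [s9_norm_sq_eq]
      have h1 : ∑ j, x j ^ 2 = ∑ j ∈ (alive I.t k)ᶜ, x j ^ 2 + ∑ j ∈ alive I.t k, x j ^ 2 := by
        rw [add_comm, Finset.sum_add_sum_compl]
      have h2 : ∑ j ∈ (alive I.t k)ᶜ, x j ^ 2 ≤ ∑ g ∈ grps k, ∑ j ∈ GS I.t k g, x j ^ 2 := by
        have hsub : (alive I.t k)ᶜ ⊆ (grps k).biUnion (fun g => GS I.t k g) := by
          intro j hj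
          obtain ⟨g, ⟨hg, hjg⟩, -⟩ := grps_GS I.t (k := k) (j := j) (Finset.mem_compl.mp hj)
          exact Finset.mem_biUnion.mpr ⟨g, hg, hjg⟩
        calc ∑ j ∈ (alive I.t k)ᶜ, x j ^ 2
            ≤ ∑ j ∈ (grps k).biUnion (fun g => GS I.t k g), x j ^ 2 :=
              Finset.sum_le_sum_of_subset_of_nonneg hsub (fun _ _ _ => sq_nonneg _)
          _ ≤ ∑ g ∈ grps k, ∑ j ∈ GS I.t k g, x j ^ 2 :=
              le_of_eq (Finset.sum_biUnion (fun g hg g' hg' hne => GS_disjoint I.t hne hg hg'))
      have h3 : ∑ g ∈ grps k, ∑ j ∈ GS I.t k g, x j ^ 2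
          ≤ ∑ g ∈ grps k, om I.t k g * ∑ j ∈ GS I.t k g, x j ^ 2 := by
        apply Finset.sum_le_sum
        intro g _
        have h4 : 0 ≤ ∑ j ∈ GS I.t k g, x j ^ 2 := Finset.sum_nonneg (fun _ _ => sq_nonneg _)
        have h5 := s9_om_ge_one I.t k g
        nlinarith
      have h6 : 0 ≤ ∑ j ∈ alive I.t k, x j ^ 2 := Finset.sum_nonneg (fun _ _ => sq_nonneg _)
      rw [h1]
      linarith
    have hRRR : (0 : ℝ) ≤ RRR := by unfold RRR Gc; norm_num
    calc ‖x‖ ^ 2 ≤ bb I.t k + RRR * mm I.t (alive I.t k) (∑ j, |I.t j|) := hcover.trans hl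
      _ ≤ C1 * d + RRR * d := by
          have := hC1 d I.t hd k
          nlinarith
      _ = (C1 + RRR) * d := by ring
  -- the granular part
  have hgran : ‖GV I k κa‖ ^ 2 ≤ C2 * d := by
    have hcomp : ∀ g ∈ grps k, ‖∑ i, κa g i • proj (GS I.t k g) (I.v i)‖ ≤ RR I.t k g := by
      intro g hg
      calc ‖∑ i, κa g i • proj (GS I.t k g) (I.v i)‖
          ≤ ∑ i, ‖κa g i • proj (GS I.t k g) (I.v i)‖ := norm_sum_le _ _
        _ ≤ ∑ i, (if i ∈ S g then ‖proj (GS I.t k g) (I.v i)‖ else 0) := by
            apply Finset.sum_le_sum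
            intro i _
            split_ifs with hi
            · rw [norm_smul, Real.norm_eq_abs]
              have := hG.bda g i
              have h2 := norm_nonneg (proj (GS I.t k g) (I.v i))
              nlinarith
            · rw [hG.offa g i hi]; simp
        _ = ∑ i ∈ S g, ‖proj (GS I.t k g) (I.v i)‖ := by
            rw [← Finset.sum_filter]; simp
        _ ≤ RR I.t k g := hG.l1 g hg
    have hcoord : ∀ g ∈ grps k, ∀ j ∈ GS I.t k g, GV I k κa j
        = (∑ i, κa g i • proj (GS I.t k g) (I.v i)) j := by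
      intro g hg j hj
      unfold GV
      rw [WithLp.ofLp_sum, Finset.sum_apply]
      rw [Finset.sum_eq_single_of_mem g hg]
      intro g' hg' hne
      have hjn : j ∉ GS I.t k g' := fun hj' =>
        (Finset.disjoint_left.mp (GS_disjoint I.t hne hg' hg)) hj' hj
      simp [s9_proj_apply, hjn]
    have hnorm : ‖GV I k κa‖ ^ 2 ≤ ∑ g ∈ (grps k).filter (fun g => LB I.t g.1),
        ‖∑ i, κa g i • proj (GS I.t k g) (I.v i)‖ ^ 2 := by
      have hterm : ∀ g ∈ grps k, ∑ j ∈ GS I.t k g, GV I k κa j ^ 2
          ≤ ‖∑ i, κa g i • proj (GS I.t k g) (I.v i)‖ ^ 2 := by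
        intro g hg
        rw [s9_norm_sq_eq]
        calc ∑ j ∈ GS I.t k g, GV I k κa j ^ 2
            = ∑ j ∈ GS I.t k g, ((∑ i, κa g i • proj (GS I.t k g) (I.v i)) j) ^ 2 := by
              apply Finset.sum_congr rfl
              intro j hj
              rw [hcoord g hg j hj]
          _ ≤ _ := Finset.sum_le_sum_of_subset_of_nonneg (Finset.subset_univ _)
              (fun _ _ _ => sq_nonneg _)
      have h1 : ‖GV I k κa‖ ^ 2 ≤ ∑ g ∈ grps k, ∑ j ∈ GS I.t k g, GV I k κa j ^ 2 := by
        rw [s9_norm_sq_eq]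
        have h0 : ∑ j, GV I k κa j ^ 2 = ∑ j ∈ (alive I.t k)ᶜ, GV I k κa j ^ 2 := by
          symm
          apply Finset.sum_subset (Finset.subset_univ _)
          intro j _ hj
          have : j ∈ alive I.t k := by simpa using hj
          rw [GV_alive I k κa j this]; simp
        rw [h0]
        have hsub : (alive I.t k)ᶜ ⊆ (grps k).biUnion (fun g => GS I.t k g) := by
          intro j hj
          obtain ⟨g, ⟨hg, hjg⟩, -⟩ := grps_GS I.t (k := k) (j := j) (Finset.mem_compl.mp hj)
          exact Finset.mem_biUnion.mpr ⟨g, hg, hjg⟩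
        calc ∑ j ∈ (alive I.t k)ᶜ, GV I k κa j ^ 2
            ≤ ∑ j ∈ (grps k).biUnion (fun g => GS I.t k g), GV I k κa j ^ 2 :=
              Finset.sum_le_sum_of_subset_of_nonneg hsub (fun _ _ _ => sq_nonneg _)
          _ ≤ ∑ g ∈ grps k, ∑ j ∈ GS I.t k g, GV I k κa j ^ 2 :=
              le_of_eq (Finset.sum_biUnion (fun g hg g' hg' hne => GS_disjoint I.t hne hg hg'))
      have h2 : ∑ g ∈ grps k, ∑ j ∈ GS I.t k g, GV I k κa j ^ 2
          = ∑ g ∈ (grps k).filter (fun g => LB I.t g.1), ∑ j ∈ GS I.t k g, GV I k κa j ^ 2 := by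
        symm
        apply Finset.sum_subset (Finset.filter_subset _ _)
        intro g hg hgn
        have hnl : ¬ LB I.t g.1 := fun hl => hgn (Finset.mem_filter.mpr ⟨hg, hl⟩)
        have hem : GS I.t k g = ∅ := by
          unfold GS
          split_ifs with h1 h2 h3 h4 h5
          · exact PP_short I.t hnl false
          · rfl
          · exact PP_short I.t hnl true
          · rfl
          · -- merged group: absorption only in long stages
            unfold Mg
            rw [Finset.filter_eq_empty_iff.mpr]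
            · simp
            intro b _ hb
            have hw := (absb_ww I.t hb).1
            apply hnl
            right
            right
            omega
          · rfl
        rw [hem]; simp
      rw [h2] at h1
      refine h1.trans ?_
      apply Finset.sum_le_sum
      intro g hg
      exact hterm g (Finset.mem_filter.mp hg).1
    refine hnorm.trans ?_
    refine le_trans ?_ (hC2 d I.t hd k)
    apply Finset.sum_le_sum
    intro g hg
    have := hcomp g (Finset.mem_filter.mp hg).1
    have h0 := norm_nonneg (∑ i, κa g i • proj (GS I.t k g) (I.v i))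
    exact pow_le_pow_left₀ h0 this 2
  have hA : ‖Ea - GV I k κa‖ ≤ Real.sqrt (C1 + RRR) * Real.sqrt d := by
    by_cases hC : 0 ≤ C1 + RRR
    · rw [← Real.sqrt_mul hC]
      exact Real.le_sqrt_of_sq_le hfine
    · push Not at hC
      have : ‖Ea - GV I k κa‖ ^ 2 < 0 := lt_of_le_of_lt hfine (by nlinarith)
      nlinarith [sq_nonneg ‖Ea - GV I k κa‖]
  have hB : ‖GV I k κa‖ ≤ Real.sqrt C2 * Real.sqrt d := by
    by_cases hC : 0 ≤ C2
    · rw [← Real.sqrt_mul hC]
      exact Real.le_sqrt_of_sq_le hgran
    · push Not at hC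
      have : ‖GV I k κa‖ ^ 2 < 0 := lt_of_le_of_lt hgran (by nlinarith)
      nlinarith [sq_nonneg ‖GV I k κa‖]
  calc ‖Ea‖ = ‖(Ea - GV I k κa) + GV I k κa‖ := by rw [sub_add_cancel]
    _ ≤ ‖Ea - GV I k κa‖ + ‖GV I k κa‖ := norm_add_le _ _
    _ ≤ (Real.sqrt (C1 + RRR) + Real.sqrt C2) * Real.sqrt d := by
        rw [add_mul]; exact add_le_add hA hB

end

theorem prefix_append_cases {α : Type} {p l l' : List α} (h : p <+: l ++ l') :
    p <+: l ∨ ∃ q, q <+: l' ∧ p = l ++ q := by
  rw [List.prefix_iff_eq_take] at h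
  rw [List.take_append] at h
  by_cases hn : p.length ≤ l.length
  · left
    have h0 : p.length - l.length = 0 := by omega
    rw [h0, List.take_zero, List.append_nil] at h
    rw [h]
    exact List.take_prefix _ _
  · right
    refine ⟨l'.take (p.length - l.length), List.take_prefix _ _, ?_⟩
    have h1 : l.take p.length = l := List.take_of_length_le (by omega)
    rw [h1] at h
    exact h

/-- **F1c.** ordering of a normalised instance -/
theorem inst_ordering : ∃ C : ℝ, ∀ (d : ℕ) (ι : Type) [Fintype ι] [DecidableEq ι] (I : Inst d ι),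
    1 ≤ d → ∑ i, I.v i = 0 → ∃ l : List ι, l.Nodup ∧ (∀ i, i ∈ l) ∧
      ∀ p : List ι, p <+: l → ‖(p.map I.v).sum‖ ≤ C * Real.sqrt d := by
  obtain ⟨C1, hC1⟩ := ends_bound
  obtain ⟨C2, hC2⟩ := sz_eventually
  refine ⟨C1 + |C2|, ?_⟩
  intro d ι _ _ I hd hsum
  obtain ⟨K, hK⟩ := hC2 d I.t hd (Fintype.card ι)
  have hsq : (1 : ℝ) ≤ Real.sqrt d := by
    rw [Real.one_le_sqrt]; exact_mod_cast hd
  set B : ℝ := C1 * Real.sqrt d + |C2| with hB
  have main : ∀ n k : ℕ, k + n = K → ∀ (X : Finset ι) (Ea Eb : Vec d), CellState I k X Ea Eb →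
      ∃ l : List ι, l.Nodup ∧ (∀ i, i ∈ l ↔ i ∈ X) ∧
        ∀ p : List ι, p <+: l → ‖Ea + (p.map I.v).sum‖ ≤ B := by
    intro n
    induction n with
    | zero =>
      intro k hk X Ea Eb h
      have hk' : k = K := by omega
      subst hk'
      refine ⟨X.toList, X.nodup_toList, fun i => Finset.mem_toList, ?_⟩
      intro p hp
      have h1 : ‖Ea‖ ≤ C1 * Real.sqrt d := hC1 d ι I hd k X Ea Eb h
      have h2 : ‖(p.map I.v).sum‖ ≤ (p.length : ℝ) := by
        have : ∀ q : List ι, ‖(q.map I.v).sum‖ ≤ (q.length : ℝ) := by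
          intro q
          induction q with
          | nil => simp
          | cons a q ih =>
            simp only [List.map_cons, List.sum_cons, List.length_cons]
            push_cast
            have := norm_add_le (I.v a) (q.map I.v).sum
            have := I.hv a
            linarith
        exact this p
      have h3 : (p.length : ℝ) ≤ X.card := by
        have := hp.length_le
        rw [Finset.length_toList] at this
        exact_mod_cast this
      have h4 : (X.card : ℝ) ≤ C2 := h.card.trans hK
      calc ‖Ea + (p.map I.v).sum‖ ≤ ‖Ea‖ + ‖(p.map I.v).sum‖ := norm_add_le _ _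
        _ ≤ B := by
          have := le_abs_self C2
          linarith
    | succ n ih =>
      intro k hk X Ea Eb h
      obtain ⟨c, hc, hstep⟩ := step I k X Ea Eb h
      have hlist : ∀ m ≤ MM I.t k, ∃ l : List ι, l.Nodup ∧
          (∀ i, i ∈ l ↔ i ∈ X.filter (fun i => c i < m)) ∧
          ∀ p : List ι, p <+: l → ‖Ea + (p.map I.v).sum‖ ≤ B := by
        intro m
        induction m with
        | zero =>
          intro _
          refine ⟨[], List.nodup_nil, by simp, ?_⟩
          intro p hp
          have : p = [] := List.prefix_nil.mp hp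
          subst this
          simp only [List.map_nil, List.sum_nil, add_zero]
          have h1 : ‖Ea‖ ≤ C1 * Real.sqrt d := hC1 d ι I hd k X Ea Eb h
          have := abs_nonneg C2
          linarith
        | succ m ihm =>
          intro hm
          obtain ⟨l, hl1, hl2, hl3⟩ := ihm (by omega)
          obtain ⟨l', hl1', hl2', hl3'⟩ := ih (k + 1) (by omega) _ _ _ (hstep m (by omega))
          have hsuml : (l.map I.v).sum = ∑ i ∈ X with c i < m, I.v i := by
            rw [← List.sum_toFinset _ hl1]
            congr 1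
            ext i
            rw [List.mem_toFinset, hl2]
          refine ⟨l ++ l', ?_, ?_, ?_⟩
          · refine List.nodup_append.mpr ⟨hl1, hl1', ?_⟩
            intro a ha b hb hab
            subst hab
            have h1 := (Finset.mem_filter.mp ((hl2 a).mp ha)).2
            have h2 := (Finset.mem_filter.mp ((hl2' a).mp hb)).2
            omega
          · intro i
            rw [List.mem_append, hl2, hl2']
            simp only [Finset.mem_filter]
            constructor
            · rintro (⟨h1, h2⟩ | ⟨h1, h2⟩)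
              · exact ⟨h1, by omega⟩
              · exact ⟨h1, by omega⟩
            · rintro ⟨h1, h2⟩
              rcases Nat.lt_succ_iff_lt_or_eq.mp h2 with h3 | h3
              · exact Or.inl ⟨h1, h3⟩
              · exact Or.inr ⟨h1, h3⟩
          · intro p hp
            rcases prefix_append_cases hp with hp | ⟨q, hq, rfl⟩
            · exact hl3 p hp
            · rw [List.map_append, List.sum_append, hsuml, ← add_assoc]
              exact hl3' q hq
      obtain ⟨l, hl1, hl2, hl3⟩ := hlist (MM I.t k) le_rfl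
      refine ⟨l, hl1, ?_, hl3⟩
      intro i
      rw [hl2, Finset.mem_filter]
      exact ⟨fun h => h.1, fun h => ⟨h, hc i h⟩⟩
  obtain ⟨l, hl1, hl2, hl3⟩ := main K 0 (by omega) univ 0 0 (root_state I hsum)
  refine ⟨l, hl1, fun i => (hl2 i).mpr (Finset.mem_univ i), ?_⟩
  intro p hp
  have := hl3 p hp
  rw [zero_add] at this
  refine this.trans ?_
  rw [hB, add_mul]
  have := abs_nonneg C2
  nlinarith

end Vale.Agent.P262B
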