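import Vale.Agent.P262B.F1

open scoped BigOperators RealInnerProductSpace
open Finset

namespace Vale.Agent.P262B

/-- the Gram operator `x ↦ ∑ ⟪v i, x⟫ v i` -/
noncomputable def gramOp {d : ℕ} {ι : Type} [Fintype ι] (v : ι → Vec d) : Vec d →ₗ[ℝ] Vec d where
  toFun x := ∑ i, ⟪v i, x⟫ • v i
  map_add' x y := by
    simp only [inner_add_right, add_smul, Finset.sum_add_distrib]
  map_smul' r x := by
    simp only [inner_smul_right, RingHom.id_apply, Finset.smul_sum, smul_smul]

theorem gramOp_inner {d : ℕ} {ι : Type} [Fintype ι] (v : ι → Vec d) (x y : Vec d) :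
    ⟪x, gramOp v y⟫ = ∑ i, ⟪x, v i⟫ * ⟪y, v i⟫ := by
  simp only [gramOp, LinearMap.coe_mk, AddHom.coe_mk, inner_sum, inner_smul_right]
  apply Finset.sum_congr rfl
  intro i _
  rw [real_inner_comm y (v i), mul_comm]

theorem gramOp_symm {d : ℕ} {ι : Type} [Fintype ι] (v : ι → Vec d) :
    (gramOp v).IsSymmetric := by
  intro x y
  rw [real_inner_comm, gramOp_inner, gramOp_inner]
  apply Finset.sum_congr rfl
  intro i _
  ring

/-- **F2a.** every finite family of vectors of the unit ball can be rotated into a normalised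
instance. -/
theorem exists_inst (d : ℕ) (ι : Type) [Fintype ι] (v : ι → Vec d)
    (hv : ∀ i, ‖v i‖ ≤ 1) :
    ∃ (I : Inst d ι) (U : Vec d ≃ₗᵢ[ℝ] Vec d), ∀ i, I.v i = U (v i) := by
  classical
  have hn : Module.finrank ℝ (Vec d) = d := by simp
  set b : OrthonormalBasis (Fin d) ℝ (Vec d) := (gramOp_symm v).eigenvectorBasis hn with hb
  set α : Fin d → ℝ := (gramOp_symm v).eigenvalues hn with hα
  have hα' : ∀ j, gramOp v (b j) = α j • b j := by
    intro j
    exact (gramOp_symm v).apply_eigenvectorBasis hn j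
  have hU : ∀ i j, (b.repr (v i)) j = ⟪b j, v i⟫ := fun i j => b.repr_apply_apply _ _
  have hcov : ∀ j j', ∑ i, (b.repr (v i)) j * (b.repr (v i)) j' = if j = j' then α j else 0 := by
    intro j j'
    have h1 := gramOp_inner v (b j) (b j')
    rw [hα', inner_smul_right, orthonormal_iff_ite.mp b.orthonormal] at h1
    simp only [hU]
    rw [← h1]
    split_ifs with h
    · subst h; simp
    · simp
  refine ⟨⟨fun i => b.repr (v i), ?_, fun j => if 1 < α j then Real.logb 2 (α j) else 0, ?_, ?_, ?_⟩,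
    b.repr, fun i => rfl⟩
  · intro i
    rw [LinearIsometryEquiv.norm_map]; exact hv i
  · intro j
    split_ifs with h
    · exact Real.logb_nonneg (by norm_num) h.le
    · exact le_rfl
  · intro j j' hj hj'
    dsimp only at hj hj' ⊢
    rw [hcov]
    split_ifs with h1 h2
    · rw [Real.rpow_logb (by norm_num) (by norm_num) (by linarith)]
    · rw [if_neg h2] at hj; exact absurd hj (lt_irrefl 0)
    · rfl
  · intro j hj
    dsimp only at hj ⊢
    have h1 := hcov j j
    simp only [if_true] at h1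
    have h2 : ∑ i, ((b.repr (v i)) j) ^ 2 = α j := by
      rw [← h1]; apply Finset.sum_congr rfl; intro i _; ring
    rw [h2]
    by_contra hcon
    push Not at hcon
    rw [if_pos hcon] at hj
    have := Real.logb_pos (b := 2) (by norm_num) hcon
    linarith

/-- **F2b.** -/
theorem steinitz_list : ∃ C : ℝ, ∀ (d : ℕ) (ι : Type) [Fintype ι] [DecidableEq ι] (v : ι → Vec d),
    1 ≤ d → (∀ i, ‖v i‖ ≤ 1) → ∑ i, v i = 0 → ∃ l : List ι, l.Nodup ∧ (∀ i, i ∈ l) ∧
      ∀ p : List ι, p <+: l → ‖(p.map v).sum‖ ≤ C * Real.sqrt d := by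
  obtain ⟨C, hC⟩ := inst_ordering
  refine ⟨C, ?_⟩
  intro d ι _ _ v hd hv hsum
  obtain ⟨I, U, hU⟩ := exists_inst d ι v hv
  have hs : ∑ i, I.v i = 0 := by
    simp only [hU]
    rw [← map_sum, hsum, map_zero]
  obtain ⟨l, hl1, hl2, hl3⟩ := hC d ι I hd hs
  refine ⟨l, hl1, hl2, ?_⟩
  intro p hp
  have h1 := hl3 p hp
  have h2 : (p.map I.v).sum = U (p.map v).sum := by
    rw [map_list_sum, List.map_map]
    congr 1
    apply List.map_congr_left
    intro i _
    exact hU i
  rw [h2, LinearIsometryEquiv.norm_map] at h1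
  exact h1

end Vale.Agent.P262B
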