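import Mathlib
import Vale.Agent.P262.SteinitzDefs
import Vale.Agent.P262.Upper
import Vale.Agent.P262.Lower
import Vale.Agent.P262B.F2

open scoped BigOperators

namespace Vale.Agent.P262B

open Vale.Agent.P262

/-- from a list ordering to a permutation -/
theorem prefixMax_of_list {d N : ℕ} (v : Fin N → EuclideanSpace ℝ (Fin d)) (B : ℝ)
    (L : List (Fin N)) (hL1 : L.Nodup) (hL2 : ∀ i, i ∈ L)
    (hL3 : ∀ m : ℕ, ‖((L.take m).map v).sum‖ ≤ B) :
    ∃ π : Equiv.Perm (Fin N), prefixMax v π ≤ B := by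
  classical
  have hlen : L.length = N := by
    have h1 : L.toFinset = Finset.univ := by
      ext i
      simp [hL2 i]
    have h2 := List.toFinset_card_of_nodup hL1
    rw [h1] at h2
    simpa using h2.symm
  let e : Fin L.length ≃ Fin N := hL1.getEquivOfForallMemList L hL2
  let π : Equiv.Perm (Fin N) := (finCongr hlen.symm).trans e
  refine ⟨π, ?_⟩
  apply ciSup_le
  intro k
  have hk : (k : ℕ) ≤ L.length := by rw [hlen]; exact Nat.lt_succ_iff.mp k.2
  have key : ∑ i ∈ Finset.univ.filter (fun i : Fin N => (i : ℕ) < (k : ℕ)), v (π i)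
      = ((L.take k).map v).sum := by
    have h1 : ((L.take k).map v).sum = ∑ i : Fin (L.take k).length, v ((L.take k).get i) := by
      rw [← List.sum_ofFn]
      congr 1
      apply List.ext_get
      · simp
      · intro n h1 h2
        simp
    rw [h1]
    symm
    have hlt : (L.take k).length = k := by simp [hk]
    apply Finset.sum_bij (fun (i : Fin (L.take k).length) _ =>
      (⟨i, lt_of_lt_of_le (lt_of_lt_of_eq i.2 hlt) (le_of_le_of_eq hk hlen)⟩ : Fin N))
    · intro i _
      simp only [Finset.mem_filter, Finset.mem_univ, true_and]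
      exact lt_of_lt_of_eq i.2 hlt
    · intro i _ j _ h
      simp only [Fin.mk.injEq] at h
      exact Fin.ext h
    · intro i hi
      simp only [Finset.mem_filter, Finset.mem_univ, true_and] at hi
      exact ⟨⟨i, by rw [hlt]; exact hi⟩, Finset.mem_univ _, rfl⟩
    · intro i _
      simp [π, e]
  rw [key]
  exact hL3 k

/-- upper bound for the Steinitz constant -/
theorem S2_le_sqrt : ∃ C : ℝ, 0 < C ∧ ∀ d : ℕ, 1 ≤ d → S2 d ≤ C * Real.sqrt d := by
  obtain ⟨C, hC⟩ := steinitz_list
  refine ⟨|C| + 1, by positivity, ?_⟩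
  intro d hd
  have hsq : 0 ≤ Real.sqrt d := Real.sqrt_nonneg _
  unfold S2
  apply csSup_le
  · exact ⟨beta (fun i : Fin 0 => (0 : EuclideanSpace ℝ (Fin d))), 0,
      fun i => (0 : EuclideanSpace ℝ (Fin d)), by simp, by simp, rfl⟩
  · rintro x ⟨N, v, hv, hs, rfl⟩
    obtain ⟨L, hL1, hL2, hL3⟩ := hC d (Fin N) v hd hv hs
    obtain ⟨π, hπ⟩ := prefixMax_of_list v ((|C| + 1) * Real.sqrt d) L hL1 hL2 (fun m => by
      have := hL3 (L.take m) (List.take_prefix m L)
      refine this.trans ?_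
      have := le_abs_self C
      nlinarith)
    exact (ciInf_le (Set.finite_range _).bddBelow π).trans hπ

/-- main theorem -/
theorem main : ∃ C : ℝ, 0 < C ∧ ∀ d : ℕ, 1 ≤ d →
    BddAbove (betaSet d) ∧ 1 / 2 * Real.sqrt d ≤ S2 d ∧ S2 d ≤ C * Real.sqrt d := by
  obtain ⟨C, hC0, hC⟩ := S2_le_sqrt
  exact ⟨C, hC0, fun d hd => ⟨betaSet_bdd d hd, S2_ge d hd (betaSet_bdd d hd), hC d hd⟩⟩

end Vale.Agent.P262B
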