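import Vale.Agent.P262B.C00

open scoped BigOperators
open Finset

namespace Vale.Agent.P262B

variable {d : ℕ} (t : Fin d → ℝ)

/-! **N1. Facts about the spectrum.**  `T' = Lev t (k+1)`. -/

open Classical in
theorem Lev_spec (k : ℕ) : Lev t k < Lev t (k + 1) ∧ good t (Lev t (k + 1)) := by
  have h : Lev t (k + 1) = Nat.find (exists_good t (Lev t k)) := rfl
  rw [h]
  exact Nat.find_spec (exists_good t (Lev t k))

theorem Lev_lt (k : ℕ) : Lev t k < Lev t (k + 1) := (Lev_spec t k).1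

theorem Lev_succ (k : ℕ) : Lev t (k + 1) = Lev t k + ww t k := by
  have := Lev_lt t k
  unfold ww
  omega

theorem Lev_mono {a b : ℕ} (h : a ≤ b) : Lev t a + (b - a) ≤ Lev t b := by
  induction b, h using Nat.le_induction with
  | base => simp
  | succ n hn ih =>
    have := Lev_lt t n
    omega

theorem good_Lev (k : ℕ) : good t (Lev t (k + 1)) := (Lev_spec t k).2

open Classical in
theorem not_good_between {k T : ℕ} (h1 : Lev t k < T) (h2 : T < Lev t (k + 1)) : ¬ good t T := by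
  have h : Lev t (k + 1) = Nat.find (exists_good t (Lev t k)) := rfl
  rw [h] at h2
  intro hg
  exact Nat.find_min (exists_good t (Lev t k)) h2 ⟨h1, hg⟩

theorem ww_pos (k : ℕ) : 1 ≤ ww t k := by
  have := Lev_lt t k
  unfold ww
  omega

theorem wb_cases (k : ℕ) : wb t k = ww t k ∨ (wb t k = 0 ∧ ww t k = 1) := by
  unfold wb
  split_ifs with h
  · left; rfl
  · right
    refine ⟨rfl, ?_⟩
    have h1 := ww_pos t k
    unfold long at h
    push Not at h
    omega

theorem wb_le (k : ℕ) : wb t k ≤ ww t k := by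
  rcases wb_cases t k with h | ⟨h, _⟩ <;> omega

theorem ww_le (k : ℕ) : (ww t k : ℝ) ≤ 1 + wb t k := by
  have : ww t k ≤ 1 + wb t k := by
    rcases wb_cases t k with h | ⟨h, h'⟩ <;> omega
  exact_mod_cast this

theorem zz_succ (k : ℕ) : zz t (k + 1) = max (zz t k) (Lev t (k + 1) + rho t k) := rfl

theorem zz_mono {a b : ℕ} (h : a ≤ b) : zz t a ≤ zz t b := by
  induction b, h using Nat.le_induction with
  | base => exact le_rfl
  | succ n hn ih =>
    refine ih.trans ?_
    rw [zz_succ]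
    exact le_max_left _ _

theorem Lev_le_zz (k : ℕ) : Lev t k ≤ zz t k := by
  cases k with
  | zero => simp [Lev, zz]
  | succ n =>
    rw [zz_succ]
    exact le_trans (Nat.le_add_right _ _) (le_max_right _ _)

theorem Lev_rho_le_zz (k : ℕ) : Lev t (k + 1) + rho t k ≤ zz t (k + 1) := by
  rw [zz_succ]; exact le_max_right _ _

theorem mem_alive {k : ℕ} {j : Fin d} : j ∈ alive t k ↔ (zz t k : ℝ) < t j := by
  simp [alive]

theorem mem_PP_zero {j : Fin d} : j ∈ PP t 0 false ↔ t j ≤ 0 := by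
  simp [PP]

theorem mem_PP_false {k : ℕ} {j : Fin d} :
    j ∈ PP t (k + 1) false ↔ (zz t k : ℝ) < t j ∧ t j ≤ (Lev t (k + 1) : ℝ) := by
  simp [PP]

theorem mem_PP_true {k : ℕ} {j : Fin d} :
    j ∈ PP t (k + 1) true ↔ (zz t k : ℝ) < t j ∧ (Lev t (k + 1) : ℝ) < t j ∧
      t j ≤ (zz t (k + 1) : ℝ) := by
  simp [PP]

theorem alive_succ_subset (k : ℕ) : alive t (k + 1) ⊆ alive t k := by
  intro j hj
  rw [mem_alive] at hj ⊢
  have : (zz t k : ℝ) ≤ zz t (k + 1) := by exact_mod_cast zz_mono t (Nat.le_succ k)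
  linarith

/-- the coordinates passed during stage `k` -/
theorem alive_sdiff (k : ℕ) :
    alive t k \ alive t (k + 1) = PP t (k + 1) false ∪ PP t (k + 1) true := by
  have h1 : (Lev t (k + 1) : ℝ) ≤ zz t (k + 1) := by exact_mod_cast Lev_le_zz t (k + 1)
  ext j
  rw [mem_sdiff, mem_union, mem_alive, mem_alive, mem_PP_false, mem_PP_true]
  constructor
  · rintro ⟨h2, h3⟩
    push Not at h3
    by_cases h4 : t j ≤ (Lev t (k + 1) : ℝ)
    · exact Or.inl ⟨h2, h4⟩
    · exact Or.inr ⟨h2, not_le.mp h4, h3⟩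
  · rintro (⟨h2, h3⟩ | ⟨h2, _, h3⟩)
    · exact ⟨h2, not_lt.mpr (h3.trans h1)⟩
    · exact ⟨h2, not_lt.mpr h3⟩

theorem PP_disjoint_FT (b : ℕ) : Disjoint (PP t b false) (PP t b true) := by
  cases b with
  | zero => simp [PP]
  | succ k =>
    rw [Finset.disjoint_left]
    intro j h1 h2
    rw [mem_PP_false] at h1
    rw [mem_PP_true] at h2
    linarith [h1.2, h2.2.1]

/-- position of the coordinates of `PP` -/
theorem PP_bound {b : ℕ} {τ : Bool} {j : Fin d} (hj : j ∈ PP t b τ) :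
    t j ≤ (zz t b : ℝ) ∧ (∀ k, k < b → (zz t k : ℝ) < t j) := by
  cases b with
  | zero =>
    cases τ with
    | false =>
      rw [mem_PP_zero] at hj
      refine ⟨by simpa [zz] using hj, fun k hk => absurd hk (Nat.not_lt_zero _)⟩
    | true => simp [PP] at hj
  | succ n =>
    have h0 : (zz t n : ℝ) < t j ∧ t j ≤ (zz t (n + 1) : ℝ) := by
      cases τ with
      | false =>
        rw [mem_PP_false] at hj
        have h1 : (Lev t (n + 1) : ℝ) ≤ zz t (n + 1) := by exact_mod_cast Lev_le_zz t (n + 1)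
        exact ⟨hj.1, hj.2.trans h1⟩
      | true =>
        rw [mem_PP_true] at hj
        exact ⟨hj.1, hj.2.2⟩
    refine ⟨h0.2, fun k hk => ?_⟩
    have : (zz t k : ℝ) ≤ zz t n := by exact_mod_cast zz_mono t (Nat.lt_succ_iff.mp hk)
    linarith [h0.1]

theorem PP_disjoint {b b' : ℕ} (h : b ≠ b') (τ τ' : Bool) : Disjoint (PP t b τ) (PP t b' τ') := by
  rw [Finset.disjoint_left]
  intro j h1 h2
  have e1 := PP_bound t h1
  have e2 := PP_bound t h2
  rcases lt_or_gt_of_ne h with h3 | h3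
  · have := e2.2 b h3
    linarith [e1.1]
  · have := e1.2 b' h3
    linarith [e2.1]

theorem PP_disjoint_alive {b k : ℕ} (h : b ≤ k) (τ : Bool) : Disjoint (PP t b τ) (alive t k) := by
  rw [Finset.disjoint_left]
  intro j h1 h2
  rw [mem_alive] at h2
  have e1 := (PP_bound t h1).1
  have : (zz t b : ℝ) ≤ zz t k := by exact_mod_cast zz_mono t h
  linarith

/-- above a good level there is a gap -/
theorem good_gap {T : ℕ} (hT : good t T) {j : Fin d} (hj : (T : ℝ) < t j) :
    186 ≤ t j - (T : ℝ) := by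
  by_contra hcon
  push Not at hcon
  have h1 : (2 : ℝ) ^ (-(t j - T) / 8) ≤ DD t T := by
    unfold DD
    exact Finset.single_le_sum (f := fun j => (2 : ℝ) ^ (-(t j - T) / 8))
      (fun _ _ => by positivity) (by simp [hj])
  have h2 : (2 : ℝ) ^ (-(t j - T) / 8) ≤ 1 / 10 ^ 7 := by
    have := hT
    unfold good cc at this
    linarith
  have h3 : (2 : ℝ) ^ (-(93 / 4) : ℝ) < (2 : ℝ) ^ (-(t j - T) / 8) := by
    apply Real.rpow_lt_rpow_of_exponent_lt (by norm_num)
    linarith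
  have h4 : ((2 : ℝ) ^ (-(93 / 4) : ℝ)) ^ 4 = 1 / 2 ^ 93 := by
    rw [← Real.rpow_natCast, ← Real.rpow_mul (by norm_num)]
    norm_num
  have h5 : (2 : ℝ) ^ (-(93 / 4) : ℝ) < 1 / 10 ^ 7 := lt_of_lt_of_le h3 h2
  have h6 : ((2 : ℝ) ^ (-(93 / 4) : ℝ)) ^ 4 < (1 / 10 ^ 7) ^ 4 :=
    pow_lt_pow_left₀ h5 (by positivity) (by norm_num)
  rw [h4] at h6
  norm_num at h6

/-- short stages create no groups -/
theorem PP_short {b : ℕ} (hb : ¬ LB t b) (τ : Bool) : PP t b τ = ∅ := by
  unfold LB long at hb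
  push Not at hb
  obtain ⟨hb0, hb1, hb2⟩ := hb
  obtain ⟨k, rfl⟩ : ∃ k, b = k + 1 := ⟨b - 1, by omega⟩
  simp only [Nat.add_sub_cancel] at hb1 hb2
  obtain ⟨m, rfl⟩ : ∃ m, k = m + 1 := ⟨k - 1, by omega⟩
  have hw : ww t (m + 1) = 1 := by
    have := ww_pos t (m + 1)
    omega
  have hL : Lev t (m + 1 + 1) = Lev t (m + 1) + 1 := by rw [Lev_succ t (m + 1), hw]
  have hnl : ¬ long t (m + 1) := by
    unfold long
    push Not
    exact ⟨hb1, by omega⟩
  have hrho : rho t (m + 1) = 0 := by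
    unfold rho
    rw [if_neg hnl]
  have hzz : zz t (m + 1 + 1) = max (zz t (m + 1)) (Lev t (m + 1 + 1)) := by
    rw [zz_succ t (m + 1), hrho]
    rfl
  apply Finset.eq_empty_of_forall_notMem
  intro j hj
  have hzj : (zz t (m + 1) : ℝ) < t j := (PP_bound t hj).2 (m + 1) (Nat.lt_succ_self _)
  have hle : t j ≤ (zz t (m + 1 + 1) : ℝ) := (PP_bound t hj).1
  rw [hzz] at hle
  have hle' : t j ≤ (Lev t (m + 1 + 1) : ℝ) := by
    push_cast at hle
    rcases le_max_iff.mp hle with h | h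
    · linarith
    · exact h
  have hLj : (Lev t (m + 1) : ℝ) < t j := by
    have : (Lev t (m + 1) : ℝ) ≤ zz t (m + 1) := by exact_mod_cast Lev_le_zz t (m + 1)
    linarith
  have h1 := good_gap t (good_Lev t m) hLj
  rw [hL] at hle'
  push_cast at hle'
  linarith

theorem NN_short {b : ℕ} (hb : ¬ LB t b) : NN t b = 0 := by
  have h1 := PP_short t hb false
  have h2 := PP_short t hb true
  unfold LB at hb
  push Not at hb
  unfold NN wc wb
  rw [h1, h2, if_neg hb.1, if_neg hb.2]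
  simp

theorem wc_pos {b : ℕ} (hb : LB t b) : 1 ≤ wc t b := by
  unfold wc
  split_ifs with h
  · exact le_rfl
  · rcases hb with hb | hb
    · exact absurd hb h
    · unfold wb
      rw [if_pos hb]
      exact ww_pos t _

theorem NN_ge {b : ℕ} (hb : LB t b) : 4096 ≤ NN t b := by
  have := wc_pos t hb
  unfold NN
  omega

theorem NN_ge_wc (b : ℕ) : 4096 * wc t b ≤ NN t b := by
  unfold NN
  omega

/-- a coordinate alive after stage `k` is far above the level `T'` -/
theorem alive_gap {k : ℕ} {j : Fin d} (hj : j ∈ alive t (k + 1)) :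
    186 ≤ t j - (Lev t (k + 1) : ℝ) := by
  rw [mem_alive] at hj
  apply good_gap t (good_Lev t k)
  have : (Lev t (k + 1) : ℝ) ≤ zz t (k + 1) := by exact_mod_cast Lev_le_zz t (k + 1)
  linarith

theorem alive_gap_rho {b k : ℕ} (hb : 1 ≤ b) (hbk : b ≤ k + 1) {j : Fin d}
    (hj : j ∈ alive t (k + 1)) :
    (Lev t b : ℝ) + rho t (b - 1) < t j := by
  obtain ⟨a, rfl⟩ : ∃ a, b = a + 1 := ⟨b - 1, by omega⟩
  rw [mem_alive] at hj
  simp only [Nat.add_sub_cancel]
  have h1 : Lev t (a + 1) + rho t a ≤ zz t (k + 1) := (Lev_rho_le_zz t a).trans (zz_mono t hbk)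
  have h2 : (Lev t (a + 1) : ℝ) + rho t a ≤ zz t (k + 1) := by exact_mod_cast h1
  linarith

theorem DD_alive (k : ℕ) :
    ∑ j ∈ alive t (k + 1), (2 : ℝ) ^ (-(t j - Lev t (k + 1)) / 8) ≤ cc := by
  refine le_trans ?_ (good_Lev t k)
  unfold DD
  apply Finset.sum_le_sum_of_subset_of_nonneg
  · intro j hj
    rw [mem_alive] at hj
    have : (Lev t (k + 1) : ℝ) ≤ zz t (k + 1) := by exact_mod_cast Lev_le_zz t (k + 1)
    simp only [mem_filter, mem_univ, true_and]
    linarith
  · intro _ _ _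
    positivity

theorem mm_le {k : ℕ} {j : Fin d} (hj : j ∈ alive t (k + 1)) :
    (mm t (alive t (k + 1)) (t j) : ℝ) ≤ cc * (2 : ℝ) ^ ((t j - Lev t (k + 1)) / 8) := by
  set A := (alive t (k + 1)).filter (fun i => t i ≤ t j) with hA
  have h1 : (A.card : ℝ) * (2 : ℝ) ^ (-(t j - Lev t (k + 1)) / 8) ≤ cc := by
    calc (A.card : ℝ) * (2 : ℝ) ^ (-(t j - Lev t (k + 1)) / 8)
        = ∑ i ∈ A, (2 : ℝ) ^ (-(t j - Lev t (k + 1)) / 8) := by
          rw [Finset.sum_const, nsmul_eq_mul]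
      _ ≤ ∑ i ∈ A, (2 : ℝ) ^ (-(t i - Lev t (k + 1)) / 8) := by
          apply Finset.sum_le_sum
          intro i hi
          have : t i ≤ t j := (Finset.mem_filter.mp hi).2
          apply Real.rpow_le_rpow_of_exponent_le (by norm_num)
          linarith
      _ ≤ ∑ i ∈ alive t (k + 1), (2 : ℝ) ^ (-(t i - Lev t (k + 1)) / 8) :=
          Finset.sum_le_sum_of_subset_of_nonneg (Finset.filter_subset _ _)
            (fun _ _ _ => by positivity)
      _ ≤ cc := DD_alive t k
  have h2 : (0 : ℝ) < (2 : ℝ) ^ ((t j - Lev t (k + 1)) / 8) := by positivity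
  have h3 : (2 : ℝ) ^ (-(t j - Lev t (k + 1)) / 8) * (2 : ℝ) ^ ((t j - Lev t (k + 1)) / 8) = 1 := by
    rw [← Real.rpow_add (by norm_num)]
    have : -(t j - Lev t (k + 1)) / 8 + (t j - Lev t (k + 1)) / 8 = (0 : ℝ) := by ring
    rw [this, Real.rpow_zero]
  have h4 : mm t (alive t (k + 1)) (t j) = A.card := rfl
  rw [h4]
  calc (A.card : ℝ) = (A.card : ℝ) * (2 : ℝ) ^ (-(t j - Lev t (k + 1)) / 8)
        * (2 : ℝ) ^ ((t j - Lev t (k + 1)) / 8) := by rw [mul_assoc, h3, mul_one]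
    _ ≤ cc * (2 : ℝ) ^ ((t j - Lev t (k + 1)) / 8) :=
        mul_le_mul_of_nonneg_right h1 h2.le

theorem two_pow_clog_le {w : ℕ} (hw : 1 ≤ w) : (2 : ℝ) ^ (Nat.clog 2 w) ≤ 2 * w := by
  rcases Nat.eq_or_lt_of_le hw with h | h
  · rw [← h]; simp
  · have h1 := Nat.pow_pred_clog_lt_self (b := 2) (by norm_num) h
    have h2 : 0 < Nat.clog 2 w := Nat.clog_pos (by norm_num) h
    have h3 : 2 ^ (Nat.clog 2 w) = 2 * 2 ^ (Nat.clog 2 w).pred := by
      conv_lhs => rw [← Nat.succ_pred_eq_of_pos h2]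
      rw [pow_succ]; ring
    have h4 : 2 ^ (Nat.clog 2 w) ≤ 2 * w := by
      rw [h3]; omega
    exact_mod_cast h4

theorem rpow_rho {k : ℕ} (hk : long t k) : (2 : ℝ) ^ (rho t k : ℝ) ≤ 2 ^ 42 * (ww t k : ℝ) ^ 2 := by
  have h1 : rho t k = 2 * Nat.clog 2 (ww t k) + 40 := by
    unfold rho; rw [if_pos hk]
  rw [Real.rpow_natCast, h1, pow_add, pow_mul']
  have h2 := two_pow_clog_le (ww_pos t k)
  have h3 : ((2 : ℝ) ^ (Nat.clog 2 (ww t k))) ^ 2 ≤ (2 * (ww t k : ℝ)) ^ 2 :=
    pow_le_pow_left₀ (by positivity) h2 2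
  nlinarith

theorem rpow_rho8 {k : ℕ} (hk : long t k) :
    (2 : ℝ) ^ ((rho t k : ℝ) / 8) ≤ 64 * (ww t k : ℝ) ^ (1 / 4 : ℝ) := by
  have h1 : rho t k = 2 * Nat.clog 2 (ww t k) + 40 := by
    unfold rho; rw [if_pos hk]
  have h2 := two_pow_clog_le (ww_pos t k)
  have hw : (1 : ℝ) ≤ ww t k := by exact_mod_cast ww_pos t k
  have h3 : ((rho t k : ℕ) : ℝ) / 8 = ((Nat.clog 2 (ww t k) : ℕ) : ℝ) * (1 / 4) + ((5 : ℕ) : ℝ) := by
    rw [h1]; push_cast; ring
  rw [h3, Real.rpow_add (by norm_num), Real.rpow_mul (by norm_num), Real.rpow_natCast,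
    Real.rpow_natCast]
  have h4 : ((2 : ℝ) ^ (Nat.clog 2 (ww t k))) ^ (1 / 4 : ℝ) ≤ (2 * (ww t k : ℝ)) ^ (1 / 4 : ℝ) :=
    Real.rpow_le_rpow (by positivity) h2 (by norm_num)
  have h5 : (2 * (ww t k : ℝ)) ^ (1 / 4 : ℝ) = (2 : ℝ) ^ (1 / 4 : ℝ) * (ww t k : ℝ) ^ (1 / 4 : ℝ) :=
    Real.mul_rpow (by norm_num) (by linarith)
  have h6 : (2 : ℝ) ^ (1 / 4 : ℝ) ≤ 2 := by
    calc (2 : ℝ) ^ (1 / 4 : ℝ) ≤ (2 : ℝ) ^ (1 : ℝ) :=
          Real.rpow_le_rpow_of_exponent_le (by norm_num) (by norm_num)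
      _ = 2 := Real.rpow_one 2
  have h7 : (0 : ℝ) ≤ (ww t k : ℝ) ^ (1 / 4 : ℝ) := by positivity
  rw [h5] at h4
  nlinarith

/-- main zone estimate -/
theorem card_zone_aux {k : ℕ} (hk : long t k) :
    ((PP t (k + 1) true).card : ℝ) ≤ cc * (2 : ℝ) ^ ((rho t k : ℝ) / 8) := by
  have hle : ∀ j ∈ PP t (k + 1) true, (Lev t (k + 1) : ℝ) < t j ∧
      t j ≤ Lev t (k + 1) + rho t k := by
    intro j hj
    rw [mem_PP_true] at hj
    refine ⟨hj.2.1, ?_⟩
    have h1 := hj.2.2
    rw [zz_succ] at h1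
    push_cast at h1
    rcases le_max_iff.mp h1 with h | h
    · linarith [hj.1]
    · exact h
  have h1 : ((PP t (k + 1) true).card : ℝ) * (2 : ℝ) ^ (-(rho t k : ℝ) / 8) ≤ cc := by
    calc ((PP t (k + 1) true).card : ℝ) * (2 : ℝ) ^ (-(rho t k : ℝ) / 8)
        = ∑ j ∈ PP t (k + 1) true, (2 : ℝ) ^ (-(rho t k : ℝ) / 8) := by
          rw [Finset.sum_const, nsmul_eq_mul]
      _ ≤ ∑ j ∈ PP t (k + 1) true, (2 : ℝ) ^ (-(t j - Lev t (k + 1)) / 8) := by
          apply Finset.sum_le_sum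
          intro j hj
          apply Real.rpow_le_rpow_of_exponent_le (by norm_num)
          linarith [(hle j hj).2]
      _ ≤ DD t (Lev t (k + 1)) := by
          unfold DD
          apply Finset.sum_le_sum_of_subset_of_nonneg
          · intro j hj
            simp only [mem_filter, mem_univ, true_and]
            exact (hle j hj).1
          · intro _ _ _; positivity
      _ ≤ cc := good_Lev t k
  have h3 : (2 : ℝ) ^ (-(rho t k : ℝ) / 8) * (2 : ℝ) ^ ((rho t k : ℝ) / 8) = 1 := by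
    rw [← Real.rpow_add (by norm_num)]
    have : -(rho t k : ℝ) / 8 + (rho t k : ℝ) / 8 = (0 : ℝ) := by ring
    rw [this, Real.rpow_zero]
  calc ((PP t (k + 1) true).card : ℝ) = ((PP t (k + 1) true).card : ℝ)
        * (2 : ℝ) ^ (-(rho t k : ℝ) / 8) * (2 : ℝ) ^ ((rho t k : ℝ) / 8) := by
        rw [mul_assoc, h3, mul_one]
    _ ≤ cc * (2 : ℝ) ^ ((rho t k : ℝ) / 8) :=
        mul_le_mul_of_nonneg_right h1 (by positivity)

theorem wc_succ_long {k : ℕ} (hk : long t k) : wc t (k + 1) = ww t k := by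
  unfold wc wb
  rw [if_neg (Nat.succ_ne_zero k)]
  simp [hk]

theorem LB_succ {k : ℕ} (h : LB t (k + 1)) : long t k := by
  rcases h with h | h
  · exact absurd h (Nat.succ_ne_zero k)
  · simpa using h

/-- zone: number of coordinates -/
theorem card_zone (b : ℕ) : ((PP t b true).card : ℝ) ≤ (wc t b : ℝ) ^ (1 / 4 : ℝ) := by
  by_cases hb : LB t b
  · cases b with
    | zero => simp [PP, wc]
    | succ k =>
      have hk := LB_succ t hb
      rw [wc_succ_long t hk]
      have h1 := card_zone_aux t hk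
      have h2 := rpow_rho8 t hk
      have h7 : (0 : ℝ) ≤ (ww t k : ℝ) ^ (1 / 4 : ℝ) := by positivity
      unfold cc at h1
      nlinarith
  · rw [PP_short t hb]
    simp only [card_empty, Nat.cast_zero]
    positivity

theorem zone_le {b : ℕ} {j : Fin d} (hj : j ∈ PP t b true) :
    (Lev t b : ℝ) < t j ∧ t j ≤ Lev t b + rho t (b - 1) ∧
      (2 : ℝ) ^ ((rho t (b - 1) : ℝ)) ≤ 2 ^ 42 * (wc t b : ℝ) ^ 2 := by
  have hLB : LB t b := by
    by_contra hb
    rw [PP_short t hb] at hj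
    simp at hj
  cases b with
  | zero => simp [PP] at hj
  | succ k =>
    have hk := LB_succ t hLB
    rw [wc_succ_long t hk]
    simp only [Nat.add_sub_cancel]
    rw [mem_PP_true] at hj
    refine ⟨hj.2.1, ?_, rpow_rho t hk⟩
    have h1 := hj.2.2
    rw [zz_succ] at h1
    push_cast at h1
    rcases le_max_iff.mp h1 with h | h
    · linarith [hj.1]
    · exact h

/-- zone: nominal trace at birth -/
theorem trace_zone (b : ℕ) :
    ∑ j ∈ PP t b true, (2 : ℝ) ^ (t j - Lev t b) ≤ 10 ^ 8 * (wc t b : ℝ) ^ (9 / 4 : ℝ) := by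
  by_cases hb : LB t b
  · cases b with
    | zero => simp [PP, wc]
    | succ k =>
      have hk := LB_succ t hb
      have h1 := card_zone_aux t hk
      have h2 := rpow_rho8 t hk
      have h3 := rpow_rho t hk
      have hw : (1 : ℝ) ≤ ww t k := by exact_mod_cast ww_pos t k
      have h7 : (0 : ℝ) ≤ (ww t k : ℝ) ^ (1 / 4 : ℝ) := by positivity
      have h4 : ∑ j ∈ PP t (k + 1) true, (2 : ℝ) ^ (t j - Lev t (k + 1))
          ≤ ((PP t (k + 1) true).card : ℝ) * (2 : ℝ) ^ (rho t k : ℝ) := by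
        rw [← nsmul_eq_mul, ← Finset.sum_const]
        apply Finset.sum_le_sum
        intro j hj
        apply Real.rpow_le_rpow_of_exponent_le (by norm_num)
        have := (zone_le t hj).2.1
        simp only [Nat.add_sub_cancel] at this
        linarith
      rw [wc_succ_long t hk]
      have h5 : (ww t k : ℝ) ^ (9 / 4 : ℝ) = (ww t k : ℝ) ^ (1 / 4 : ℝ) * (ww t k : ℝ) ^ 2 := by
        rw [← Real.rpow_natCast (ww t k : ℝ) 2, ← Real.rpow_add (by linarith)]
        norm_num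
      rw [h5]
      have h8 : ((PP t (k + 1) true).card : ℝ) ≤ cc * (64 * (ww t k : ℝ) ^ (1 / 4 : ℝ)) :=
        h1.trans (mul_le_mul_of_nonneg_left h2 (by unfold cc; norm_num))
      calc ∑ j ∈ PP t (k + 1) true, (2 : ℝ) ^ (t j - Lev t (k + 1))
          ≤ ((PP t (k + 1) true).card : ℝ) * (2 : ℝ) ^ (rho t k : ℝ) := h4
        _ ≤ (cc * (64 * (ww t k : ℝ) ^ (1 / 4 : ℝ))) * (2 ^ 42 * (ww t k : ℝ) ^ 2) := by
            apply mul_le_mul h8 h3 (by positivity)
            unfold cc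
            positivity
        _ = (cc * 64 * 2 ^ 42) * ((ww t k : ℝ) ^ (1 / 4 : ℝ) * (ww t k : ℝ) ^ 2) := by ring
        _ ≤ 10 ^ 8 * ((ww t k : ℝ) ^ (1 / 4 : ℝ) * (ww t k : ℝ) ^ 2) := by
            apply mul_le_mul_of_nonneg_right _ (by positivity)
            unfold cc
            norm_num
  · rw [PP_short t hb]
    simp only [sum_empty]
    positivity

theorem trace_base (b : ℕ) (hb : 1 ≤ b) :
    ∑ j ∈ PP t b false, (2 : ℝ) ^ (t j - Lev t b) ≤ (PP t b false).card := by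
  obtain ⟨k, rfl⟩ : ∃ k, b = k + 1 := ⟨b - 1, by omega⟩
  rw [← nsmul_one ((PP t (k + 1) false).card), ← Finset.sum_const]
  apply Finset.sum_le_sum
  intro j hj
  rw [mem_PP_false] at hj
  calc (2 : ℝ) ^ (t j - Lev t (k + 1)) ≤ (2 : ℝ) ^ (0 : ℝ) := by
        apply Real.rpow_le_rpow_of_exponent_le (by norm_num)
        linarith [hj.2]
    _ = 1 := Real.rpow_zero 2

/-! number of bad levels -/

theorem geom_aux (x : ℝ) (N : ℕ) :
    ((2 : ℝ) ^ (1 / 8 : ℝ) - 1) * ∑ T ∈ (range N).filter (fun T : ℕ => (T : ℝ) < x), (2 : ℝ) ^ (-(x - T) / 8)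
      ≤ (2 : ℝ) ^ ((min (N : ℝ) (x + 1) - x) / 8) := by
  induction N with
  | zero => simp; positivity
  | succ n ih =>
    rw [Finset.range_add_one, Finset.filter_insert]
    split_ifs with h
    · rw [Finset.sum_insert (by simp)]
      have h1 : min (n : ℝ) (x + 1) = n := min_eq_left (by linarith)
      have h2 : min ((n + 1 : ℕ) : ℝ) (x + 1) = n + 1 := by
        push_cast
        exact min_eq_left (by linarith)
      rw [h1] at ih
      rw [h2]
      have h3 : -(x - (n : ℝ)) / 8 = ((n : ℝ) - x) / 8 := by ring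
      have h4 : ((n : ℝ) + 1 - x) / 8 = ((n : ℝ) - x) / 8 + 1 / 8 := by ring
      rw [h3, h4, Real.rpow_add (by norm_num)]
      nlinarith
    · refine ih.trans ?_
      apply Real.rpow_le_rpow_of_exponent_le (by norm_num)
      have : min (n : ℝ) (x + 1) ≤ min ((n + 1 : ℕ) : ℝ) (x + 1) := by
        apply min_le_min_right
        push_cast
        linarith
      linarith

theorem geom_sum_le (x : ℝ) (N : ℕ) :
    ∑ T ∈ (range N).filter (fun T : ℕ => (T : ℝ) < x), (2 : ℝ) ^ (-(x - T) / 8) ≤ 12.1 := by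
  have h1 := geom_aux x N
  have h2 : (2 : ℝ) ^ ((min (N : ℝ) (x + 1) - x) / 8) ≤ (2 : ℝ) ^ (1 / 8 : ℝ) := by
    apply Real.rpow_le_rpow_of_exponent_le (by norm_num)
    have : min (N : ℝ) (x + 1) ≤ x + 1 := min_le_right _ _
    linarith
  set a : ℝ := (2 : ℝ) ^ (1 / 8 : ℝ) with ha
  have h3 : (12.1 / 11.1 : ℝ) ≤ a := by
    by_contra hcon
    push Not at hcon
    have h4 : a ^ 8 = 2 := by
      rw [ha, ← Real.rpow_natCast, ← Real.rpow_mul (by norm_num)]
      norm_num
    have h5 : a ^ 8 < (12.1 / 11.1 : ℝ) ^ 8 := pow_lt_pow_left₀ hcon (by positivity) (by norm_num)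
    rw [h4] at h5
    norm_num at h5
  set S := ∑ T ∈ (range N).filter (fun T : ℕ => (T : ℝ) < x), (2 : ℝ) ^ (-(x - T) / 8) with hS
  have h6 : (a - 1) * S ≤ a := h1.trans h2
  by_contra hcon
  push Not at hcon
  norm_num at h3
  nlinarith

theorem sum_DD_le (N : ℕ) : ∑ T ∈ range N, DD t T ≤ 12.1 * d := by
  have h1 : ∑ T ∈ range N, DD t T
      = ∑ j : Fin d, ∑ T ∈ (range N).filter (fun T : ℕ => (T : ℝ) < t j), (2 : ℝ) ^ (-(t j - T) / 8) := by
    unfold DD
    simp only [Finset.sum_filter]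
    rw [Finset.sum_comm]
  rw [h1]
  calc ∑ j : Fin d, ∑ T ∈ (range N).filter (fun T : ℕ => (T : ℝ) < t j), (2 : ℝ) ^ (-(t j - T) / 8)
      ≤ ∑ _j : Fin d, (12.1 : ℝ) := Finset.sum_le_sum (fun j _ => geom_sum_le (t j) N)
    _ = 12.1 * d := by simp [mul_comm]

open Classical in
theorem card_bad (N : ℕ) : (((range N).filter (fun T => ¬ good t T)).card : ℝ) ≤ 1.21 * 10 ^ 8 * d := by
  have h1 : (((range N).filter (fun T => ¬ good t T)).card : ℝ) * cc ≤ 12.1 * d := by
    calc (((range N).filter (fun T => ¬ good t T)).card : ℝ) * cc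
        = ∑ T ∈ (range N).filter (fun T => ¬ good t T), cc := by
          rw [Finset.sum_const, nsmul_eq_mul]
      _ ≤ ∑ T ∈ (range N).filter (fun T => ¬ good t T), DD t T := by
          apply Finset.sum_le_sum
          intro T hT
          have := (Finset.mem_filter.mp hT).2
          unfold good at this
          exact (not_le.mp this).le
      _ ≤ ∑ T ∈ range N, DD t T :=
          Finset.sum_le_sum_of_subset_of_nonneg (Finset.filter_subset _ _) (fun T _ _ => by
            unfold DD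
            exact Finset.sum_nonneg (fun _ _ => by positivity))
      _ ≤ 12.1 * d := sum_DD_le t N
  unfold cc at h1
  linarith

open Classical in
theorem sum_ww_sub (K : ℕ) :
    ∑ k ∈ range K, (ww t k - 1) ≤ ((range (Lev t K)).filter (fun T => ¬ good t T)).card := by
  induction K with
  | zero => simp
  | succ n ih =>
    rw [Finset.sum_range_succ]
    have h1 : (range (Lev t n)).filter (fun T => ¬ good t T)
        ∪ (Finset.Ioo (Lev t n) (Lev t (n + 1))) ⊆
        (range (Lev t (n + 1))).filter (fun T => ¬ good t T) := by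
      intro T hT
      have hlt := Lev_lt t n
      rcases Finset.mem_union.mp hT with h | h
      · rw [Finset.mem_filter, Finset.mem_range] at h ⊢
        exact ⟨by omega, h.2⟩
      · rw [Finset.mem_Ioo] at h
        rw [Finset.mem_filter, Finset.mem_range]
        exact ⟨h.2, not_good_between t h.1 h.2⟩
    have h2 : Disjoint ((range (Lev t n)).filter (fun T => ¬ good t T))
        (Finset.Ioo (Lev t n) (Lev t (n + 1))) := by
      rw [Finset.disjoint_left]
      intro T h3 h4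
      rw [Finset.mem_filter, Finset.mem_range] at h3
      rw [Finset.mem_Ioo] at h4
      omega
    have h3 := Finset.card_le_card h1
    rw [Finset.card_union_of_disjoint h2, Nat.card_Ioo] at h3
    have h4 : ww t n = Lev t (n + 1) - Lev t n := rfl
    omega

/-- number of bad levels -/
theorem sum_wb (hd : 1 ≤ d) (K : ℕ) : ∑ k ∈ range K, (wb t k : ℝ) ≤ 3 * 10 ^ 8 * d := by
  classical
  have h1 : ∀ k, wb t k ≤ 2 * (ww t k - 1) + (if k = 0 then 1 else 0) := by
    intro k
    have hp := ww_pos t k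
    unfold wb
    split_ifs with h2 h3 h3
    · omega
    · rcases h2 with h2 | h2
      · exact absurd h2 h3
      · omega
    · omega
    · omega
  have h2 : ∑ k ∈ range K, wb t k ≤ 2 * ∑ k ∈ range K, (ww t k - 1) + 1 := by
    calc ∑ k ∈ range K, wb t k ≤ ∑ k ∈ range K, (2 * (ww t k - 1) + (if k = 0 then 1 else 0)) :=
          Finset.sum_le_sum (fun k _ => h1 k)
      _ = 2 * ∑ k ∈ range K, (ww t k - 1) + ∑ k ∈ range K, (if k = 0 then 1 else 0) := by
          rw [Finset.sum_add_distrib, Finset.mul_sum]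
      _ ≤ 2 * ∑ k ∈ range K, (ww t k - 1) + 1 := by
          have : ∑ k ∈ range K, (if k = 0 then 1 else 0) ≤ 1 := by
            rw [Finset.sum_ite_eq' (range K) 0 (fun _ => 1)]
            split_ifs <;> omega
          omega
  have h3 := sum_ww_sub t K
  have h4 := card_bad t (Lev t K)
  have h5 : ((∑ k ∈ range K, wb t k : ℕ) : ℝ)
      ≤ 2 * (((range (Lev t K)).filter (fun T => ¬ good t T)).card : ℝ) + 1 := by
    have : ∑ k ∈ range K, wb t k
        ≤ 2 * ((range (Lev t K)).filter (fun T => ¬ good t T)).card + 1 := by omega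
    exact_mod_cast this
  have hd' : (1 : ℝ) ≤ d := by exact_mod_cast hd
  have h6 : ((∑ k ∈ range K, wb t k : ℕ) : ℝ) = ∑ k ∈ range K, (wb t k : ℝ) := by push_cast; rfl
  rw [← h6]
  linarith

theorem sum_card_PP (K : ℕ) :
    ∑ b ∈ range K, ((PP t b false).card + (PP t b true).card : ℝ) ≤ d := by
  classical
  have h1 : ∀ b, (PP t b false).card + (PP t b true).card = (PP t b false ∪ PP t b true).card :=
    fun b => (Finset.card_union_of_disjoint (PP_disjoint_FT t b)).symm
  have h2 : ∑ b ∈ range K, ((PP t b false).card + (PP t b true).card)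
      = ((range K).biUnion (fun b => PP t b false ∪ PP t b true)).card := by
    rw [Finset.card_biUnion]
    · exact Finset.sum_congr rfl (fun b _ => h1 b)
    · intro b _ b' _ hne
      show Disjoint (PP t b false ∪ PP t b true) (PP t b' false ∪ PP t b' true)
      rw [Finset.disjoint_union_left, Finset.disjoint_union_right, Finset.disjoint_union_right]
      exact ⟨⟨PP_disjoint t hne _ _, PP_disjoint t hne _ _⟩,
        ⟨PP_disjoint t hne _ _, PP_disjoint t hne _ _⟩⟩
  have h3 : ((range K).biUnion (fun b => PP t b false ∪ PP t b true)).card ≤ d := by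
    have := Finset.card_le_univ ((range K).biUnion (fun b => PP t b false ∪ PP t b true))
    simpa using this
  have h4 : ∑ b ∈ range K, ((PP t b false).card + (PP t b true).card) ≤ d := h2.trans_le h3
  exact_mod_cast h4

end Vale.Agent.P262B
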