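import Vale.Agent.P262B.N1

open scoped BigOperators
open Finset

namespace Vale.Agent.P262B

variable {d : ℕ} (t : Fin d → ℝ)

/-! **N2, second half: the groups.** -/

theorem n2_Lev_le {a b : ℕ} (h : a ≤ b) : Lev t a ≤ Lev t b := by
  have := Lev_mono t h
  omega

theorem n2_crit_LB {b k : ℕ} (hb : b ≤ k) (h : crit t b k) : LB t b := by
  by_contra hL
  have h1 := NN_short t hL
  have h2 := n2_Lev_le t hb
  unfold crit sstar at h
  rw [h1] at h
  simp at h
  omega

theorem n2_eight_clog {w : ℕ} (hw : 64 < w) : 8 * Nat.clog 2 w ≤ w := by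
  have h1 : 2 ^ (Nat.clog 2 w - 1) < w := Nat.pow_pred_clog_lt_self (by norm_num) (by omega)
  have h7 : 6 < Nat.clog 2 w := by
    rw [Nat.lt_clog_iff_pow_lt (by norm_num)]
    simpa using hw
  obtain ⟨m, hm⟩ : ∃ m, Nat.clog 2 w = m + 7 := ⟨Nat.clog 2 w - 7, by omega⟩
  rw [hm] at h1 ⊢
  have h2 : ∀ m : ℕ, 8 * (m + 7) ≤ 2 ^ (m + 7 - 1) + 1 := by
    intro m
    induction m with
    | zero => norm_num
    | succ m ih =>
      have e1 : m + 1 + 7 - 1 = (m + 7 - 1) + 1 := by omega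
      rw [e1, pow_succ]
      have : 1 ≤ 2 ^ (m + 7 - 1) := Nat.one_le_two_pow
      have h3 : 8 ≤ 2 ^ (m + 7 - 1) := by
        calc 8 = 2 ^ 3 := by norm_num
          _ ≤ 2 ^ (m + 7 - 1) := Nat.pow_le_pow_right (by norm_num) (by omega)
      omega
  have := h2 m
  omega

theorem absb_ww {b k : ℕ} (h : absb t b k) : 64 < ww t k ∧ wb t k = ww t k := by
  obtain ⟨hb, hc, hN⟩ := h
  have h1 := NN_ge t (n2_crit_LB t hb hc)
  have h2 : 64 < ww t k := by
    by_contra hcon
    push Not at hcon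
    have : (ww t k) ^ 2 ≤ 64 ^ 2 := Nat.pow_le_pow_left hcon 2
    omega
  refine ⟨h2, ?_⟩
  rcases wb_cases t k with h3 | h3
  · exact h3
  · omega

theorem n2_sstar_le {b k : ℕ} (h : absb t b k) : sstar t b ≤ ww t k := by
  have hw := (absb_ww t h).1
  obtain ⟨hb, hc, hN⟩ := h
  have h1 : Nat.clog 2 (NN t b) ≤ Nat.clog 2 ((ww t k) ^ 2) :=
    Nat.clog_mono_right 2 hN.le
  have h2 : Nat.clog 2 ((ww t k) ^ 2) ≤ 2 * Nat.clog 2 (ww t k) := by
    rw [Nat.clog_le_iff_le_pow (by norm_num)]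
    calc (ww t k) ^ 2 ≤ (2 ^ Nat.clog 2 (ww t k)) ^ 2 :=
          Nat.pow_le_pow_left (Nat.le_pow_clog (by norm_num) _) 2
      _ = 2 ^ (2 * Nat.clog 2 (ww t k)) := by rw [← pow_mul, mul_comm]
  have h3 := n2_eight_clog hw
  unfold sstar
  omega

/-- after absorption a group is not critical any more -/
theorem absb_not_crit {b k k' : ℕ} (h : absb t b k) (hk : k < k') : ¬ crit t b k' := by
  have h1 := n2_sstar_le t h
  have h2 := n2_Lev_le t (show k + 1 ≤ k' by omega)
  have h3 := Lev_succ t k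
  have h4 := n2_Lev_le t h.1
  unfold crit
  omega

/-- an absorbed group was present -/
theorem absb_present {b k : ℕ} (h : absb t b k) : present t b k ∧ LB t b := by
  refine ⟨⟨h.1, fun k' hk' hcon => ?_⟩, n2_crit_LB t h.1 h.2.1⟩
  exact absb_not_crit t hcon hk' h.2.1

theorem n2_absb_unique {b k k' : ℕ} (h : absb t b k) (h' : absb t b k') : k = k' := by
  rcases lt_trichotomy k k' with hlt | heq | hgt
  · exact absurd h'.2.1 (absb_not_crit t h hlt)
  · exact heq
  · exact absurd h.2.1 (absb_not_crit t h' hgt)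

theorem n2_present_succ {b k : ℕ} (hb : b ≤ k) :
    present t b (k + 1) ↔ present t b k ∧ ¬ absb t b k := by
  unfold present
  constructor
  · rintro ⟨_, h⟩
    exact ⟨⟨hb, fun k' hk' => h k' (by omega)⟩, h k (by omega)⟩
  · rintro ⟨⟨_, h⟩, h2⟩
    refine ⟨by omega, fun k' hk' => ?_⟩
    rcases Nat.lt_succ_iff_lt_or_eq.mp hk' with h3 | h3
    · exact h k' h3
    · rw [h3]; exact h2

theorem n2_present_self (k : ℕ) : present t k k :=
  ⟨le_rfl, fun k' hk' hcon => by have := hcon.1; omega⟩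

theorem age_succ {k : ℕ} {g : Grp} (hg : g ∈ grps k) : age t (k + 1) g = age t k g + ww t k := by
  unfold grps at hg
  simp only [Finset.mem_product, Finset.mem_range, Finset.mem_univ, and_true] at hg
  have h1 := n2_Lev_le t (show g.1 ≤ k by omega)
  have h2 := n2_Lev_le t (show g.1 - 1 ≤ k by omega)
  have h3 := Lev_succ t k
  unfold age
  split_ifs <;> omega

theorem GS_abs {b k : ℕ} (h : absb t b k) : GS t k (b, 0) = PP t b false ∧
    GS t k (b, 1) = PP t b true := by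
  have hp := (absb_present t h).1
  unfold GS
  simp [hp]

theorem n2_Mg_eq (k : ℕ) : Mg t k = Jabs t k false ∪ Jabs t k true := by
  classical
  ext j
  unfold Mg Jabs
  simp only [Finset.mem_biUnion, Finset.mem_union, Finset.mem_filter]
  constructor
  · rintro ⟨b, hb, h | h⟩
    · exact Or.inl ⟨b, hb, h⟩
    · exact Or.inr ⟨b, hb, h⟩
  · rintro (⟨b, hb, h⟩ | ⟨b, hb, h⟩)
    · exact ⟨b, hb, Or.inl h⟩
    · exact ⟨b, hb, Or.inr h⟩

theorem GS_new (k : ℕ) : GS t (k + 1) (k + 1, 0) = PP t (k + 1) false ∧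
    GS t (k + 1) (k + 1, 1) = PP t (k + 1) true ∧
    GS t (k + 1) (k + 1, 2) = Jabs t k false ∪ Jabs t k true := by
  have hp := n2_present_self t (k + 1)
  refine ⟨?_, ?_, ?_⟩
  · unfold GS; simp [hp]
  · unfold GS; simp [hp]
  · rw [← n2_Mg_eq]
    unfold GS; simp

theorem GS_succ_abs {b k : ℕ} (h : absb t b k) {τ : Fin 3} (hτ : τ ≠ 2) :
    GS t (k + 1) (b, τ) = ∅ := by
  have hp : ¬ present t b (k + 1) := fun hcon => hcon.2 k (by omega) h
  unfold GS
  fin_cases τ
  · simp [hp]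
  · simp [hp]
  · exact absurd rfl hτ

theorem GS_succ_merged {b k : ℕ} (hb : b ≤ k) : GS t (k + 1) (b, 2) = GS t k (b, 2) := by
  unfold GS
  have h1 : b ≤ k + 1 := by omega
  simp [hb, h1]

/-- persisting groups -/
theorem GS_succ_base {b k : ℕ} (hb : b ≤ k) (h : ¬ absb t b k) (τ : Fin 3) :
    GS t (k + 1) (b, τ) = GS t k (b, τ) := by
  have hp : present t b (k + 1) ↔ present t b k := by
    rw [n2_present_succ t hb]
    exact ⟨fun h => h.1, fun h' => ⟨h', h⟩⟩
  unfold GS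
  by_cases h' : present t b k
  · have h'' := hp.mpr h'
    fin_cases τ
    · simp [h', h'']
    · simp [h', h'']
    · have h1 : b ≤ k + 1 := by omega
      simp [hb, h1]
  · have h'' : ¬ present t b (k + 1) := fun x => h' (hp.mp x)
    fin_cases τ
    · simp [h', h'']
    · simp [h', h'']
    · have h1 : b ≤ k + 1 := by omega
      simp [hb, h1]

/-- the origin of an element of a group -/
theorem n2_mem_GS {k : ℕ} {g : Grp} {j : Fin d} (hj : j ∈ GS t k g) :
    ∃ b τ, b ≤ k ∧ j ∈ PP t b τ ∧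
      ((g = (b, 0) ∧ τ = false ∧ present t b k) ∨ (g = (b, 1) ∧ τ = true ∧ present t b k) ∨
        (g.2 = 2 ∧ 1 ≤ g.1 ∧ g.1 ≤ k ∧ absb t b (g.1 - 1))) := by
  classical
  obtain ⟨a, s⟩ := g
  unfold GS at hj
  fin_cases s
  · simp only [Fin.zero_eta, Fin.isValue, if_true] at hj
    split_ifs at hj with hp
    · exact ⟨a, false, hp.1, hj, Or.inl ⟨rfl, rfl, hp⟩⟩
    · simp at hj
  · simp only [Fin.mk_one, Fin.isValue, one_ne_zero, if_false, if_true] at hj
    split_ifs at hj with hp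
    · exact ⟨a, true, hp.1, hj, Or.inr (Or.inl ⟨rfl, rfl, hp⟩)⟩
    · simp at hj
  · have e1 : ¬ ((2 : Fin 3) = 0) := by decide
    have e2 : ¬ ((2 : Fin 3) = 1) := by decide
    simp only [Fin.reduceFinMk, Fin.isValue, e1, e2, if_false] at hj
    split_ifs at hj with hp
    · unfold Mg at hj
      simp only [Finset.mem_biUnion, Finset.mem_filter, Finset.mem_range, Finset.mem_union] at hj
      obtain ⟨b, ⟨hb1, hb2⟩, hj⟩ := hj
      rcases hj with hj | hj
      · exact ⟨b, false, by omega, hj, Or.inr (Or.inr ⟨rfl, hp.1, hp.2, hb2⟩)⟩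
      · exact ⟨b, true, by omega, hj, Or.inr (Or.inr ⟨rfl, hp.1, hp.2, hb2⟩)⟩
    · simp at hj

theorem n2_PP_unique {b b' : ℕ} {τ τ' : Bool} {j : Fin d} (h : j ∈ PP t b τ) (h' : j ∈ PP t b' τ') :
    b = b' ∧ τ = τ' := by
  have hb : b = b' := by
    by_contra hne
    exact (Finset.disjoint_left.mp (PP_disjoint t hne τ τ')) h h'
  subst hb
  refine ⟨rfl, ?_⟩
  have hd := Finset.disjoint_left.mp (PP_disjoint_FT t b)
  cases τ <;> cases τ'
  · rfl
  · exact absurd h' (hd h)
  · exact absurd h (hd h')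
  · rfl

theorem n2_GS_unique {k : ℕ} {g g' : Grp} {j : Fin d} (hj : j ∈ GS t k g) (hj' : j ∈ GS t k g') :
    g = g' := by
  obtain ⟨b, τ, hb, hjb, hc⟩ := n2_mem_GS t hj
  obtain ⟨b', τ', hb', hjb', hc'⟩ := n2_mem_GS t hj'
  obtain ⟨e1, e2⟩ := n2_PP_unique t hjb hjb'
  subst e1
  subst e2
  have key : ∀ {g : Grp}, (1 ≤ g.1 ∧ g.1 ≤ k ∧ absb t b (g.1 - 1)) → ¬ present t b k := by
    intro g ⟨h1, h2, h3⟩ hcon
    exact hcon.2 (g.1 - 1) (by omega) h3
  rcases hc with ⟨h1, h2, h3⟩ | ⟨h1, h2, h3⟩ | ⟨h1, h2⟩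
  · rcases hc' with ⟨h1', h2', h3'⟩ | ⟨h1', h2', h3'⟩ | ⟨h1', h2'⟩
    · rw [h1, h1']
    · rw [h2] at h2'; exact absurd h2' (by decide)
    · exact absurd h3 (key h2')
  · rcases hc' with ⟨h1', h2', h3'⟩ | ⟨h1', h2', h3'⟩ | ⟨h1', h2'⟩
    · rw [h2] at h2'; exact absurd h2' (by decide)
    · rw [h1, h1']
    · exact absurd h3 (key h2')
  · rcases hc' with ⟨h1', h2', h3'⟩ | ⟨h1', h2', h3'⟩ | ⟨h1', h2'⟩
    · exact absurd h3' (key h2)
    · exact absurd h3' (key h2)
    · have := n2_absb_unique t h2.2.2 h2'.2.2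
      have e : g.1 = g'.1 := by omega
      exact Prod.ext e (h1.trans h1'.symm)

theorem GS_disjoint_alive {k : ℕ} {g : Grp} : Disjoint (GS t k g) (alive t k) := by
  rw [Finset.disjoint_left]
  intro j hj hja
  obtain ⟨b, τ, hb, hjb, _⟩ := n2_mem_GS t hj
  exact (Finset.disjoint_left.mp (PP_disjoint_alive t hb τ)) hjb hja

theorem GS_disjoint {k : ℕ} {g g' : Grp} (h : g ≠ g') (hg : g ∈ grps k) (hg' : g' ∈ grps k) :
    Disjoint (GS t k g) (GS t k g') := by
  rw [Finset.disjoint_left]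
  intro j hj hj'
  exact h (n2_GS_unique t hj hj')

theorem n2_exists_PP {k : ℕ} {j : Fin d} (hj : j ∉ alive t k) : ∃ b τ, b ≤ k ∧ j ∈ PP t b τ := by
  induction k with
  | zero =>
    refine ⟨0, false, le_rfl, ?_⟩
    unfold alive at hj
    simp only [zz, Nat.cast_zero, Finset.mem_filter, Finset.mem_univ, true_and, not_lt] at hj
    simp only [PP, Finset.mem_filter, Finset.mem_univ, true_and]
    exact hj
  | succ k ih =>
    by_cases h : j ∈ alive t k
    · have h1 : j ∈ alive t k \ alive t (k + 1) := Finset.mem_sdiff.mpr ⟨h, hj⟩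
      rw [alive_sdiff] at h1
      rcases Finset.mem_union.mp h1 with h2 | h2
      · exact ⟨k + 1, false, le_rfl, h2⟩
      · exact ⟨k + 1, true, le_rfl, h2⟩
    · obtain ⟨b, τ, hb, hjb⟩ := ih h
      exact ⟨b, τ, by omega, hjb⟩

theorem grps_GS {k : ℕ} {j : Fin d} (hj : j ∉ alive t k) :
    ∃! g, g ∈ grps k ∧ j ∈ GS t k g := by
  classical
  obtain ⟨b, τ, hb, hjb⟩ := n2_exists_PP t hj
  have hex : ∃ g, g ∈ grps k ∧ j ∈ GS t k g := by
    by_cases hp : present t b k
    · cases τ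
      · refine ⟨(b, 0), ?_, ?_⟩
        · unfold grps
          simp only [Finset.mem_product, Finset.mem_range, Finset.mem_univ, and_true]
          omega
        · unfold GS; simp [hp, hjb]
      · refine ⟨(b, 1), ?_, ?_⟩
        · unfold grps
          simp only [Finset.mem_product, Finset.mem_range, Finset.mem_univ, and_true]
          omega
        · unfold GS; simp [hp, hjb]
    · unfold present at hp
      push Not at hp
      obtain ⟨k', hk', ha⟩ := hp hb
      refine ⟨(k' + 1, 2), ?_, ?_⟩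
      · unfold grps
        simp only [Finset.mem_product, Finset.mem_range, Finset.mem_univ, and_true]
        omega
      · have e1 : ¬ ((2 : Fin 3) = 0) := by decide
        have e2 : ¬ ((2 : Fin 3) = 1) := by decide
        have e3 : 1 ≤ k' + 1 ∧ k' + 1 ≤ k := ⟨by omega, by omega⟩
        unfold GS
        simp only [e1, e2, if_false, e3, and_self, if_true, Nat.add_sub_cancel]
        unfold Mg
        simp only [Finset.mem_biUnion, Finset.mem_filter, Finset.mem_range, Finset.mem_union]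
        refine ⟨b, ⟨by have := ha.1; omega, ha⟩, ?_⟩
        cases τ
        · exact Or.inl hjb
        · exact Or.inr hjb
  obtain ⟨g, hg, hjg⟩ := hex
  exact ⟨g, ⟨hg, hjg⟩, fun g' hg' => n2_GS_unique t hg'.2 hjg⟩

end Vale.Agent.P262B
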