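import Vale.Agent.P262B.N2T
import Vale.Agent.P262B.N2G

/-! **N2. Numerical facts of one stage**: `N2T` (numbers), `N2G` (groups). -/
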