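import Vale.Agent.P262B.N1

open scoped BigOperators
open Finset

namespace Vale.Agent.P262B

variable {d : ℕ} (t : Fin d → ℝ)

/-! **N2, first half.** -/

theorem YY_nonneg (k : ℕ) : 0 ≤ YY t k := by
  unfold YY
  refine Finset.sum_nonneg fun j _ => ?_
  unfold tauSq
  have : (0:ℝ) ≤ Gc := by unfold Gc; norm_num
  positivity

/-- the width of the zone dominates the length of the stage -/
theorem n2_wb_two_pow_rho (k : ℕ) {r : ℝ} (hr : (rho t k : ℝ) ≤ r) :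
    (wb t k : ℝ) * (2 : ℝ) ^ (-(7 / 8) * r) ≤ (2 : ℝ) ^ (-(35 : ℝ)) := by
  classical
  by_cases h : long t k
  · have hw : wb t k = ww t k := by unfold wb; rw [if_pos h]
    have hρ : rho t k = 2 * Nat.clog 2 (ww t k) + 40 := by unfold rho; rw [if_pos h]
    have h1 : (ww t k : ℝ) ≤ (2 : ℝ) ^ ((Nat.clog 2 (ww t k) : ℕ) : ℝ) := by
      rw [Real.rpow_natCast]
      exact_mod_cast Nat.le_pow_clog (by norm_num) _
    rw [hw]
    rw [hρ] at hr
    push_cast at hr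
    calc (ww t k : ℝ) * (2 : ℝ) ^ (-(7 / 8) * r)
        ≤ (2 : ℝ) ^ ((Nat.clog 2 (ww t k) : ℕ) : ℝ) * (2 : ℝ) ^ (-(7 / 8) * r) := by
          gcongr
      _ = (2 : ℝ) ^ (((Nat.clog 2 (ww t k) : ℕ) : ℝ) + (-(7 / 8) * r)) := by
          rw [Real.rpow_add (by norm_num)]
      _ ≤ (2 : ℝ) ^ (-(35 : ℝ)) := by
          apply Real.rpow_le_rpow_of_exponent_le (by norm_num)
          have : (0:ℝ) ≤ (Nat.clog 2 (ww t k) : ℕ) := by positivity
          linarith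
  · have hw : wb t k = 0 := by unfold wb; rw [if_neg h]
    rw [hw]
    simp only [Nat.cast_zero, zero_mul]
    positivity

/-- basic estimate of one term of `YY` -/
theorem n2_YY_term {k : ℕ} {j : Fin d} (hj : j ∈ alive t (k + 1)) :
    (mm t (alive t (k + 1)) (t j) : ℝ) * (2 : ℝ) ^ (-(t j - Lev t (k + 1)))
      ≤ cc * (2 : ℝ) ^ (-(t j - Lev t (k + 1)) / 8) * (2 : ℝ) ^ (-(3 / 4) * (t j - Lev t (k + 1))) := by
  have h1 := mm_le t hj
  calc (mm t (alive t (k + 1)) (t j) : ℝ) * (2 : ℝ) ^ (-(t j - Lev t (k + 1)))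
      ≤ (cc * (2 : ℝ) ^ ((t j - Lev t (k + 1)) / 8)) * (2 : ℝ) ^ (-(t j - Lev t (k + 1))) := by
        gcongr
    _ = cc * (2 : ℝ) ^ (-(t j - Lev t (k + 1)) / 8) * (2 : ℝ) ^ (-(3 / 4) * (t j - Lev t (k + 1))) := by
        rw [mul_assoc, mul_assoc, ← Real.rpow_add (by norm_num), ← Real.rpow_add (by norm_num)]
        congr 2
        ring

theorem YY_small (k : ℕ) : YY t k ≤ 1 / 10 ^ 6 := by
  have hD := DD_alive t k
  have h35 : (2:ℝ) ^ (-(35:ℝ)) ≤ 1 / 10 ^ 10 := by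
    rw [Real.rpow_neg (by norm_num)]
    have : (2:ℝ) ^ (35:ℝ) = 2 ^ 35 := by
      rw [show (35:ℝ) = ((35:ℕ):ℝ) by norm_num, Real.rpow_natCast]
    rw [this]; norm_num
  have key : ∀ j ∈ alive t (k + 1), tauSq t (alive t (k + 1)) (wb t k) j
      * (2 : ℝ) ^ (-(t j - Lev t (k + 1))) ≤ (4 * Gc * (cc + 1 / 10 ^ 10)) *
        (2 : ℝ) ^ (-(t j - Lev t (k + 1)) / 8) := by
    intro j hj
    have h186 := alive_gap t hj
    have hρ := alive_gap_rho t (b := k + 1) (k := k) (by omega) le_rfl hj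
    rw [Nat.add_sub_cancel] at hρ
    set r := t j - (Lev t (k + 1) : ℝ) with hr
    have h1 := n2_YY_term t hj
    rw [← hr] at h1
    have h2 : (2:ℝ) ^ (-(3 / 4) * r) ≤ 1 := by
      apply Real.rpow_le_one_of_one_le_of_nonpos (by norm_num)
      linarith
    have h3 : (wb t k : ℝ) * (2 : ℝ) ^ (-r) ≤ 1 / 10 ^ 10 * (2:ℝ) ^ (-r / 8) := by
      have h4 := n2_wb_two_pow_rho t k (r := r) (by linarith)
      have h5 : (2:ℝ) ^ (-r) = (2:ℝ) ^ (-(7 / 8) * r) * (2:ℝ) ^ (-r / 8) := by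
        rw [← Real.rpow_add (by norm_num)]; congr 1; ring
      rw [h5, ← mul_assoc]
      gcongr
      exact h4.trans h35
    have h6 : (mm t (alive t (k + 1)) (t j) : ℝ) * (2 : ℝ) ^ (-r) ≤ cc * (2:ℝ) ^ (-r / 8) := by
      refine h1.trans ?_
      have h7 : (0:ℝ) ≤ cc * (2:ℝ) ^ (-r / 8) := by unfold cc; positivity
      nlinarith
    have hG : (0:ℝ) ≤ 4 * Gc := by unfold Gc; norm_num
    unfold tauSq
    calc 4 * Gc * (↑(mm t (alive t (k + 1)) (t j)) + ↑(wb t k)) * (2:ℝ) ^ (-r)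
        = 4 * Gc * (↑(mm t (alive t (k + 1)) (t j)) * (2:ℝ) ^ (-r) + ↑(wb t k) * (2:ℝ) ^ (-r)) := by ring
      _ ≤ 4 * Gc * (cc * (2:ℝ) ^ (-r / 8) + 1 / 10 ^ 10 * (2:ℝ) ^ (-r / 8)) := by gcongr
      _ = _ := by ring
  unfold YY
  calc _ ≤ ∑ j ∈ alive t (k + 1), (4 * Gc * (cc + 1 / 10 ^ 10)) *
        (2 : ℝ) ^ (-(t j - Lev t (k + 1)) / 8) := Finset.sum_le_sum key
    _ = (4 * Gc * (cc + 1 / 10 ^ 10)) * ∑ j ∈ alive t (k + 1),
        (2 : ℝ) ^ (-(t j - Lev t (k + 1)) / 8) := by rw [Finset.mul_sum]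
    _ ≤ (4 * Gc * (cc + 1 / 10 ^ 10)) * cc := by
        gcongr
        unfold Gc cc; norm_num
    _ ≤ 1 / 10 ^ 6 := by unfold Gc cc; norm_num

theorem n2_MM_pos (k : ℕ) : (0:ℝ) < MM t k := by
  unfold MM; positivity

theorem n2_MM_one_le (k : ℕ) : (1:ℝ) ≤ MM t k := by
  unfold MM; exact_mod_cast Nat.one_le_two_pow

theorem n2_MM_rpow (k : ℕ) : (MM t k : ℝ) = (2:ℝ) ^ ((ww t k : ℕ) : ℝ) := by
  unfold MM; rw [Real.rpow_natCast]; push_cast; rfl

theorem n2_nat_le_four_mul_rpow (w : ℕ) : (w : ℝ) ≤ 4 * (2:ℝ) ^ ((w:ℝ) / 4) := by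
  have h1 : (1:ℝ) + (w / 4 : ℝ) * 1 ≤ (1 + 1) ^ ((w:ℝ) / 4) ∨ (w:ℝ) / 4 < 1 := by
    by_cases h : (1:ℝ) ≤ (w:ℝ) / 4
    · left
      exact one_add_mul_self_le_rpow_one_add (by norm_num) h
    · right; linarith
  rcases h1 with h1 | h1
  · norm_num at h1
    linarith
  · have h2 : (1:ℝ) ≤ (2:ℝ) ^ ((w:ℝ) / 4) := Real.one_le_rpow (by norm_num) (by positivity)
    linarith

/-- leak into the zone groups (`ρ - s` = remaining width of the zone of index `b`) -/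
theorem YY_zone {b k : ℕ} (hb : 1 ≤ b) (hbk : b ≤ k) :
    YY t k / MM t k ≤
      (2 : ℝ) ^ (-(3 / 4) * max 0 ((rho t (b - 1) : ℝ) - ((Lev t k : ℝ) - Lev t b))) := by
  have hM := n2_MM_pos t k
  have hM1 := n2_MM_one_le t k
  set u : ℝ := (rho t (b - 1) : ℝ) - ((Lev t k : ℝ) - Lev t b) with hu
  by_cases h0 : u ≤ 0
  · rw [max_eq_left h0]
    simp only [mul_zero, Real.rpow_zero]
    rw [div_le_one hM]
    have := YY_small t k
    have h2 : (1:ℝ) / 10 ^ 6 ≤ 1 := by norm_num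
    linarith
  push Not at h0
  rw [max_eq_right h0.le]
  have hD := DD_alive t k
  have hL := Lev_succ t k
  have hLr : (Lev t (k + 1) : ℝ) = Lev t k + ww t k := by exact_mod_cast hL
  have hw4 := n2_nat_le_four_mul_rpow (ww t k)
  have hwb : (wb t k : ℝ) ≤ ww t k := by exact_mod_cast wb_le t k
  have h23 : (2:ℝ) ^ (-(93 / 4 : ℝ)) ≤ 1 / 8000000 := by
    have h1 : (2:ℝ) ^ (-(93 / 4 : ℝ)) ≤ (2:ℝ) ^ (-(23 : ℝ)) :=
      Real.rpow_le_rpow_of_exponent_le (by norm_num) (by norm_num)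
    refine h1.trans ?_
    rw [Real.rpow_neg (by norm_num)]
    have : (2:ℝ) ^ (23:ℝ) = 2 ^ 23 := by
      rw [show (23:ℝ) = ((23:ℕ):ℝ) by norm_num, Real.rpow_natCast]
    rw [this]; norm_num
  have key : ∀ j ∈ alive t (k + 1), tauSq t (alive t (k + 1)) (wb t k) j
      * (2 : ℝ) ^ (-(t j - Lev t (k + 1))) ≤
        (4 * Gc * (cc + 1 / 2000000) * (2:ℝ) ^ (-(3 / 4) * u) * MM t k) *
        (2 : ℝ) ^ (-(t j - Lev t (k + 1)) / 8) := by
    intro j hj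
    have h186 := alive_gap t hj
    have hρ := alive_gap_rho t (b := b) (k := k) hb (by omega) hj
    set r := t j - (Lev t (k + 1) : ℝ) with hr
    have hru : u - ww t k ≤ r := by
      rw [hr, hu, hLr]; linarith
    have h1 := n2_YY_term t hj
    rw [← hr] at h1
    have h2 : (2:ℝ) ^ (-(3 / 4) * r) ≤ (2:ℝ) ^ (-(3 / 4) * u) * MM t k := by
      rw [n2_MM_rpow, ← Real.rpow_add (by norm_num)]
      apply Real.rpow_le_rpow_of_exponent_le (by norm_num)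
      have : (0:ℝ) ≤ (ww t k : ℕ) := by positivity
      linarith
    have h3 : (wb t k : ℝ) * (2 : ℝ) ^ (-r) ≤
        1 / 2000000 * (2:ℝ) ^ (-(3 / 4) * u) * MM t k * (2:ℝ) ^ (-r / 8) := by
      have h5 : (2:ℝ) ^ (-r) = (2:ℝ) ^ (-(7 / 8) * r) * (2:ℝ) ^ (-r / 8) := by
        rw [← Real.rpow_add (by norm_num)]; congr 1; ring
      have h6 : (2:ℝ) ^ (-(7 / 8) * r) ≤
          (2:ℝ) ^ (-(3 / 4) * u) * (2:ℝ) ^ ((3 / 4) * (ww t k : ℝ)) * (1 / 8000000) := by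
        calc (2:ℝ) ^ (-(7 / 8) * r)
            ≤ (2:ℝ) ^ (-(3 / 4) * u + (3 / 4) * (ww t k : ℝ) + (-(93 / 4 : ℝ))) := by
              apply Real.rpow_le_rpow_of_exponent_le (by norm_num)
              linarith
          _ = (2:ℝ) ^ (-(3 / 4) * u) * (2:ℝ) ^ ((3 / 4) * (ww t k : ℝ)) * (2:ℝ) ^ (-(93 / 4 : ℝ)) := by
              rw [Real.rpow_add (by norm_num), Real.rpow_add (by norm_num)]
          _ ≤ _ := by gcongr
      have h7 : (wb t k : ℝ) * (2:ℝ) ^ ((3 / 4) * (ww t k : ℝ)) ≤ 4 * MM t k := by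
        calc (wb t k : ℝ) * (2:ℝ) ^ ((3 / 4) * (ww t k : ℝ))
            ≤ (4 * (2:ℝ) ^ ((ww t k:ℝ) / 4)) * (2:ℝ) ^ ((3 / 4) * (ww t k : ℝ)) := by
              gcongr
              linarith
          _ = 4 * MM t k := by
              rw [mul_assoc, ← Real.rpow_add (by norm_num), n2_MM_rpow]
              congr 2; ring
      rw [h5, ← mul_assoc]
      refine mul_le_mul_of_nonneg_right ?_ (by positivity)
      calc (wb t k : ℝ) * (2:ℝ) ^ (-(7 / 8) * r)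
          ≤ (wb t k : ℝ) * ((2:ℝ) ^ (-(3 / 4) * u) * (2:ℝ) ^ ((3 / 4) * (ww t k : ℝ)) * (1 / 8000000)) := by
            gcongr
        _ = ((wb t k : ℝ) * (2:ℝ) ^ ((3 / 4) * (ww t k : ℝ))) * ((2:ℝ) ^ (-(3 / 4) * u) * (1 / 8000000)) := by
            ring
        _ ≤ (4 * MM t k) * ((2:ℝ) ^ (-(3 / 4) * u) * (1 / 8000000)) := by gcongr
        _ = 1 / 2000000 * (2:ℝ) ^ (-(3 / 4) * u) * MM t k := by ring
    have h8 : (mm t (alive t (k + 1)) (t j) : ℝ) * (2 : ℝ) ^ (-r) ≤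
        cc * (2:ℝ) ^ (-(3 / 4) * u) * MM t k * (2:ℝ) ^ (-r / 8) := by
      refine h1.trans ?_
      have h7 : (0:ℝ) ≤ cc * (2:ℝ) ^ (-r / 8) := by unfold cc; positivity
      calc cc * (2:ℝ) ^ (-r / 8) * (2:ℝ) ^ (-(3 / 4) * r)
          ≤ cc * (2:ℝ) ^ (-r / 8) * ((2:ℝ) ^ (-(3 / 4) * u) * MM t k) := by gcongr
        _ = _ := by ring
    have hG : (0:ℝ) ≤ 4 * Gc := by unfold Gc; norm_num
    unfold tauSq
    calc 4 * Gc * (↑(mm t (alive t (k + 1)) (t j)) + ↑(wb t k)) * (2:ℝ) ^ (-r)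
        = 4 * Gc * (↑(mm t (alive t (k + 1)) (t j)) * (2:ℝ) ^ (-r) + ↑(wb t k) * (2:ℝ) ^ (-r)) := by ring
      _ ≤ 4 * Gc * (cc * (2:ℝ) ^ (-(3 / 4) * u) * MM t k * (2:ℝ) ^ (-r / 8) +
            1 / 2000000 * (2:ℝ) ^ (-(3 / 4) * u) * MM t k * (2:ℝ) ^ (-r / 8)) := by gcongr
      _ = _ := by ring
  rw [div_le_iff₀ hM]
  unfold YY
  have hpos : (0:ℝ) ≤ 4 * Gc * (cc + 1 / 2000000) * (2:ℝ) ^ (-(3 / 4) * u) * MM t k := by
    unfold Gc cc; positivity
  calc _ ≤ ∑ j ∈ alive t (k + 1), (4 * Gc * (cc + 1 / 2000000) * (2:ℝ) ^ (-(3 / 4) * u) * MM t k) *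
        (2 : ℝ) ^ (-(t j - Lev t (k + 1)) / 8) := Finset.sum_le_sum key
    _ = (4 * Gc * (cc + 1 / 2000000) * (2:ℝ) ^ (-(3 / 4) * u) * MM t k) * ∑ j ∈ alive t (k + 1),
        (2 : ℝ) ^ (-(t j - Lev t (k + 1)) / 8) := by rw [Finset.mul_sum]
    _ ≤ (4 * Gc * (cc + 1 / 2000000) * (2:ℝ) ^ (-(3 / 4) * u) * MM t k) * cc := by
        gcongr
    _ = (4 * Gc * (cc + 1 / 2000000) * cc) * ((2:ℝ) ^ (-(3 / 4) * u) * MM t k) := by ring
    _ ≤ 1 * ((2:ℝ) ^ (-(3 / 4) * u) * MM t k) := by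
        gcongr
        unfold Gc cc; norm_num
    _ = _ := by rw [one_mul]

/-- the sum needed for the covariance test -/
theorem qsum (k : ℕ) :
    ∑ j ∈ alive t (k + 1), (2 : ℝ) ^ (-(t j - Lev t (k + 1)) / 2) ≤ cc := by
  refine (Finset.sum_le_sum fun j hj => ?_).trans (DD_alive t k)
  have h186 := alive_gap t hj
  apply Real.rpow_le_rpow_of_exponent_le (by norm_num)
  linarith

/-- a bound for the largest weight in the covariance test -/
theorem qmax (k : ℕ) : ∃ qm : ℝ, 0 ≤ qm ∧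
    (∀ j ∈ alive t (k + 1), (2 : ℝ) ^ (-(t j - Lev t (k + 1)) / 2) ≤ qm) ∧
    160000 * (2 * cc ^ 2 + 4 * qm ^ 2 * (30 + wb t k)) ≤ 16 / 10 ^ 4 := by
  refine ⟨(2:ℝ) ^ (-(max (186:ℝ) (rho t k)) / 2), by positivity, ?_, ?_⟩
  · intro j hj
    have h186 := alive_gap t hj
    have hρ := alive_gap_rho t (b := k + 1) (k := k) (by omega) le_rfl hj
    rw [Nat.add_sub_cancel] at hρ
    apply Real.rpow_le_rpow_of_exponent_le (by norm_num)
    have : max (186:ℝ) (rho t k) ≤ t j - Lev t (k + 1) := max_le h186 (by linarith)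
    linarith
  · have hq : ((2:ℝ) ^ (-(max (186:ℝ) (rho t k)) / 2)) ^ 2 = (2:ℝ) ^ (-(max (186:ℝ) (rho t k))) := by
      rw [← Real.rpow_natCast, ← Real.rpow_mul (by norm_num)]
      congr 1; push_cast; ring
    rw [hq]
    have h1 : (2:ℝ) ^ (-(max (186:ℝ) (rho t k))) ≤ 1 / 10 ^ 12 := by
      have h2 : (2:ℝ) ^ (-(max (186:ℝ) (rho t k))) ≤ (2:ℝ) ^ (-(40:ℝ)) := by
        apply Real.rpow_le_rpow_of_exponent_le (by norm_num)
        have := le_max_left (186:ℝ) (rho t k)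
        linarith
      refine h2.trans ?_
      rw [Real.rpow_neg (by norm_num)]
      have : (2:ℝ) ^ (40:ℝ) = 2 ^ 40 := by
        rw [show (40:ℝ) = ((40:ℕ):ℝ) by norm_num, Real.rpow_natCast]
      rw [this]; norm_num
    have h3 : (wb t k : ℝ) * (2:ℝ) ^ (-(max (186:ℝ) (rho t k))) ≤ 1 / 10 ^ 10 := by
      have h4 := n2_wb_two_pow_rho t k (r := max (186:ℝ) (rho t k)) (le_max_right _ _)
      have h5 : (2:ℝ) ^ (-(max (186:ℝ) (rho t k))) ≤ (2:ℝ) ^ (-(7 / 8) * (max (186:ℝ) (rho t k))) := by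
        apply Real.rpow_le_rpow_of_exponent_le (by norm_num)
        have := le_max_left (186:ℝ) (rho t k)
        linarith
      calc (wb t k : ℝ) * (2:ℝ) ^ (-(max (186:ℝ) (rho t k)))
          ≤ (wb t k : ℝ) * (2:ℝ) ^ (-(7 / 8) * (max (186:ℝ) (rho t k))) := by gcongr
        _ ≤ (2:ℝ) ^ (-(35:ℝ)) := h4
        _ ≤ 1 / 10 ^ 10 := by
          rw [Real.rpow_neg (by norm_num)]
          have : (2:ℝ) ^ (35:ℝ) = 2 ^ 35 := by
            rw [show (35:ℝ) = ((35:ℕ):ℝ) by norm_num, Real.rpow_natCast]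
          rw [this]; norm_num
    have hc : cc = 1 / 10 ^ 7 := rfl
    rw [hc]
    set Q := (2:ℝ) ^ (-(max (186:ℝ) (rho t k))) with hQ
    have h6 : 160000 * (2 * (1 / 10 ^ 7 : ℝ) ^ 2 + 4 * Q * (30 + wb t k))
        = 160000 * 2 * (1 / 10 ^ 7 : ℝ) ^ 2 + 19200000 * Q + 640000 * (wb t k * Q) := by ring
    rw [h6]
    norm_num at h1 h3 ⊢
    linarith

/-- ages grow at least linearly -/
theorem n2_age_ge {k : ℕ} {g : Grp} (hg : g ∈ grps (k + 1)) : k - g.1 ≤ age t k g := by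
  unfold grps at hg
  simp only [Finset.mem_product, Finset.mem_range, Finset.mem_univ, and_true] at hg
  unfold age
  by_cases hk : g.1 ≤ k
  · have h1 := Lev_mono t hk
    have h2 := Lev_mono t (show g.1 - 1 ≤ g.1 by omega)
    split_ifs <;> omega
  · omega

theorem n2_sum_grps_le (k : ℕ) (φ : ℕ → ℝ) (f : Grp → ℝ)
    (h : ∀ g ∈ grps (k + 1), f g ≤ φ (k - g.1)) :
    ∑ g ∈ grps (k + 1), f g ≤ 3 * (φ 0 + ∑ n ∈ range (k + 1), φ n) := by
  refine (Finset.sum_le_sum h).trans ?_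
  unfold grps
  rw [Finset.sum_product]
  simp only [Finset.sum_const, Finset.card_univ, Fintype.card_fin, nsmul_eq_mul, Nat.cast_ofNat]
  rw [← Finset.mul_sum]
  apply le_of_eq
  congr 1
  rw [Finset.sum_range_succ, add_comm]
  congr 1
  · congr 1; omega
  · rw [← Finset.sum_range_reflect]
    refine Finset.sum_congr rfl fun n hn => ?_
    congr 1
    have := Finset.mem_range.mp hn
    omega

/-- failure probabilities (in the form needed by `stage_core`; `σ` = any of the ages) -/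
theorem exp_age_sum (k : ℕ) : ∑ g ∈ grps (k + 1), Real.exp (-(age t k g : ℝ)) ≤ 10 := by
  have h1 := n2_sum_grps_le k (fun n => Real.exp (-(n:ℝ))) (fun g => Real.exp (-(age t k g : ℝ))) (by
    intro g hg
    have := n2_age_ge t hg
    apply Real.exp_le_exp.mpr
    have h2 : (((k - g.1 : ℕ)) : ℝ) ≤ (age t k g : ℝ) := by exact_mod_cast this
    linarith)
  refine h1.trans ?_
  have h2 : ∀ n : ℕ, ∑ m ∈ range n, Real.exp (-(m:ℝ)) ≤ 2 - (1/2:ℝ) ^ n * 2 := by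
    intro n
    induction n with
    | zero => simp
    | succ n ih =>
      rw [Finset.sum_range_succ]
      have h3 : Real.exp (-(n:ℝ)) ≤ (1/2:ℝ) ^ n := by
        have : Real.exp (-(n:ℝ)) = (Real.exp (-1)) ^ n := by
          rw [← Real.exp_nat_mul]; congr 1; ring
        rw [this]
        gcongr
        rw [Real.exp_neg, one_div]
        apply inv_anti₀ (by norm_num)
        have := Real.add_one_le_exp (1:ℝ)
        linarith
      rw [pow_succ]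
      linarith
  have h3 := h2 (k + 1)
  have h4 : (0:ℝ) ≤ (1/2:ℝ) ^ (k + 1) * 2 := by positivity
  have h5 : Real.exp (-((0:ℕ):ℝ)) = 1 := by simp
  simp only [h5]
  linarith

theorem n2_ff_nonneg {ι : Type} [Fintype ι] [DecidableEq ι] (I : Inst d ι) (k : ℕ) (g : Grp) (i : ι) :
    0 ≤ ff I k g i := by
  unfold ff
  positivity

theorem n2_ff_le_one {ι : Type} [Fintype ι] [DecidableEq ι] (I : Inst d ι) (k : ℕ) (g : Grp) (i : ι) :
    ff I k g i ≤ 1 := by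
  unfold ff
  exact min_le_left _ _

/-- the weighted sum in `stage_core` -/
theorem func_weights {ι : Type} [Fintype ι] [DecidableEq ι] (I : Inst d ι) (k : ℕ) (i : ι) :
    ∑ g ∈ grps (k + 1), (ff I (k + 1) g i / (3 * (1 + age I.t k g))) ^ 2 ≤ 1 := by
  have h1 := n2_sum_grps_le k (fun n => 1 / 9 * (1 / (1 + (n:ℝ)) ^ 2))
    (fun g => (ff I (k + 1) g i / (3 * (1 + age I.t k g))) ^ 2) (by
    intro g hg
    have := n2_age_ge I.t hg
    have h2 : (((k - g.1 : ℕ)) : ℝ) ≤ (age I.t k g : ℝ) := by exact_mod_cast this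
    have h3 := n2_ff_nonneg I (k + 1) g i
    have h4 := n2_ff_le_one I (k + 1) g i
    have h5 : (0:ℝ) ≤ ((k - g.1 : ℕ) : ℝ) := by positivity
    calc (ff I (k + 1) g i / (3 * (1 + age I.t k g))) ^ 2
        ≤ (1 / (3 * (1 + ((k - g.1 : ℕ) : ℝ)))) ^ 2 := by gcongr
      _ = 1 / 9 * (1 / (1 + ((k - g.1 : ℕ) : ℝ)) ^ 2) := by
          field_simp
          norm_num)
  refine h1.trans ?_
  have h2 : ∀ n : ℕ, ∑ m ∈ range (n + 1), 1 / 9 * (1 / (1 + (m:ℝ)) ^ 2) ≤ 1 / 9 * (2 - 1 / (1 + (n:ℝ))) := by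
    intro n
    induction n with
    | zero => norm_num
    | succ n ih =>
      rw [Finset.sum_range_succ]
      have h3 : (1:ℝ) / (1 + ((n + 1 : ℕ) : ℝ)) ^ 2 ≤ 1 / (1 + (n:ℝ)) - 1 / (1 + ((n + 1 : ℕ):ℝ)) := by
        push_cast
        rw [div_sub_div _ _ (by positivity) (by positivity)]
        rw [div_le_div_iff₀ (by positivity) (by positivity)]
        nlinarith [Nat.cast_nonneg (α := ℝ) n]
      linarith
  have h3 := h2 k
  have h4 : (0:ℝ) ≤ 1 / (1 + (k:ℝ)) := by positivity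
  simp only [Nat.cast_zero, add_zero, one_pow, div_one, mul_one]
  linarith

end Vale.Agent.P262B
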