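import Vale.Agent.P262B.S1b2

/-! Test vectors of one stage, and numerical lemmas. -/

open scoped BigOperators RealInnerProductSpace

namespace Vale.Agent.P262B

section vec

variable {ι : Type} [DecidableEq ι] {d : ℕ} {ℬ : Type} [Fintype ℬ] [DecidableEq ℬ]

/-- the test vectors -/
noncomputable def zvec (X : Finset ι) (v : ι → Vec d) (AL : Finset (Fin d)) (F : ℬ → ι → ℝ) (i : ι) :
    EuclideanSpace ℝ (KI X d ℬ) :=
  WithLp.toLp 2 (Sum.elim (fun i' => if (i' : ι) = i then 1 / 100 else 0)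
    (Sum.elim (fun j => 1 / 100 * v i j) (Sum.elim (fun b => 1 / 100 * F b i)
      (Sum.elim (fun p => if p.1 ∈ AL ∧ p.2 ∈ AL then 1 / 100 * (v i p.1 * v i p.2) else 0)
        (fun _ => 1 / 100)))))

omit [DecidableEq ℬ] in
lemma zvec_norm (X : Finset ι) (v : ι → Vec d) (hv : ∀ i, ‖v i‖ ≤ 1) (AL : Finset (Fin d))
    (F : ℬ → ι → ℝ) (hF : ∀ i ∈ X, ∑ b, (F b i) ^ 2 ≤ 1) (i : ι) (hi : i ∈ X) :
    ‖zvec X v AL F i‖ ≤ 1 / 40 := by
  have hv2 : ∑ j, (v i j) ^ 2 ≤ 1 := by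
    rw [← EuclideanSpace.real_norm_sq_eq]
    have := hv i
    have h0 := norm_nonneg (v i)
    nlinarith
  have hv0 : 0 ≤ ∑ j, (v i j) ^ 2 := Finset.sum_nonneg fun _ _ => sq_nonneg _
  have h1 : ‖zvec X v AL F i‖ ^ 2 ≤ (1 / 40) ^ 2 := by
    rw [EuclideanSpace.real_norm_sq_eq, Fintype.sum_sum_type, Fintype.sum_sum_type,
      Fintype.sum_sum_type, Fintype.sum_sum_type]
    have e1 : ∑ i' : {i // i ∈ X}, (zvec X v AL F i (Sum.inl i')) ^ 2 ≤ 1 / 10000 := by
      have : ∀ i' : {i // i ∈ X}, (zvec X v AL F i (Sum.inl i')) ^ 2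
          = if i' = ⟨i, hi⟩ then 1 / 10000 else 0 := by
        intro i'
        change (if (i' : ι) = i then 1 / 100 else 0 : ℝ) ^ 2 = _
        by_cases h : (i' : ι) = i
        · have h' : i' = ⟨i, hi⟩ := Subtype.ext h
          rw [if_pos h, if_pos h']
          norm_num
        · have h' : ¬ i' = ⟨i, hi⟩ := fun h'' => h (by rw [h''])
          rw [if_neg h, if_neg h']
          norm_num
      simp_rw [this]
      simp
    have e2 : ∑ j : Fin d, (zvec X v AL F i (Sum.inr (Sum.inl j))) ^ 2 ≤ 1 / 10000 := by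
      have : ∀ j : Fin d, (zvec X v AL F i (Sum.inr (Sum.inl j))) ^ 2 = 1 / 10000 * (v i j) ^ 2 := by
        intro j
        change (1 / 100 * v i j) ^ 2 = _
        ring
      simp_rw [this]
      rw [← Finset.mul_sum]
      linarith
    have e3 : ∑ b : ℬ, (zvec X v AL F i (Sum.inr (Sum.inr (Sum.inl b)))) ^ 2 ≤ 1 / 10000 := by
      have : ∀ b : ℬ, (zvec X v AL F i (Sum.inr (Sum.inr (Sum.inl b)))) ^ 2
          = 1 / 10000 * (F b i) ^ 2 := by
        intro b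
        change (1 / 100 * F b i) ^ 2 = _
        ring
      simp_rw [this]
      rw [← Finset.mul_sum]
      linarith [hF i hi]
    have e4 : ∑ p : Fin d × Fin d, (zvec X v AL F i (Sum.inr (Sum.inr (Sum.inr (Sum.inl p))))) ^ 2
        ≤ 1 / 10000 := by
      have : ∀ p : Fin d × Fin d, (zvec X v AL F i (Sum.inr (Sum.inr (Sum.inr (Sum.inl p))))) ^ 2
          ≤ 1 / 10000 * ((v i p.1) ^ 2 * (v i p.2) ^ 2) := by
        intro p
        change (if p.1 ∈ AL ∧ p.2 ∈ AL then 1 / 100 * (v i p.1 * v i p.2) else 0 : ℝ) ^ 2 ≤ _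
        split_ifs
        · apply le_of_eq
          ring
        · have := mul_nonneg (sq_nonneg (v i p.1)) (sq_nonneg (v i p.2))
          norm_num
          linarith
      refine (Finset.sum_le_sum fun p _ => this p).trans ?_
      rw [← Finset.mul_sum, Fintype.sum_prod_type]
      have h2 : ∑ x : Fin d, ∑ y : Fin d, (v i x) ^ 2 * (v i y) ^ 2
          = (∑ j, (v i j) ^ 2) * (∑ j, (v i j) ^ 2) := by
        rw [Finset.sum_mul_sum]
      simp only [h2]
      nlinarith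
    have e5 : ∑ u : Unit, (zvec X v AL F i (Sum.inr (Sum.inr (Sum.inr (Sum.inr u))))) ^ 2
        ≤ 1 / 10000 := by
      have : ∀ u : Unit, (zvec X v AL F i (Sum.inr (Sum.inr (Sum.inr (Sum.inr u))))) ^ 2
          = 1 / 10000 := by
        intro u
        change (1 / 100 : ℝ) ^ 2 = _
        norm_num
      simp_rw [this]
      simp
    norm_num at *
    linarith
  exact (sq_le_sq₀ (norm_nonneg _) (by norm_num)).1 h1

omit [Fintype ℬ] [DecidableEq ℬ] in
lemma zsum_id (X : Finset ι) (v : ι → Vec d) (AL : Finset (Fin d)) (F : ℬ → ι → ℝ) (u : ι → ℝ)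
    (i' : {i // i ∈ X}) : (∑ i ∈ X, u i • zvec X v AL F i) (Sum.inl i') = 1 / 100 * u i' := by
  rw [WithLp.ofLp_sum, Finset.sum_apply]
  rw [Finset.sum_eq_single (i' : ι)]
  · change u i' * (if (i' : ι) = i' then 1 / 100 else 0) = _
    rw [if_pos rfl]
    ring
  · intro b _ hb
    change u b * (if (i' : ι) = b then 1 / 100 else 0) = 0
    rw [if_neg (Ne.symm hb), mul_zero]
  · intro h
    exact absurd i'.2 h

omit [Fintype ℬ] [DecidableEq ℬ] in
lemma zsum_lin (X : Finset ι) (v : ι → Vec d) (AL : Finset (Fin d)) (F : ℬ → ι → ℝ) (u : ι → ℝ)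
    (j : Fin d) : (∑ i ∈ X, u i • zvec X v AL F i) (Sum.inr (Sum.inl j))
      = 1 / 100 * (∑ i ∈ X, u i • v i) j := by
  rw [WithLp.ofLp_sum, Finset.sum_apply, WithLp.ofLp_sum, Finset.sum_apply, Finset.mul_sum]
  apply Finset.sum_congr rfl
  intro i _
  change u i * (1 / 100 * v i j) = 1 / 100 * (u i * v i j)
  ring

omit [Fintype ℬ] [DecidableEq ℬ] in
lemma zsum_fun (X : Finset ι) (v : ι → Vec d) (AL : Finset (Fin d)) (F : ℬ → ι → ℝ) (u : ι → ℝ)
    (b : ℬ) : (∑ i ∈ X, u i • zvec X v AL F i) (Sum.inr (Sum.inr (Sum.inl b)))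
      = 1 / 100 * ∑ i ∈ X, u i * F b i := by
  rw [WithLp.ofLp_sum, Finset.sum_apply, Finset.mul_sum]
  apply Finset.sum_congr rfl
  intro i _
  change u i * (1 / 100 * F b i) = 1 / 100 * (u i * F b i)
  ring

omit [Fintype ℬ] [DecidableEq ℬ] in
lemma zsum_cov (X : Finset ι) (v : ι → Vec d) (AL : Finset (Fin d)) (F : ℬ → ι → ℝ) (u : ι → ℝ)
    {j j' : Fin d} (hj : j ∈ AL) (hj' : j' ∈ AL) :
    (∑ i ∈ X, u i • zvec X v AL F i) (Sum.inr (Sum.inr (Sum.inr (Sum.inl (j, j')))))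
      = 1 / 100 * ∑ i ∈ X, u i * (v i j * v i j') := by
  rw [WithLp.ofLp_sum, Finset.sum_apply, Finset.mul_sum]
  apply Finset.sum_congr rfl
  intro i _
  change u i * (if j ∈ AL ∧ j' ∈ AL then 1 / 100 * (v i j * v i j') else 0)
    = 1 / 100 * (u i * (v i j * v i j'))
  rw [if_pos ⟨hj, hj'⟩]
  ring

omit [Fintype ℬ] [DecidableEq ℬ] in
lemma zsum_cnt (X : Finset ι) (v : ι → Vec d) (AL : Finset (Fin d)) (F : ℬ → ι → ℝ) (u : ι → ℝ) :
    (∑ i ∈ X, u i • zvec X v AL F i) (Sum.inr (Sum.inr (Sum.inr (Sum.inr ()))))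
      = 1 / 100 * ∑ i ∈ X, u i := by
  rw [WithLp.ofLp_sum, Finset.sum_apply, Finset.mul_sum]
  apply Finset.sum_congr rfl
  intro i _
  change u i * (1 / 100) = 1 / 100 * u i
  ring

end vec

section num

lemma exp_neg_one_le_half : Real.exp (-1) ≤ 1 / 2 := by
  have := Real.exp_neg_one_lt_d9
  norm_num at *
  linarith

lemma exp_neg_nat_le (n : ℕ) : Real.exp (-(n : ℝ)) ≤ (1 / 2) ^ n := by
  have h : Real.exp (-(n : ℝ)) = Real.exp (-1) ^ n := by
    rw [← Real.exp_nat_mul]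
    congr 1
    ring
  rw [h]
  exact pow_le_pow_left₀ (Real.exp_pos _).le exp_neg_one_le_half n

/-- distinct positive integers -/
lemma sum_exp_inj {α : Type*} (s : Finset α) (m : α → ℕ) (hinj : Set.InjOn m s)
    (hpos : ∀ a ∈ s, 1 ≤ m a) : ∑ a ∈ s, Real.exp (-(m a : ℝ)) ≤ 1 := by
  classical
  have h1 : ∑ a ∈ s, Real.exp (-(m a : ℝ)) ≤ ∑ a ∈ s, (1 / 2 : ℝ) ^ (m a) :=
    Finset.sum_le_sum fun a _ => exp_neg_nat_le _
  refine h1.trans ?_
  have h2 : ∑ a ∈ s, (1 / 2 : ℝ) ^ (m a) = ∑ n ∈ s.image m, (1 / 2 : ℝ) ^ n := by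
    rw [Finset.sum_image]
    intro a ha b hb hab
    exact hinj ha hb hab
  rw [h2]
  obtain ⟨N, hN⟩ : ∃ N, s.image m ⊆ Finset.Ico 1 N := by
    refine ⟨(s.image m).sup id + 1, ?_⟩
    intro n hn
    rw [Finset.mem_Ico]
    constructor
    · obtain ⟨a, ha, rfl⟩ := Finset.mem_image.1 hn
      exact hpos a ha
    · have := Finset.le_sup (f := id) hn
      simp only [id] at this
      omega
  refine (Finset.sum_le_sum_of_subset_of_nonneg hN fun _ _ _ => by positivity).trans ?_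
  rw [Finset.sum_Ico_eq_sum_range]
  have h3 : ∀ n, (1 / 2 : ℝ) ^ (1 + n) = (1 / 2) * (1 / 2) ^ n := fun n => by rw [pow_add, pow_one]
  simp_rw [h3]
  rw [← Finset.mul_sum]
  have h4 : ∑ n ∈ Finset.range (N - 1), (1 / 2 : ℝ) ^ n ≤ 2 := by
    rw [geom_sum_eq (by norm_num)]
    have : (0 : ℝ) ≤ (1 / 2) ^ (N - 1) := by positivity
    rw [div_le_iff_of_neg (by norm_num)]
    linarith
  linarith

lemma exp_wb_le (w wb : ℕ) (hwb : wb = w ∨ (wb = 0 ∧ w = 1)) :
    Real.exp (-(wb : ℝ)) ≤ 2 / 2 ^ w := by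
  rcases hwb with h | ⟨h1, h2⟩
  · subst h
    refine (exp_neg_nat_le wb).trans ?_
    rw [one_div, inv_pow, ← one_div]
    gcongr
    norm_num
  · subst h1 h2
    norm_num

lemma exp_30_le : Real.exp (-(30 : ℝ)) ≤ 1 / 10 ^ 9 := by
  have := exp_neg_nat_le 30
  norm_num at *
  linarith

end num

end Vale.Agent.P262B
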