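import Vale.Agent.P262B.S1a
import Vale.Agent.P262B.S1b3

open MeasureTheory ProbabilityTheory
open scoped ENNReal NNReal BigOperators RealInnerProductSpace Pointwise

namespace Vale.Agent.P262B

variable {ι : Type} [DecidableEq ι]

/-- noise coefficient of boundary `m` in `stage_core` -/
noncomputable def uco (w : ℕ) (φ₁ φ₂ : ι → ℝ) (c : ι → ℕ) (m : ℕ) (i : ι) : ℝ :=
  (if c i < m then 1 else 0) - (m : ℝ) / (2 ^ w : ℕ)
    + ((1 - tht (2 ^ w) m) * φ₁ i + tht (2 ^ w) m * φ₂ i)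

/-- noise coefficient of cell `m` -/
noncomputable def wco (w : ℕ) (φ₁ φ₂ : ι → ℝ) (c : ι → ℕ) (m : ℕ) (i : ι) : ℝ :=
  (if c i = m then 1 else 0) - (1 / ((2 ^ w : ℕ) : ℝ) + cellw (2 ^ w) φ₁ φ₂ m i)

omit [DecidableEq ι] in
lemma err_boundary {V : Type*} [AddCommGroup V] [Module ℝ V] (w : ℕ) (φ₁ φ₂ : ι → ℝ) (c : ι → ℕ)
    (m : ℕ) (X : Finset ι) (z : ι → V) :
    ∑ i ∈ X with c i < m, z i - ((m : ℝ) / ((2 ^ w : ℕ) : ℝ)) • ∑ i ∈ X, z i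
      + ∑ i ∈ X, ((1 - tht (2 ^ w) m) * φ₁ i + tht (2 ^ w) m * φ₂ i) • z i
      = ∑ i ∈ X, uco w φ₁ φ₂ c m i • z i := by
  rw [Finset.sum_filter, Finset.smul_sum, ← Finset.sum_sub_distrib, ← Finset.sum_add_distrib]
  apply Finset.sum_congr rfl
  intro i _
  unfold uco
  split_ifs <;> module

omit [DecidableEq ι] in
lemma err_cell {V : Type*} [AddCommGroup V] [Module ℝ V] (w : ℕ) (φ₁ φ₂ : ι → ℝ) (c : ι → ℕ)
    (m : ℕ) (X : Finset ι) (z : ι → V) :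
    ∑ i ∈ X with c i = m, z i
      - ∑ i ∈ X, (1 / ((2 ^ w : ℕ) : ℝ) + cellw (2 ^ w) φ₁ φ₂ m i) • z i
      = ∑ i ∈ X, wco w φ₁ φ₂ c m i • z i := by
  rw [Finset.sum_filter, ← Finset.sum_sub_distrib]
  apply Finset.sum_congr rfl
  intro i _
  unfold wco
  rw [sub_smul, ite_smul, one_smul, zero_smul]

/-- combination of quadratic tests with the partition theorem -/
lemma partition_tests {κ : Type} [Fintype κ] [DecidableEq κ] {𝒯 : Type} [Fintype 𝒯]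
    (T : 𝒯 → QT κ) (x : 𝒯 → ℕ) (w wb : ℕ) (hw : 1 ≤ w) (hwb : wb = w ∨ (wb = 0 ∧ w = 1))
    (hx : ∑ a, Real.exp (-(x a : ℝ)) ≤ 93)
    (X : Finset ι) (z : ι → EuclideanSpace ℝ κ) (hz : ∀ i ∈ X, ‖z i‖ ≤ 1 / 40)
    (φ₁ φ₂ : ι → ℝ) (h₁ : ∀ i ∈ X, |φ₁ i| ≤ 1 / (2 * (2 ^ w : ℕ)))
    (h₂ : ∀ i ∈ X, |φ₂ i| ≤ 1 / (2 * (2 ^ w : ℕ))) (h12 : w = 1 → φ₁ = φ₂) :
    ∃ c : ι → ℕ, (∀ i ∈ X, c i < 2 ^ w) ∧
      (∀ m, 1 ≤ m → m < 2 ^ w → ∀ a, ‖(T a).L (∑ i ∈ X, uco w φ₁ φ₂ c m i • z i)‖ ^ 2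
        ≤ 9 * (2 * (T a).e + 4 * (30 + wb + x a))) ∧
      (∀ m < 2 ^ w, ∀ a, ‖(T a).L (∑ i ∈ X, wco w φ₁ φ₂ c m i • z i)‖ ^ 2
        ≤ 16 * (2 * (T a).e + 4 * (30 + wb + x a))) := by
  have hM : (2 ^ w = 2 ∨ 4 ≤ 2 ^ w) := by
    rcases Nat.lt_or_ge w 2 with h | h
    · left
      have : w = 1 := by omega
      rw [this]
      norm_num
    · right
      calc 4 = 2 ^ 2 := by norm_num
        _ ≤ 2 ^ w := Nat.pow_le_pow_right (by norm_num) h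
  have hsum : ∑ a, Real.exp ((T a).e / 2 - (2 * (T a).e + 4 * (30 + wb + x a)) / 4)
      ≤ eps0 / (2 * ((2 ^ w : ℕ) : ℝ)) := by
    have h1 : ∀ a, Real.exp ((T a).e / 2 - (2 * (T a).e + 4 * (30 + wb + x a)) / 4)
        = Real.exp (-30) * Real.exp (-(wb : ℝ)) * Real.exp (-(x a : ℝ)) := by
      intro a
      rw [← Real.exp_add, ← Real.exp_add]
      congr 1
      ring
    simp_rw [h1]
    rw [← Finset.mul_sum]
    have h2 := exp_wb_le w wb hwb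
    have h3 := exp_30_le
    have h4 : (0 : ℝ) ≤ ∑ a, Real.exp (-(x a : ℝ)) := Finset.sum_nonneg fun _ _ => (Real.exp_pos _).le
    have hpos : (0 : ℝ) < 2 ^ w := by positivity
    calc Real.exp (-30) * Real.exp (-(wb : ℝ)) * ∑ a, Real.exp (-(x a : ℝ))
        ≤ (1 / 10 ^ 9) * (2 / 2 ^ w) * 93 := by
          apply mul_le_mul (mul_le_mul h3 h2 (Real.exp_pos _).le (by norm_num)) hx h4 (by positivity)
      _ ≤ eps0 / (2 * ((2 ^ w : ℕ) : ℝ)) := by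
          unfold eps0
          push_cast
          rw [le_div_iff₀ (by positivity)]
          have : 1 / 10 ^ 9 * (2 / 2 ^ w) * 93 * (2 * 2 ^ w) = (372 / 10 ^ 9 : ℝ) := by
            field_simp
            norm_num
          rw [this]
          norm_num
  obtain ⟨c, hc1, hc2, hc3⟩ := tested_partition (fun a => (T a).L) (fun a ζ => (T a).contr ζ)
    (fun a => (T a).e) (fun a => 2 * (T a).e + 4 * (30 + wb + x a))
    (fun a => by
      have := (T a).e_nonneg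
      positivity)
    (fun a => (T a).hs) (2 ^ w) hM hsum X z hz φ₁ φ₂ h₁ h₂ (by
      intro h
      apply h12
      by_contra hne
      have h2 : 2 ≤ w := by omega
      have : 4 ≤ 2 ^ w := by
        calc 4 = 2 ^ 2 := by norm_num
          _ ≤ 2 ^ w := Nat.pow_le_pow_right (by norm_num) h2
      omega)
  refine ⟨c, hc1, ?_, ?_⟩
  · intro m hm1 hm a
    have := hc2 m hm1 hm a
    rwa [err_boundary] at this
  · intro m hm a
    have := hc3 m hm a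
    rwa [err_cell] at this

section numerics

lemma num_mask {S m wb : ℝ} (hm : 1 ≤ m) (hwb : 0 ≤ wb)
    (h : (1 / 100) ^ 2 * S ≤ 9 * (2 * m + 4 * (30 + wb + m))) : S ≤ Gc * (m + wb) := by
  unfold Gc
  nlinarith

lemma num_J {S c wb x : ℝ} (hc : 0 ≤ c) (hwb : 0 ≤ wb) (hx : 0 ≤ x)
    (h : (1 / 100) ^ 2 * S ≤ 9 * (2 * c + 4 * (30 + wb + x))) : S ≤ Gc * (c + 1 + wb + x) := by
  unfold Gc
  nlinarith

lemma num_sub {S l T wb x : ℝ} (hl : 0 ≤ l) (hwb : 0 ≤ wb) (hx : 0 ≤ x)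
    (hS : l * T = (1 / 100) ^ 2 * S) (h : T ≤ 9 * (2 * 1 + 4 * (30 + wb + x))) :
    S ≤ Gc * l * (1 + wb + x) := by
  unfold Gc
  have h1 : l * T ≤ l * (9 * (2 * 1 + 4 * (30 + wb + x))) := mul_le_mul_of_nonneg_left h hl
  have h2 : 0 ≤ l * wb := mul_nonneg hl hwb
  have h3 : 0 ≤ l * x := mul_nonneg hl hx
  nlinarith

lemma num_fun {N s wb : ℝ} (hs : 0 ≤ s) (hwb : 0 ≤ wb)
    (h : (1 / 100 * (N / (3 * (1 + s)))) ^ 2 ≤ 16 * (2 * 1 + 4 * (30 + wb + s))) :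
    |N| ≤ 15000 * (1 + s) * Real.sqrt (1 + wb + s) := by
  apply abs_le_of_sq_le_sq _ (by positivity)
  rw [mul_pow, mul_pow, Real.sq_sqrt (by positivity)]
  have h1 : (0 : ℝ) < 3 * (1 + s) := by positivity
  have h2 : N ^ 2 = (1 / 100 * (N / (3 * (1 + s)))) ^ 2 * (100 * (3 * (1 + s))) ^ 2 := by
    field_simp
  rw [h2]
  calc (1 / 100 * (N / (3 * (1 + s)))) ^ 2 * (100 * (3 * (1 + s))) ^ 2
      ≤ (16 * (2 * 1 + 4 * (30 + wb + s))) * (100 * (3 * (1 + s))) ^ 2 := by gcongr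
    _ ≤ 15000 ^ 2 * (1 + s) ^ 2 * (1 + wb + s) := by
      have h3 : 0 ≤ (1 + s) ^ 2 := by positivity
      have h4 : (16 * (2 * 1 + 4 * (30 + wb + s))) * (100 * 3) ^ 2 ≤ 15000 ^ 2 * (1 + wb + s) := by
        linarith
      calc (16 * (2 * 1 + 4 * (30 + wb + s))) * (100 * (3 * (1 + s))) ^ 2
          = ((16 * (2 * 1 + 4 * (30 + wb + s))) * (100 * 3) ^ 2) * (1 + s) ^ 2 := by ring
        _ ≤ (15000 ^ 2 * (1 + wb + s)) * (1 + s) ^ 2 := by gcongr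
        _ = _ := by ring

lemma num_cnt {N wb : ℝ} (hwb : 0 ≤ wb)
    (h : (1 / 100 * N) ^ 2 ≤ 16 * (2 * 1 + 4 * (30 + wb + 0))) :
    |N| ≤ 5000 * Real.sqrt (1 + wb) := by
  apply abs_le_of_sq_le_sq _ (by positivity)
  rw [mul_pow, Real.sq_sqrt (by positivity)]
  nlinarith

lemma num_cov {S Q qm T wb : ℝ} (hqm : 0 ≤ qm) (hwb : 0 ≤ wb)
    (hS : qm ^ 2 * T = (1 / 100) ^ 2 * S)
    (h : T ≤ 16 * (2 * (Q ^ 2 / qm ^ 2) + 4 * (30 + wb + 0))) :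
    S ≤ 160000 * (2 * Q ^ 2 + 4 * qm ^ 2 * (30 + wb)) := by
  rcases eq_or_lt_of_le hqm with h0 | h0
  · rw [← h0] at hS ⊢
    have : S = 0 := by nlinarith
    rw [this]
    positivity
  · have h1 : qm ^ 2 * T ≤ qm ^ 2 * (16 * (2 * (Q ^ 2 / qm ^ 2) + 4 * (30 + wb + 0))) :=
      mul_le_mul_of_nonneg_left h (sq_nonneg _)
    have h2 : qm ^ 2 * (16 * (2 * (Q ^ 2 / qm ^ 2) + 4 * (30 + wb + 0)))
        = 16 * (2 * Q ^ 2 + 4 * qm ^ 2 * (30 + wb)) := by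
      field_simp
      ring
    rw [h2, hS] at h1
    linarith

end numerics

/-- the tests for the boundaries which are used by `stage_core`: lists of results for one
coefficient vector `u` -/
lemma mm_pos_of_mem {d : ℕ} (t : Fin d → ℝ) (AL : Finset (Fin d)) {l : ℝ}
    (hl : l ∈ AL.image t) : 1 ≤ mm t AL l := by
  obtain ⟨j, hj, rfl⟩ := Finset.mem_image.1 hl
  unfold mm
  rw [Nat.one_le_iff_ne_zero, Finset.card_ne_zero]
  exact ⟨j, Finset.mem_filter.2 ⟨hj, le_rfl⟩⟩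

lemma mm_inj {d : ℕ} (t : Fin d → ℝ) (AL : Finset (Fin d)) :
    Set.InjOn (fun l : ℝ => mm t AL l) (AL.image t : Finset ℝ) := by
  have key : ∀ l l' : ℝ, l' ∈ AL.image t → l < l' → mm t AL l < mm t AL l' := by
    intro l l' hl' hlt
    obtain ⟨j, hj, rfl⟩ := Finset.mem_image.1 hl'
    unfold mm
    apply Finset.card_lt_card
    rw [Finset.ssubset_iff_of_subset]
    · exact ⟨j, Finset.mem_filter.2 ⟨hj, le_rfl⟩, fun h => by
        have := (Finset.mem_filter.1 h).2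
        linarith⟩
    · intro i hi
      rw [Finset.mem_filter] at hi ⊢
      exact ⟨hi.1, by linarith [hi.2]⟩
  intro l hl l' hl' h
  rcases lt_trichotomy l l' with h1 | h1 | h1
  · exact absurd h (key l l' hl' h1).ne
  · exact h1
  · exact absurd h (key l' l hl h1).ne'

/-- **S1b.** the probabilistic core of one stage: see PROOF2.md section 4. -/
theorem stage_core {d : ℕ} (v : ι → Vec d) (hv : ∀ i, ‖v i‖ ≤ 1)
    (t : Fin d → ℝ) (X : Finset ι) (AL : Finset (Fin d))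
    (q : Fin d → ℝ) (Q qm : ℝ) (hq0 : ∀ j ∈ AL, 0 ≤ q j) (hqm : ∀ j ∈ AL, q j ≤ qm)
    (hqm0 : 0 ≤ qm) (hQ : ∑ j ∈ AL, q j ≤ Q)
    (w wb : ℕ) (hw : 1 ≤ w) (hwb : wb = w ∨ (wb = 0 ∧ w = 1))
    (φ₁ φ₂ : ι → ℝ) (h₁ : ∀ i ∈ X, |φ₁ i| ≤ 1 / (2 * (2 ^ w : ℕ)))
    (h₂ : ∀ i ∈ X, |φ₂ i| ≤ 1 / (2 * (2 ^ w : ℕ))) (h12 : w = 1 → φ₁ = φ₂)
    {ℬ 𝒜₁ 𝒜₂ 𝒜₃ : Type} [Fintype ℬ] [DecidableEq ℬ] [Fintype 𝒜₁] [Fintype 𝒜₂] [Fintype 𝒜₃]
    (f : ℬ → ι → ℝ) (hf0 : ∀ b i, 0 ≤ f b i) (sB : ℬ → ℕ)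
    (hf : ∀ i ∈ X, ∑ b, (f b i / (3 * (1 + sB b))) ^ 2 ≤ 1)
    (J₁ : 𝒜₁ → Finset (Fin d)) (x₁ : 𝒜₁ → ℕ)
    (J₂ : 𝒜₂ → Finset (Fin d)) (e₂ : 𝒜₂ → ℝ) (x₂ : 𝒜₂ → ℕ)
    (he₂ : ∀ a, ∑ i ∈ X, ‖proj (J₂ a) (v i)‖ ^ 2 ≤ e₂ a)
    (J₃ : 𝒜₃ → Finset (Fin d)) (X₃ : 𝒜₃ → Finset ι) (l₃ : 𝒜₃ → ℝ) (x₃ : 𝒜₃ → ℕ)
    (hX₃ : ∀ a, X₃ a ⊆ X) (he₃ : ∀ a, ∑ i ∈ X₃ a, ‖proj (J₃ a) (v i)‖ ^ 2 ≤ l₃ a)
    (hx : ∑ b, Real.exp (-(sB b : ℝ)) + ∑ a, Real.exp (-(x₁ a : ℝ)) + ∑ a, Real.exp (-(x₂ a : ℝ))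
      + ∑ a, Real.exp (-(x₃ a : ℝ)) ≤ 90) :
    ∃ c : ι → ℕ, (∀ i ∈ X, c i < 2 ^ w) ∧
      (∀ m, 1 ≤ m → m < 2 ^ w →
        (∀ l : ℝ, ∑ j ∈ AL with t j ≤ l, ((∑ i ∈ X, uco w φ₁ φ₂ c m i • v i) j) ^ 2
          ≤ Gc * (mm t AL l + wb)) ∧
        (∀ a, ‖proj (J₁ a) (∑ i ∈ X, uco w φ₁ φ₂ c m i • v i)‖ ^ 2
          ≤ Gc * ((J₁ a).card + 1 + wb + x₁ a)) ∧
        (∀ a, ‖proj (J₂ a) (∑ i ∈ X, uco w φ₁ φ₂ c m i • v i)‖ ^ 2
          ≤ Gc * (e₂ a + 1 + wb + x₂ a)) ∧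
        (∀ a, ‖∑ i ∈ X₃ a, uco w φ₁ φ₂ c m i • proj (J₃ a) (v i)‖ ^ 2
          ≤ Gc * l₃ a * (1 + wb + x₃ a))) ∧
      (∀ m < 2 ^ w,
        (∀ b, |∑ i ∈ X with c i = m, f b i
            - ∑ i ∈ X, (1 / ((2 ^ w : ℕ) : ℝ) + cellw (2 ^ w) φ₁ φ₂ m i) * f b i|
          ≤ 15000 * (1 + sB b) * Real.sqrt (1 + wb + sB b)) ∧
        (∑ j ∈ AL, ∑ j' ∈ AL, (∑ i ∈ X with c i = m, v i j * v i j'
            - ∑ i ∈ X, (1 / ((2 ^ w : ℕ) : ℝ) + cellw (2 ^ w) φ₁ φ₂ m i) * (v i j * v i j')) ^ 2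
            * (q j * q j') ≤ 160000 * (2 * Q ^ 2 + 4 * qm ^ 2 * (30 + wb))) ∧
        (|((X.filter (fun i => c i = m)).card : ℝ)
            - ∑ i ∈ X, (1 / ((2 ^ w : ℕ) : ℝ) + cellw (2 ^ w) φ₁ φ₂ m i)|
          ≤ 5000 * Real.sqrt (1 + wb))) := by
  classical
  let F : ℬ → ι → ℝ := fun b i => f b i / (3 * (1 + sB b))
  -- the tests
  choose T₀ hT₀e hT₀ using fun l : {l // l ∈ AL.image t} =>
    test_mask (X := X) (ℬ := ℬ) (AL.filter (fun j => t j ≤ (l : ℝ)))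
  choose T₁ hT₁e hT₁ using fun a => test_mask (X := X) (ℬ := ℬ) (J₁ a)
  choose T₂ hT₂e hT₂ using fun a => test_trace (ℬ := ℬ) v (J₂ a) (e₂ a) (he₂ a)
  choose T₃ hT₃e hT₃ using fun a => test_sub (ℬ := ℬ) v (J₃ a) (X₃ a) (hX₃ a) (l₃ a) (he₃ a)
  choose T₄ hT₄e hT₄ using fun b => test_fun (X := X) (d := d) (ℬ := ℬ) b
  obtain ⟨T₅, hT₅e, hT₅⟩ := test_cov (X := X) (ℬ := ℬ) AL q Q qm hq0 hqm hqm0 hQ
  obtain ⟨T₆, hT₆e, hT₆⟩ := test_cnt (X := X) (d := d) (ℬ := ℬ)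
  let TT : {l // l ∈ AL.image t} ⊕ (𝒜₁ ⊕ (𝒜₂ ⊕ (𝒜₃ ⊕ (ℬ ⊕ Bool)))) → QT (KI X d ℬ) :=
    Sum.elim T₀ (Sum.elim T₁ (Sum.elim T₂ (Sum.elim T₃ (Sum.elim T₄ (fun b => if b then T₅ else T₆)))))
  let xx : {l // l ∈ AL.image t} ⊕ (𝒜₁ ⊕ (𝒜₂ ⊕ (𝒜₃ ⊕ (ℬ ⊕ Bool)))) → ℕ :=
    Sum.elim (fun l => mm t AL l) (Sum.elim x₁ (Sum.elim x₂ (Sum.elim x₃ (Sum.elim sB (fun _ => 0)))))
  have hxx : ∑ a, Real.exp (-(xx a : ℝ)) ≤ 93 := by
    rw [Fintype.sum_sum_type, Fintype.sum_sum_type, Fintype.sum_sum_type, Fintype.sum_sum_type,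
      Fintype.sum_sum_type, Fintype.sum_bool]
    have e1 : ∑ l : {l // l ∈ AL.image t}, Real.exp (-(mm t AL (l : ℝ) : ℝ)) ≤ 1 := by
      rw [Finset.sum_coe_sort (AL.image t) (fun l => Real.exp (-(mm t AL l : ℝ)))]
      exact sum_exp_inj _ _ (mm_inj t AL) (fun l hl => mm_pos_of_mem t AL hl)
    simp only [xx, Sum.elim_inl, Sum.elim_inr, Nat.cast_zero, neg_zero, Real.exp_zero]
    linarith
  obtain ⟨c, hc1, hc2, hc3⟩ := partition_tests TT xx w wb hw hwb hxx X (zvec X v AL F)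
    (fun i hi => zvec_norm X v hv AL F hf i hi) φ₁ φ₂ h₁ h₂ h12
  have hwb0 : (0 : ℝ) ≤ wb := Nat.cast_nonneg _
  refine ⟨c, hc1, ?_, ?_⟩
  · intro m hm1 hm
    have H := hc2 m hm1 hm
    set u : ι → ℝ := uco w φ₁ φ₂ c m with hu
    have hmask : ∀ J : Finset (Fin d), ∑ j ∈ J,
        ((∑ i ∈ X, u i • zvec X v AL F i) (Sum.inr (Sum.inl j))) ^ 2
        = (1 / 100) ^ 2 * ∑ j ∈ J, ((∑ i ∈ X, u i • v i) j) ^ 2 := by
      intro J
      rw [Finset.mul_sum]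
      apply Finset.sum_congr rfl
      intro j _
      rw [zsum_lin]
      ring
    have hu100 : ∑ i ∈ X, (1 / 100 * u i) • v i = (1 / 100 : ℝ) • ∑ i ∈ X, u i • v i := by
      rw [Finset.smul_sum]
      apply Finset.sum_congr rfl
      intro i _
      rw [mul_smul]
    refine ⟨?_, ?_, ?_, ?_⟩
    · intro l
      rcases Finset.eq_empty_or_nonempty (AL.filter (fun j => t j ≤ l)) with h | h
      · rw [h, Finset.sum_empty]
        unfold Gc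
        positivity
      · obtain ⟨j₀, hj₀, hmax⟩ := Finset.exists_max_image _ t h
        have hj₀' := Finset.mem_filter.1 hj₀
        have hfil : AL.filter (fun j => t j ≤ t j₀) = AL.filter (fun j => t j ≤ l) := by
          ext j
          rw [Finset.mem_filter, Finset.mem_filter]
          constructor
          · rintro ⟨h1, h2⟩
            exact ⟨h1, h2.trans hj₀'.2⟩
          · rintro ⟨h1, h2⟩
            exact ⟨h1, hmax j (Finset.mem_filter.2 ⟨h1, h2⟩)⟩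
        have hmem : t j₀ ∈ AL.image t := Finset.mem_image_of_mem t hj₀'.1
        have h1 := H (Sum.inl ⟨t j₀, hmem⟩)
        simp only [TT, xx, Sum.elim_inl] at h1
        rw [hT₀, hT₀e, hmask, hfil] at h1
        have hmm : mm t AL (t j₀) = mm t AL l := by
          unfold mm
          rw [hfil]
        have hge : (1 : ℝ) ≤ mm t AL l := by
          rw [← hmm]
          exact_mod_cast mm_pos_of_mem t AL hmem
        rw [hmm] at h1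
        exact num_mask hge hwb0 h1
    · intro a
      have h1 := H (Sum.inr (Sum.inl a))
      simp only [TT, xx, Sum.elim_inl, Sum.elim_inr] at h1
      rw [hT₁, hT₁e, hmask] at h1
      rw [proj_norm_sq]
      exact num_J (Nat.cast_nonneg _) hwb0 (Nat.cast_nonneg _) h1
    · intro a
      have h1 := H (Sum.inr (Sum.inr (Sum.inl a)))
      simp only [TT, xx, Sum.elim_inl, Sum.elim_inr] at h1
      rw [hT₂ a _ (fun i => 1 / 100 * u i) (fun i => zsum_id X v AL F u i)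
        (fun j => by rw [zsum_lin, hu100]; rfl), hT₂e, hu100, proj_smul, norm_smul, mul_pow,
        Real.norm_eq_abs, sq_abs] at h1
      have he0 : 0 ≤ e₂ a := by
        rw [← hT₂e a]
        exact (T₂ a).e_nonneg
      exact num_J he0 hwb0 (Nat.cast_nonneg _) h1
    · intro a
      have h1 := H (Sum.inr (Sum.inr (Sum.inr (Sum.inl a))))
      simp only [TT, xx, Sum.elim_inl, Sum.elim_inr] at h1
      have h2 := hT₃ a (∑ i ∈ X, u i • zvec X v AL F i) (fun i => 1 / 100 * u i)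
        (fun i => zsum_id X v AL F u i)
      have h3 : ∑ i ∈ X₃ a, (1 / 100 * u i) • proj (J₃ a) (v i)
          = (1 / 100 : ℝ) • ∑ i ∈ X₃ a, u i • proj (J₃ a) (v i) := by
        rw [Finset.smul_sum]
        apply Finset.sum_congr rfl
        intro i _
        rw [mul_smul]
      rw [h3, norm_smul, mul_pow, Real.norm_eq_abs, sq_abs] at h2
      rw [hT₃e] at h1
      have hl0 : 0 ≤ l₃ a := (Finset.sum_nonneg fun _ _ => sq_nonneg _).trans (he₃ a)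
      exact num_sub hl0 hwb0 (Nat.cast_nonneg _) h2 h1
  · intro m hm
    have H := hc3 m hm
    set u : ι → ℝ := wco w φ₁ φ₂ c m with hu
    refine ⟨?_, ?_, ?_⟩
    · intro b
      have h1 := H (Sum.inr (Sum.inr (Sum.inr (Sum.inr (Sum.inl b)))))
      simp only [TT, xx, Sum.elim_inl, Sum.elim_inr] at h1
      rw [hT₄, hT₄e, zsum_fun] at h1
      have h2 : ∑ i ∈ X, u i * F b i = (∑ i ∈ X, u i • f b i) / (3 * (1 + sB b)) := by
        rw [Finset.sum_div]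
        apply Finset.sum_congr rfl
        intro i _
        simp only [F, smul_eq_mul]
        ring
      rw [h2, hu, ← err_cell] at h1
      simp only [smul_eq_mul] at h1
      exact num_fun (Nat.cast_nonneg _) hwb0 h1
    · have h1 := H (Sum.inr (Sum.inr (Sum.inr (Sum.inr (Sum.inr true)))))
      simp only [TT, xx, Sum.elim_inr, if_true, Nat.cast_zero] at h1
      rw [hT₅e] at h1
      have h2 := hT₅ (∑ i ∈ X, u i • zvec X v AL F i)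
      have h3 : ∑ j ∈ AL, ∑ j' ∈ AL, ((∑ i ∈ X, u i • zvec X v AL F i)
          (Sum.inr (Sum.inr (Sum.inr (Sum.inl (j, j')))))) ^ 2 * (q j * q j')
          = (1 / 100) ^ 2 * ∑ j ∈ AL, ∑ j' ∈ AL, (∑ i ∈ X with c i = m, v i j * v i j'
            - ∑ i ∈ X, (1 / ((2 ^ w : ℕ) : ℝ) + cellw (2 ^ w) φ₁ φ₂ m i) * (v i j * v i j')) ^ 2
            * (q j * q j') := by
        rw [Finset.mul_sum]
        apply Finset.sum_congr rfl
        intro j hj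
        rw [Finset.mul_sum]
        apply Finset.sum_congr rfl
        intro j' hj'
        rw [zsum_cov X v AL F u hj hj']
        have h4 := err_cell w φ₁ φ₂ c m X (fun i => v i j * v i j')
        simp only [smul_eq_mul] at h4
        rw [h4]
        ring
      rw [h3] at h2
      exact num_cov hqm0 hwb0 h2 h1
    · have h1 := H (Sum.inr (Sum.inr (Sum.inr (Sum.inr (Sum.inr false)))))
      simp only [TT, xx, Sum.elim_inr, Bool.false_eq_true, if_false, Nat.cast_zero] at h1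
      rw [hT₆, hT₆e, zsum_cnt] at h1
      have h4 := err_cell w φ₁ φ₂ c m X (fun _ => (1 : ℝ))
      simp only [smul_eq_mul, mul_one, Finset.sum_const, nsmul_eq_mul] at h4
      rw [hu, ← h4] at h1
      exact num_cnt hwb0 h1

end Vale.Agent.P262B
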