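import Vale.Agent.P262B.S1a
import Vale.Agent.P262B.S1b

/-! `tested_partition` (S1a.lean), `uco` and `stage_core` (S1b.lean). -/
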