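import Vale.Agent.P262B.A4
import Vale.Agent.P262B.B2
import Vale.Agent.P262B.C00

open MeasureTheory ProbabilityTheory
open scoped ENNReal NNReal BigOperators RealInnerProductSpace Pointwise

namespace Vale.Agent.P262B

variable {ι : Type} [DecidableEq ι]

/-- the body cut out by finitely many quadratic tests -/
def testBody {κ : Type} [Fintype κ] {𝒯 : Type}
    {F : Type} [NormedAddCommGroup F] [InnerProductSpace ℝ F]
    (L : 𝒯 → EuclideanSpace ℝ κ →ₗ[ℝ] F) (R : 𝒯 → ℝ) : Set (EuclideanSpace ℝ κ) :=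
  {ζ | ∀ a, ‖L a ζ‖ ^ 2 ≤ R a}

lemma testBody_good {κ : Type} [Fintype κ] {𝒯 : Type}
    {F : Type} [NormedAddCommGroup F] [InnerProductSpace ℝ F]
    (L : 𝒯 → EuclideanSpace ℝ κ →ₗ[ℝ] F) (R : 𝒯 → ℝ) (hR : ∀ a, 0 ≤ R a) :
    GoodBody (testBody L R) := by
  have hset : testBody L R = ⋂ a, {ζ | ‖L a ζ‖ ≤ Real.sqrt (R a)} := by
    ext ζ
    simp only [testBody, Set.mem_ofPred_eq, Set.mem_iInter]
    refine forall_congr' fun a => ?_
    rw [Real.le_sqrt (norm_nonneg _) (hR a)]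
  refine ⟨?_, ?_, ?_⟩
  · rw [hset]
    refine isClosed_iInter fun a => ?_
    exact isClosed_le ((L a).continuous_of_finiteDimensional.norm) continuous_const
  · rw [hset]
    refine convex_iInter fun a => ?_
    have h1 : {ζ | ‖L a ζ‖ ≤ Real.sqrt (R a)} = (L a) ⁻¹' (Metric.closedBall 0 (Real.sqrt (R a))) := by
      ext ζ
      simp
    rw [h1]
    exact (convex_closedBall _ _).linear_preimage (L a)
  · intro x hx a
    rw [map_neg, norm_neg]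
    exact hx a

lemma testBody_smul {κ : Type} [Fintype κ] {𝒯 : Type}
    {F : Type} [NormedAddCommGroup F] [InnerProductSpace ℝ F]
    (L : 𝒯 → EuclideanSpace ℝ κ →ₗ[ℝ] F) (R : 𝒯 → ℝ) (r : ℝ) {u : EuclideanSpace ℝ κ}
    (hu : u ∈ r • testBody L R) (a : 𝒯) : ‖L a u‖ ^ 2 ≤ r ^ 2 * R a := by
  obtain ⟨k, hk, rfl⟩ := Set.mem_smul_set.1 hu
  rw [map_smul, norm_smul, mul_pow, Real.norm_eq_abs, sq_abs]
  exact mul_le_mul_of_nonneg_left (hk a) (sq_nonneg r)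

/-- **S1a.** tilted partition + finitely many quadratic tests (A4 + tilted_partition applied to
`K = {ζ | ∀ a, ‖L a ζ‖ ^ 2 ≤ R a}`). -/
theorem tested_partition {κ : Type} [Fintype κ] [DecidableEq κ] {𝒯 : Type} [Fintype 𝒯]
    {F : Type} [NormedAddCommGroup F] [InnerProductSpace ℝ F] [FiniteDimensional ℝ F]
    (L : 𝒯 → EuclideanSpace ℝ κ →ₗ[ℝ] F) (hL : ∀ a ζ, ‖L a ζ‖ ≤ ‖ζ‖) (e R : 𝒯 → ℝ)
    (hR : ∀ a, 0 ≤ R a)
    (he : ∀ a, ∑ k, ‖L a (EuclideanSpace.single k 1)‖ ^ 2 ≤ e a)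
    (M : ℕ) (hM : M = 2 ∨ 4 ≤ M)
    (hsum : ∑ a, Real.exp (e a / 2 - R a / 4) ≤ eps0 / (2 * M))
    (X : Finset ι) (z : ι → EuclideanSpace ℝ κ) (hz : ∀ i ∈ X, ‖z i‖ ≤ 1 / 40)
    (φ₁ φ₂ : ι → ℝ) (h₁ : ∀ i ∈ X, |φ₁ i| ≤ 1 / (2 * M)) (h₂ : ∀ i ∈ X, |φ₂ i| ≤ 1 / (2 * M))
    (h2 : M = 2 → φ₁ = φ₂) :
    ∃ c : ι → ℕ, (∀ i ∈ X, c i < M) ∧
      (∀ k, 1 ≤ k → k < M → ∀ a,
        ‖L a (∑ i ∈ X with c i < k, z i - ((k : ℝ) / M) • ∑ i ∈ X, z i
          + ∑ i ∈ X, ((1 - tht M k) * φ₁ i + tht M k * φ₂ i) • z i)‖ ^ 2 ≤ 9 * R a) ∧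
      (∀ k < M, ∀ a, ‖L a (∑ i ∈ X with c i = k, z i
          - ∑ i ∈ X, (1 / (M : ℝ) + cellw M φ₁ φ₂ k i) • z i)‖ ^ 2 ≤ 16 * R a) := by
  have hK : GoodBody (testBody L R) := testBody_good L R hR
  have hMpos : (0 : ℝ) < M := by
    have : 0 < M := by omega
    exact_mod_cast this
  have hcompl : (testBody L R)ᶜ = ⋃ a, {ζ | R a < ‖L a ζ‖ ^ 2} := by
    ext ζ
    simp only [testBody, Set.mem_compl_iff, Set.mem_ofPred_eq, not_forall, not_le, Set.mem_iUnion]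
  have hγ0 : stdGaussian (EuclideanSpace ℝ κ) (testBody L R)ᶜ
      ≤ ENNReal.ofReal (eps0 / (2 * M)) := by
    rw [hcompl]
    refine (measure_iUnion_fintype_le _ _).trans ?_
    calc ∑ a, stdGaussian (EuclideanSpace ℝ κ) {ζ | R a < ‖L a ζ‖ ^ 2}
        ≤ ∑ a, ENNReal.ofReal (Real.exp (e a / 2 - R a / 4)) :=
          Finset.sum_le_sum fun a _ => stdGaussian_quad_tail (L a) (hL a) (e a) (R a) (he a)
      _ = ENNReal.ofReal (∑ a, Real.exp (e a / 2 - R a / 4)) := by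
          rw [ENNReal.ofReal_sum_of_nonneg fun a _ => (Real.exp_pos _).le]
      _ ≤ ENNReal.ofReal (eps0 / (2 * M)) := ENNReal.ofReal_le_ofReal hsum
  have hγ : 2 * (M : ℝ≥0∞) * stdGaussian (EuclideanSpace ℝ κ) (testBody L R)ᶜ
      ≤ ENNReal.ofReal eps0 := by
    calc 2 * (M : ℝ≥0∞) * stdGaussian (EuclideanSpace ℝ κ) (testBody L R)ᶜ
        ≤ 2 * (M : ℝ≥0∞) * ENNReal.ofReal (eps0 / (2 * M)) := by gcongr
      _ = ENNReal.ofReal (2 * M) * ENNReal.ofReal (eps0 / (2 * M)) := by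
          congr 1
          rw [ENNReal.ofReal_mul (by norm_num), ENNReal.ofReal_natCast]
          norm_num
      _ = ENNReal.ofReal eps0 := by
          rw [← ENNReal.ofReal_mul (by positivity)]
          congr 1
          field_simp
  obtain ⟨c, hc, hb, hcell⟩ := tilted_partition (testBody L R) hK M hM hγ X z hz φ₁ φ₂ h₁ h₂ h2
  refine ⟨c, hc, ?_, ?_⟩
  · intro k hk1 hk a
    have := testBody_smul L R 3 (hb k hk1 hk) a
    norm_num at this ⊢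
    exact this
  · intro k hk a
    have := testBody_smul L R 4 (hcell k hk) a
    norm_num at this ⊢
    exact this

end Vale.Agent.P262B
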