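import Vale.Agent.P262B.C00

/-! Quadratic tests: preparatory lemmas for `stage_core`. -/

open scoped BigOperators RealInnerProductSpace

namespace Vale.Agent.P262B

/-- quadratic test on `EuclideanSpace ℝ κ`: a contraction with squared Hilbert–Schmidt norm `≤ e` -/
structure QT (κ : Type) [Fintype κ] [DecidableEq κ] where
  L : EuclideanSpace ℝ κ →ₗ[ℝ] EuclideanSpace ℝ κ
  e : ℝ
  contr : ∀ ζ, ‖L ζ‖ ≤ ‖ζ‖
  hs : ∑ k, ‖L (EuclideanSpace.single k 1)‖ ^ 2 ≤ e

section general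

variable {κ : Type} [Fintype κ] [DecidableEq κ]

lemma QT.e_nonneg (T : QT κ) : 0 ≤ T.e :=
  (Finset.sum_nonneg fun _ _ => sq_nonneg _).trans T.hs

/-- multiplication of the coordinates by `w` -/
noncomputable def diagMap (w : κ → ℝ) : EuclideanSpace ℝ κ →ₗ[ℝ] EuclideanSpace ℝ κ where
  toFun ζ := WithLp.toLp 2 (fun k => w k * ζ k)
  map_add' x y := by
    ext k
    simp [mul_add]
  map_smul' a x := by
    ext k
    simp only [PiLp.smul_apply, smul_eq_mul, RingHom.id_apply]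
    ring

omit [Fintype κ] [DecidableEq κ] in
@[simp] lemma diagMap_apply (w : κ → ℝ) (ζ : EuclideanSpace ℝ κ) (k : κ) :
    diagMap w ζ k = w k * ζ k := rfl

omit [DecidableEq κ] in
lemma diagMap_norm_sq (w : κ → ℝ) (ζ : EuclideanSpace ℝ κ) :
    ‖diagMap w ζ‖ ^ 2 = ∑ k, (w k * ζ k) ^ 2 := by
  rw [EuclideanSpace.real_norm_sq_eq]
  rfl

/-- a diagonal test -/
noncomputable def QT.diag (w : κ → ℝ) (hw : ∀ k, |w k| ≤ 1) (e : ℝ) (he : ∑ k, w k ^ 2 ≤ e) :
    QT κ where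
  L := diagMap w
  e := e
  contr ζ := by
    apply abs_le_of_sq_le_sq' _ (norm_nonneg _) |>.2
    rw [diagMap_norm_sq, EuclideanSpace.real_norm_sq_eq]
    apply Finset.sum_le_sum
    intro k _
    rw [mul_pow]
    have : w k ^ 2 ≤ 1 := (sq_le_one_iff_abs_le_one _).2 (hw k)
    nlinarith [sq_nonneg (ζ k)]
  hs := by
    refine le_trans (le_of_eq ?_) he
    apply Finset.sum_congr rfl
    intro k _
    rw [diagMap_norm_sq]
    rw [Finset.sum_eq_single k]
    · simp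
    · intro b _ hb
      simp [hb]
    · intro h
      exact absurd (Finset.mem_univ k) h

variable {κ' : Type} [Fintype κ'] [DecidableEq κ']

omit [DecidableEq κ] [DecidableEq κ'] in
lemma adj_contr (A : EuclideanSpace ℝ κ' →ₗ[ℝ] EuclideanSpace ℝ κ) (hA : ∀ x, ‖A x‖ ≤ ‖x‖)
    (ζ : EuclideanSpace ℝ κ) : ‖LinearMap.adjoint A ζ‖ ≤ ‖ζ‖ := by
  have h1 : ‖LinearMap.adjoint A ζ‖ ^ 2 ≤ ‖ζ‖ * ‖LinearMap.adjoint A ζ‖ := by
    rw [← real_inner_self_eq_norm_sq, LinearMap.adjoint_inner_left]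
    refine (real_inner_le_norm _ _).trans ?_
    exact mul_le_mul_of_nonneg_left (hA _) (norm_nonneg _)
  rcases eq_or_lt_of_le (norm_nonneg (LinearMap.adjoint A ζ)) with h | h
  · rw [← h]; exact norm_nonneg _
  · rw [sq] at h1
    exact le_of_mul_le_mul_right h1 h

lemma adj_hs (A : EuclideanSpace ℝ κ' →ₗ[ℝ] EuclideanSpace ℝ κ) :
    ∑ k, ‖LinearMap.adjoint A (EuclideanSpace.single k 1)‖ ^ 2
      = ∑ j, ‖A (EuclideanSpace.single j 1)‖ ^ 2 := by
  have h1 : ∀ k, ‖LinearMap.adjoint A (EuclideanSpace.single k 1)‖ ^ 2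
      = ∑ j, (A (EuclideanSpace.single j 1) k) ^ 2 := by
    intro k
    rw [EuclideanSpace.real_norm_sq_eq]
    apply Finset.sum_congr rfl
    intro j _
    congr 1
    have h2 : ⟪LinearMap.adjoint A (EuclideanSpace.single k (1 : ℝ)), EuclideanSpace.single j (1 : ℝ)⟫
        = ⟪EuclideanSpace.single k (1 : ℝ), A (EuclideanSpace.single j (1 : ℝ))⟫ :=
      LinearMap.adjoint_inner_left _ _ _
    rw [EuclideanSpace.inner_single_left, EuclideanSpace.inner_single_right] at h2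
    simpa using h2
  simp_rw [h1]
  rw [Finset.sum_comm]
  apply Finset.sum_congr rfl
  intro j _
  rw [EuclideanSpace.real_norm_sq_eq]

/-- a test given by the adjoint of `A : Vec d → EuclideanSpace ℝ κ` -/
noncomputable def QT.adj (A : EuclideanSpace ℝ κ' →ₗ[ℝ] EuclideanSpace ℝ κ)
    (hA : ∀ x, ‖A x‖ ≤ ‖x‖) (emb : EuclideanSpace ℝ κ' →ₗᵢ[ℝ] EuclideanSpace ℝ κ) (e : ℝ)
    (he : ∑ j, ‖A (EuclideanSpace.single j 1)‖ ^ 2 ≤ e) : QT κ where
  L := emb.toLinearMap ∘ₗ LinearMap.adjoint A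
  e := e
  contr ζ := by
    rw [LinearMap.comp_apply, LinearIsometry.coe_toLinearMap, LinearIsometry.norm_map]
    exact adj_contr A hA ζ
  hs := by
    refine le_trans (le_of_eq ?_) he
    rw [← adj_hs A]
    apply Finset.sum_congr rfl
    intro k _
    rw [LinearMap.comp_apply, LinearIsometry.coe_toLinearMap, LinearIsometry.norm_map]

lemma QT.adj_norm (A : EuclideanSpace ℝ κ' →ₗ[ℝ] EuclideanSpace ℝ κ)
    (hA : ∀ x, ‖A x‖ ≤ ‖x‖) (emb : EuclideanSpace ℝ κ' →ₗᵢ[ℝ] EuclideanSpace ℝ κ) (e : ℝ)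
    (he : ∑ j, ‖A (EuclideanSpace.single j 1)‖ ^ 2 ≤ e) (ζ : EuclideanSpace ℝ κ)
    (τ : EuclideanSpace ℝ κ') (h : ∀ x, ⟪ζ, A x⟫ = ⟪τ, x⟫) :
    ‖(QT.adj A hA emb e he).L ζ‖ = ‖τ‖ := by
  have h1 : LinearMap.adjoint A ζ = τ := by
    apply ext_inner_right ℝ
    intro x
    rw [LinearMap.adjoint_inner_left, h]
  change ‖(emb.toLinearMap ∘ₗ LinearMap.adjoint A) ζ‖ = ‖τ‖
  rw [LinearMap.comp_apply, LinearIsometry.coe_toLinearMap, LinearIsometry.norm_map, h1]

end general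

section resolvent

variable {F : Type*} [NormedAddCommGroup F] [InnerProductSpace ℝ F] [FiniteDimensional ℝ F]
variable {ι : Type*} (X : Finset ι) (p : ι → F)

/-- `y ↦ ∑ ⟨p_i, y⟩ p_i` -/
noncomputable def SS : F →ₗ[ℝ] F := ∑ i ∈ X, (innerₛₗ ℝ (p i)).smulRight (p i)

omit [FiniteDimensional ℝ F] in
lemma SS_apply (y : F) : SS X p y = ∑ i ∈ X, ⟪p i, y⟫ • p i := by
  simp [SS]

omit [FiniteDimensional ℝ F] in
lemma SS_inner (x y : F) : ⟪SS X p x, y⟫ = ∑ i ∈ X, ⟪p i, x⟫ * ⟪p i, y⟫ := by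
  rw [SS_apply, sum_inner]
  apply Finset.sum_congr rfl
  intro i _
  rw [real_inner_smul_left]

omit [FiniteDimensional ℝ F] in
lemma SS_symm (x y : F) : ⟪SS X p x, y⟫ = ⟪x, SS X p y⟫ := by
  rw [real_inner_comm (SS X p y) x, SS_inner, SS_inner]
  apply Finset.sum_congr rfl
  intro i _
  ring

omit [FiniteDimensional ℝ F] in
lemma SS_nonneg (x : F) : 0 ≤ ⟪SS X p x, x⟫ := by
  rw [SS_inner]
  exact Finset.sum_nonneg fun i _ => mul_self_nonneg _

/-- the resolvent: for every `x` there is `y` with `x = y + S y`, linearly in `x` -/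
lemma exists_resolvent : ∃ R : F →ₗ[ℝ] F, ∀ x, R x + SS X p (R x) = x := by
  have hinj : Function.Injective (LinearMap.id + SS X p : F →ₗ[ℝ] F) := by
    rw [← LinearMap.ker_eq_bot, LinearMap.ker_eq_bot']
    intro y hy
    have h1 : ⟪y + SS X p y, y⟫ = 0 := by
      have : y + SS X p y = 0 := hy
      rw [this, inner_zero_left]
    rw [inner_add_left, real_inner_self_eq_norm_sq] at h1
    have h2 := SS_nonneg X p y
    have h3 : ‖y‖ ^ 2 = 0 := le_antisymm (by linarith) (sq_nonneg _)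
    simpa using h3
  let e := LinearEquiv.ofInjectiveEndo _ hinj
  refine ⟨e.symm.toLinearMap, fun x => ?_⟩
  have : e (e.symm x) = x := e.apply_symm_apply x
  exact this

end resolvent

end Vale.Agent.P262B
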