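import Vale.Agent.P262B.S1b0

/-! The index type of `stage_core` and its quadratic tests. -/

open scoped BigOperators RealInnerProductSpace

namespace Vale.Agent.P262B

/-- index type of the test vectors -/
abbrev KI {ι : Type} (X : Finset ι) (d : ℕ) (ℬ : Type) : Type :=
  {i // i ∈ X} ⊕ (Fin d ⊕ (ℬ ⊕ ((Fin d × Fin d) ⊕ Unit)))

section mk

variable {ι : Type} [DecidableEq ι] {X : Finset ι} {d : ℕ} {ℬ : Type} [Fintype ℬ] [DecidableEq ℬ]

/-- a vector with given identity part and linear part -/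
noncomputable def mkV (P : {i // i ∈ X} → ℝ) (B : Fin d → ℝ) : EuclideanSpace ℝ (KI X d ℬ) :=
  WithLp.toLp 2 (Sum.elim P (Sum.elim B (fun _ => 0)))

/-- a linear map with given identity part and linear part -/
noncomputable def mkA (P : Vec d →ₗ[ℝ] EuclideanSpace ℝ {i // i ∈ X}) (B : Vec d →ₗ[ℝ] Vec d) :
    Vec d →ₗ[ℝ] EuclideanSpace ℝ (KI X d ℬ) where
  toFun x := mkV (P x) (B x)
  map_add' x y := by
    ext k
    rcases k with i | j | b
    · simp [mkV]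
    · simp [mkV]
    · simp [mkV]
  map_smul' a x := by
    ext k
    rcases k with i | j | b
    · simp [mkV]
    · simp [mkV]
    · simp [mkV]

omit [DecidableEq ι] [DecidableEq ℬ] in
lemma mkV_inner (ζ : EuclideanSpace ℝ (KI X d ℬ)) (P : {i // i ∈ X} → ℝ) (B : Fin d → ℝ) :
    ⟪ζ, mkV P B⟫ = ∑ i, ζ (Sum.inl i) * P i + ∑ j, ζ (Sum.inr (Sum.inl j)) * B j := by
  rw [PiLp.inner_apply, Fintype.sum_sum_type, Fintype.sum_sum_type]
  simp [mkV, mul_comm]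

omit [DecidableEq ι] [DecidableEq ℬ] in
lemma mkV_norm_sq (P : {i // i ∈ X} → ℝ) (B : Fin d → ℝ) :
    ‖(mkV P B : EuclideanSpace ℝ (KI X d ℬ))‖ ^ 2 = ∑ i, P i ^ 2 + ∑ j, B j ^ 2 := by
  rw [EuclideanSpace.real_norm_sq_eq, Fintype.sum_sum_type, Fintype.sum_sum_type]
  simp [mkV]

/-- embedding of `Vec d` -/
noncomputable def embV : Vec d →ₗᵢ[ℝ] EuclideanSpace ℝ (KI X d ℬ) where
  toLinearMap := mkA 0 LinearMap.id
  norm_map' x := by
    have h : ‖(mkA 0 LinearMap.id : Vec d →ₗ[ℝ] EuclideanSpace ℝ (KI X d ℬ)) x‖ ^ 2 = ‖x‖ ^ 2 := by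
      change ‖(mkV _ _ : EuclideanSpace ℝ (KI X d ℬ))‖ ^ 2 = _
      rw [mkV_norm_sq, EuclideanSpace.real_norm_sq_eq]
      simp
    exact (sq_eq_sq₀ (norm_nonneg _) (norm_nonneg _)).1 h

end mk

section projlem

variable {d : ℕ}

lemma proj_apply (J : Finset (Fin d)) (x : Vec d) (j : Fin d) :
    proj J x j = if j ∈ J then x j else 0 := rfl

lemma proj_smul (J : Finset (Fin d)) (a : ℝ) (x : Vec d) : proj J (a • x) = a • proj J x := by
  ext j
  simp only [proj_apply, PiLp.smul_apply, smul_eq_mul]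
  split_ifs <;> simp

lemma proj_sum {ι : Type*} (J : Finset (Fin d)) (X : Finset ι) (w : ι → Vec d) :
    proj J (∑ i ∈ X, w i) = ∑ i ∈ X, proj J (w i) := by
  ext j
  simp only [proj_apply, WithLp.ofLp_sum, Finset.sum_apply]
  split_ifs <;> simp

lemma inner_proj_right (J : Finset (Fin d)) (x y : Vec d) :
    ⟪x, proj J y⟫ = ⟪proj J x, proj J y⟫ := by
  rw [PiLp.inner_apply, PiLp.inner_apply]
  apply Finset.sum_congr rfl
  intro j _
  rw [proj_apply, proj_apply]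
  split_ifs <;> simp

lemma proj_norm_sq (J : Finset (Fin d)) (x : Vec d) : ‖proj J x‖ ^ 2 = ∑ j ∈ J, x j ^ 2 := by
  rw [EuclideanSpace.real_norm_sq_eq]
  have : ∀ j, (proj J x j) ^ 2 = if j ∈ J then x j ^ 2 else 0 := by
    intro j
    rw [proj_apply]
    split_ifs <;> simp
  simp_rw [this]
  rw [← Finset.sum_filter]
  simp

end projlem

section tests

variable {ι : Type} [DecidableEq ι] {X : Finset ι} {d : ℕ} {ℬ : Type} [Fintype ℬ] [DecidableEq ℬ]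

/-- the resolvent test -/
lemma test_trace (v : ι → Vec d) (J : Finset (Fin d)) (e : ℝ)
    (he : ∑ i ∈ X, ‖proj J (v i)‖ ^ 2 ≤ e) :
    ∃ T : QT (KI X d ℬ), T.e = e ∧ ∀ (ζ : EuclideanSpace ℝ (KI X d ℬ)) (u : ι → ℝ),
      (∀ i, ζ (Sum.inl i) = u i) → (∀ j, ζ (Sum.inr (Sum.inl j)) = (∑ i ∈ X, u i • v i) j) →
      ‖T.L ζ‖ ^ 2 = ‖proj J (∑ i ∈ X, u i • v i)‖ ^ 2 := by
  let p : ι → Vec d := fun i => proj J (v i)
  obtain ⟨R, hR⟩ := exists_resolvent X p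
  let P : Vec d →ₗ[ℝ] EuclideanSpace ℝ {i // i ∈ X} :=
    { toFun := fun x => WithLp.toLp 2 (fun i => ⟪p i, R x⟫)
      map_add' := fun x y => by
        ext i
        simp [inner_add_right]
      map_smul' := fun a x => by
        ext i
        simp [real_inner_smul_right] }
  let B : Vec d →ₗ[ℝ] Vec d := SS X p ∘ₗ R
  have hPs : ∀ x, ∑ i, (P x i) ^ 2 = ⟪SS X p (R x), R x⟫ := by
    intro x
    rw [SS_inner, ← Finset.sum_coe_sort X]
    apply Finset.sum_congr rfl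
    intro i _
    change ⟪p i, R x⟫ ^ 2 = _
    ring
  have hBs : ∀ x, ∑ j, (B x j) ^ 2 = ⟪SS X p (R x), SS X p (R x)⟫ := by
    intro x
    rw [real_inner_self_eq_norm_sq, EuclideanSpace.real_norm_sq_eq]
    rfl
  have hAn : ∀ x, ‖(mkA P B : Vec d →ₗ[ℝ] EuclideanSpace ℝ (KI X d ℬ)) x‖ ^ 2
      = ⟪SS X p (R x), x⟫ := by
    intro x
    change ‖(mkV (P x) (B x) : EuclideanSpace ℝ (KI X d ℬ))‖ ^ 2 = _
    rw [mkV_norm_sq, hPs, hBs, ← inner_add_right, hR]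
  have hle : ∀ x, ⟪SS X p (R x), x⟫ ≤ ⟪SS X p x, x⟫ := by
    intro x
    have h1 : ⟪SS X p x, x⟫ - ⟪SS X p (R x), x⟫ = ⟪SS X p (SS X p (R x)), R x + SS X p (R x)⟫ := by
      rw [hR, ← inner_sub_left, ← map_sub]
      congr 2
      nth_rewrite 1 [← hR x]
      abel_nf
    rw [inner_add_right, SS_symm X p (SS X p (R x)) (R x), real_inner_self_eq_norm_sq] at h1
    have h2 := SS_nonneg X p (SS X p (R x))
    have h3 := sq_nonneg ‖SS X p (R x)‖
    linarith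
  have hcon : ∀ x, ‖(mkA P B : Vec d →ₗ[ℝ] EuclideanSpace ℝ (KI X d ℬ)) x‖ ≤ ‖x‖ := by
    intro x
    have h1 : ‖(mkA P B : Vec d →ₗ[ℝ] EuclideanSpace ℝ (KI X d ℬ)) x‖ ^ 2 ≤ ‖x‖ ^ 2 := by
      rw [hAn]
      have h2 : ‖x‖ ^ 2 = ⟪R x + SS X p (R x), x⟫ := by
        rw [hR, real_inner_self_eq_norm_sq]
      rw [h2, inner_add_left]
      have h3 : 0 ≤ ⟪R x, x⟫ := by
        have : ⟪R x, x⟫ = ⟪R x, R x + SS X p (R x)⟫ := by rw [hR]
        rw [this, inner_add_right, real_inner_self_eq_norm_sq, ← SS_symm]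
        have h4 := SS_nonneg X p (R x)
        positivity
      linarith
    exact (sq_le_sq₀ (norm_nonneg _) (norm_nonneg _)).1 h1
  have hHS : ∑ j, ‖(mkA P B : Vec d →ₗ[ℝ] EuclideanSpace ℝ (KI X d ℬ))
      (EuclideanSpace.single j 1)‖ ^ 2 ≤ e := by
    refine le_trans ?_ he
    have h1 : ∀ j : Fin d, ‖(mkA P B : Vec d →ₗ[ℝ] EuclideanSpace ℝ (KI X d ℬ))
      (EuclideanSpace.single j 1)‖ ^ 2 ≤ ∑ i ∈ X, (p i j) ^ 2 := by
      intro j
      rw [hAn]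
      refine (hle _).trans (le_of_eq ?_)
      rw [SS_inner]
      apply Finset.sum_congr rfl
      intro i _
      rw [EuclideanSpace.inner_single_right]
      simp
      ring
    refine (Finset.sum_le_sum fun j _ => h1 j).trans (le_of_eq ?_)
    rw [Finset.sum_comm]
    apply Finset.sum_congr rfl
    intro i _
    rw [EuclideanSpace.real_norm_sq_eq]
  refine ⟨QT.adj (mkA P B) hcon embV e hHS, rfl, ?_⟩
  intro ζ u hζ1 hζ2
  congr 1
  apply QT.adj_norm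
  intro x
  change ⟪ζ, mkV (P x) (B x)⟫ = _
  rw [mkV_inner]
  have h1 : ∑ i, ζ (Sum.inl i) * P x i = ⟪∑ i ∈ X, u i • p i, R x⟫ := by
    rw [sum_inner, ← Finset.sum_coe_sort X]
    apply Finset.sum_congr rfl
    intro i _
    rw [hζ1 i, real_inner_smul_left]
    rfl
  have h2 : ∑ j, ζ (Sum.inr (Sum.inl j)) * B x j = ⟪∑ i ∈ X, u i • p i, SS X p (R x)⟫ := by
    have h3 : ∑ j, ζ (Sum.inr (Sum.inl j)) * B x j
        = ⟪∑ i ∈ X, u i • v i, SS X p (R x)⟫ := by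
      rw [PiLp.inner_apply]
      apply Finset.sum_congr rfl
      intro j _
      rw [hζ2 j]
      simp [B, mul_comm]
    rw [h3, SS_apply, inner_sum, inner_sum]
    apply Finset.sum_congr rfl
    intro i _
    rw [real_inner_smul_right, real_inner_smul_right, inner_proj_right]
    congr 2
    rw [proj_sum]
    apply Finset.sum_congr rfl
    intro i' _
    rw [proj_smul]
  have h4 : proj J (∑ i ∈ X, u i • v i) = ∑ i ∈ X, u i • p i := by
    rw [proj_sum]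
    apply Finset.sum_congr rfl
    intro i' _
    rw [proj_smul]
  rw [h1, h2, ← inner_add_right, hR, h4]

/-- the test for sums over a subset -/
lemma test_sub (v : ι → Vec d) (J : Finset (Fin d)) (X₃ : Finset ι) (hX₃ : X₃ ⊆ X) (l : ℝ)
    (hl : ∑ i ∈ X₃, ‖proj J (v i)‖ ^ 2 ≤ l) :
    ∃ T : QT (KI X d ℬ), T.e = 1 ∧ ∀ (ζ : EuclideanSpace ℝ (KI X d ℬ)) (u : ι → ℝ),
      (∀ i, ζ (Sum.inl i) = u i) →
      l * ‖T.L ζ‖ ^ 2 = ‖∑ i ∈ X₃, u i • proj J (v i)‖ ^ 2 := by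
  have hl0 : 0 ≤ l := (Finset.sum_nonneg fun _ _ => sq_nonneg _).trans hl
  let s : ℝ := (Real.sqrt l)⁻¹
  have hs0 : 0 ≤ s := inv_nonneg.2 (Real.sqrt_nonneg _)
  have hs2 : s ^ 2 = l⁻¹ := by
    rw [inv_pow, Real.sq_sqrt hl0]
  have hsl : s ^ 2 * ∑ i ∈ X₃, ‖proj J (v i)‖ ^ 2 ≤ 1 := by
    rw [hs2]
    rcases eq_or_lt_of_le hl0 with h | h
    · rw [← h]; simp
    · rw [inv_mul_le_iff₀ h, mul_one]
      exact hl
  let P : Vec d →ₗ[ℝ] EuclideanSpace ℝ {i // i ∈ X} :=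
    { toFun := fun x => WithLp.toLp 2 (fun i => if (i : ι) ∈ X₃ then s * ⟪proj J (v i), x⟫ else 0)
      map_add' := fun x y => by
        ext i
        simp only [inner_add_right, PiLp.add_apply]
        split_ifs <;> ring
      map_smul' := fun a x => by
        ext i
        simp only [real_inner_smul_right, PiLp.smul_apply, smul_eq_mul, RingHom.id_apply]
        split_ifs <;> ring }
  have hPs : ∀ x, ‖(mkA P 0 : Vec d →ₗ[ℝ] EuclideanSpace ℝ (KI X d ℬ)) x‖ ^ 2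
      = s ^ 2 * ∑ i ∈ X₃, ⟪proj J (v i), x⟫ ^ 2 := by
    intro x
    change ‖(mkV (P x) _ : EuclideanSpace ℝ (KI X d ℬ))‖ ^ 2 = _
    rw [mkV_norm_sq]
    have h1 : ∑ j : Fin d, ((0 : Vec d →ₗ[ℝ] Vec d) x j) ^ 2 = 0 := by simp
    rw [h1, add_zero, Finset.mul_sum]
    have h2 : ∀ i : {i // i ∈ X}, (P x i) ^ 2
        = (fun i : ι => if i ∈ X₃ then s ^ 2 * ⟪proj J (v i), x⟫ ^ 2 else 0) i := by
      intro i
      change (if (i : ι) ∈ X₃ then s * ⟪proj J (v i), x⟫ else 0) ^ 2 = _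
      simp only
      split_ifs <;> ring
    simp_rw [h2]
    rw [Finset.sum_coe_sort X (fun i : ι => if i ∈ X₃ then s ^ 2 * ⟪proj J (v i), x⟫ ^ 2 else 0),
      ← Finset.sum_filter, Finset.filter_mem_eq_inter, Finset.inter_eq_right.2 hX₃]
  have hcon : ∀ x, ‖(mkA P 0 : Vec d →ₗ[ℝ] EuclideanSpace ℝ (KI X d ℬ)) x‖ ≤ ‖x‖ := by
    intro x
    have h1 : ‖(mkA P 0 : Vec d →ₗ[ℝ] EuclideanSpace ℝ (KI X d ℬ)) x‖ ^ 2 ≤ ‖x‖ ^ 2 := by
      rw [hPs]
      have h2 : ∑ i ∈ X₃, ⟪proj J (v i), x⟫ ^ 2 ≤ (∑ i ∈ X₃, ‖proj J (v i)‖ ^ 2) * ‖x‖ ^ 2 := by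
        rw [Finset.sum_mul]
        apply Finset.sum_le_sum
        intro i _
        rw [← mul_pow]
        have := abs_real_inner_le_norm (proj J (v i)) x
        exact sq_le_sq' (abs_le.1 this).1 (abs_le.1 this).2
      calc s ^ 2 * ∑ i ∈ X₃, ⟪proj J (v i), x⟫ ^ 2
          ≤ s ^ 2 * ((∑ i ∈ X₃, ‖proj J (v i)‖ ^ 2) * ‖x‖ ^ 2) := by gcongr
        _ = (s ^ 2 * ∑ i ∈ X₃, ‖proj J (v i)‖ ^ 2) * ‖x‖ ^ 2 := by ring
        _ ≤ 1 * ‖x‖ ^ 2 := by gcongr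
        _ = ‖x‖ ^ 2 := one_mul _
    exact (sq_le_sq₀ (norm_nonneg _) (norm_nonneg _)).1 h1
  have hHS : ∑ j, ‖(mkA P 0 : Vec d →ₗ[ℝ] EuclideanSpace ℝ (KI X d ℬ))
      (EuclideanSpace.single j 1)‖ ^ 2 ≤ 1 := by
    refine le_trans (le_of_eq ?_) hsl
    simp_rw [hPs]
    rw [← Finset.mul_sum, Finset.sum_comm]
    congr 1
    apply Finset.sum_congr rfl
    intro i _
    rw [EuclideanSpace.real_norm_sq_eq]
    apply Finset.sum_congr rfl
    intro j _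
    rw [EuclideanSpace.inner_single_right]
    simp
  refine ⟨QT.adj (mkA P 0) hcon embV 1 hHS, rfl, ?_⟩
  intro ζ u hζ1
  have h3 : ‖(QT.adj (mkA P 0) hcon embV 1 hHS : QT (KI X d ℬ)).L ζ‖
      = ‖s • ∑ i ∈ X₃, u i • proj J (v i)‖ := by
    apply QT.adj_norm
    intro x
    change ⟪ζ, mkV (P x) _⟫ = _
    rw [mkV_inner]
    have h1 : ∑ j : Fin d, ζ (Sum.inr (Sum.inl j)) * ((0 : Vec d →ₗ[ℝ] Vec d) x j) = 0 := by simp
    rw [h1, add_zero, real_inner_smul_left, sum_inner, Finset.mul_sum]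
    have h2 : ∀ i : {i // i ∈ X}, ζ (Sum.inl i) * P x i
        = (fun i : ι => if i ∈ X₃ then s * ⟪u i • proj J (v i), x⟫ else 0) i := by
      intro i
      rw [hζ1 i]
      change u i * (if (i : ι) ∈ X₃ then s * ⟪proj J (v i), x⟫ else 0) = _
      simp only [real_inner_smul_left]
      split_ifs <;> ring
    simp_rw [h2]
    rw [Finset.sum_coe_sort X (fun i : ι => if i ∈ X₃ then s * ⟪u i • proj J (v i), x⟫ else 0),
      ← Finset.sum_filter, Finset.filter_mem_eq_inter, Finset.inter_eq_right.2 hX₃]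
  rw [h3, norm_smul, mul_pow, Real.norm_eq_abs, sq_abs, hs2]
  rcases eq_or_lt_of_le hl0 with h | h
  · have hz : ∀ i ∈ X₃, proj J (v i) = 0 := by
      intro i hi
      have h4 : ∑ i ∈ X₃, ‖proj J (v i)‖ ^ 2 = 0 :=
        le_antisymm (by rw [h]; exact hl) (Finset.sum_nonneg fun _ _ => sq_nonneg _)
      have h5 := (Finset.sum_eq_zero_iff_of_nonneg (fun _ _ => sq_nonneg _)).1 h4 i hi
      simpa using h5
    have h6 : ∑ i ∈ X₃, u i • proj J (v i) = 0 := by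
      apply Finset.sum_eq_zero
      intro i hi
      rw [hz i hi, smul_zero]
    rw [h6, norm_zero]
    simp
  · rw [← mul_assoc, mul_inv_cancel₀ h.ne', one_mul]

end tests

end Vale.Agent.P262B
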