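import Vale.Agent.P262B.S1b1

/-! Diagonal tests. -/

open scoped BigOperators RealInnerProductSpace

namespace Vale.Agent.P262B

variable {ι : Type} [DecidableEq ι] {X : Finset ι} {d : ℕ} {ℬ : Type} [Fintype ℬ] [DecidableEq ℬ]

/-- weights on the index type -/
noncomputable def wKI (X : Finset ι) (wl : Fin d → ℝ) (wf : ℬ → ℝ) (wc : Fin d × Fin d → ℝ) (wn : ℝ) :
    KI X d ℬ → ℝ :=
  Sum.elim (fun _ => 0) (Sum.elim wl (Sum.elim wf (Sum.elim wc (fun _ => wn))))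

omit [DecidableEq ι] [DecidableEq ℬ] in
lemma sum_wKI (wl : Fin d → ℝ) (wf : ℬ → ℝ) (wc : Fin d × Fin d → ℝ) (wn : ℝ) :
    ∑ k, (wKI X wl wf wc wn k) ^ 2
      = ∑ j, wl j ^ 2 + (∑ b, wf b ^ 2 + (∑ p, wc p ^ 2 + wn ^ 2)) := by
  rw [Fintype.sum_sum_type, Fintype.sum_sum_type, Fintype.sum_sum_type, Fintype.sum_sum_type]
  simp [wKI]

omit [DecidableEq ι] [DecidableEq ℬ] in
lemma sum_wKI_mul (wl : Fin d → ℝ) (wf : ℬ → ℝ) (wc : Fin d × Fin d → ℝ) (wn : ℝ)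
    (ζ : EuclideanSpace ℝ (KI X d ℬ)) :
    ∑ k, (wKI X wl wf wc wn k * ζ k) ^ 2
      = ∑ j, (wl j * ζ (Sum.inr (Sum.inl j))) ^ 2
        + (∑ b, (wf b * ζ (Sum.inr (Sum.inr (Sum.inl b)))) ^ 2
        + (∑ p, (wc p * ζ (Sum.inr (Sum.inr (Sum.inr (Sum.inl p))))) ^ 2
        + (wn * ζ (Sum.inr (Sum.inr (Sum.inr (Sum.inr ()))))) ^ 2)) := by
  rw [Fintype.sum_sum_type, Fintype.sum_sum_type, Fintype.sum_sum_type, Fintype.sum_sum_type]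
  simp [wKI]

omit [DecidableEq ι] [Fintype ℬ] [DecidableEq ℬ] in
lemma abs_wKI_le (wl : Fin d → ℝ) (wf : ℬ → ℝ) (wc : Fin d × Fin d → ℝ) (wn : ℝ)
    (h1 : ∀ j, |wl j| ≤ 1) (h2 : ∀ b, |wf b| ≤ 1) (h3 : ∀ p, |wc p| ≤ 1) (h4 : |wn| ≤ 1)
    (k : KI X d ℬ) : |wKI X wl wf wc wn k| ≤ 1 := by
  rcases k with i | j | b | p | u
  · simp [wKI]
  · exact h1 j
  · exact h2 b
  · exact h3 p
  · exact h4

/-- sum of the squares of the linear coordinates in `J` -/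
lemma test_mask (J : Finset (Fin d)) :
    ∃ T : QT (KI X d ℬ), T.e = J.card ∧ ∀ ζ : EuclideanSpace ℝ (KI X d ℬ),
      ‖T.L ζ‖ ^ 2 = ∑ j ∈ J, (ζ (Sum.inr (Sum.inl j))) ^ 2 := by
  have h1 : ∀ k, |wKI (ℬ := ℬ) X (fun j : Fin d => if j ∈ J then 1 else 0) (fun _ => 0) (fun _ => 0) 0 k|
      ≤ 1 := by
    apply abs_wKI_le
    · intro j
      split_ifs <;> simp
    · simp
    · simp
    · simp
  refine ⟨QT.diag _ h1 J.card ?_, rfl, ?_⟩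
  · rw [sum_wKI]
    simp
  · intro ζ
    change ‖diagMap _ ζ‖ ^ 2 = _
    rw [diagMap_norm_sq, sum_wKI_mul]
    simp only [ite_mul, one_mul, zero_mul, ne_eq, OfNat.ofNat_ne_zero, not_false_eq_true, zero_pow,
      Finset.sum_const_zero, add_zero, ite_pow]
    rw [← Finset.sum_filter]
    simp

/-- one functional -/
lemma test_fun (b : ℬ) :
    ∃ T : QT (KI X d ℬ), T.e = 1 ∧ ∀ ζ : EuclideanSpace ℝ (KI X d ℬ),
      ‖T.L ζ‖ ^ 2 = (ζ (Sum.inr (Sum.inr (Sum.inl b)))) ^ 2 := by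
  have h1 : ∀ k, |wKI (ℬ := ℬ) X (fun _ : Fin d => 0) (fun b' => if b' = b then 1 else 0)
      (fun _ => 0) 0 k| ≤ 1 := by
    apply abs_wKI_le
    · simp
    · intro b'
      split_ifs <;> simp
    · simp
    · simp
  refine ⟨QT.diag _ h1 1 ?_, rfl, ?_⟩
  · rw [sum_wKI]
    simp
  · intro ζ
    change ‖diagMap _ ζ‖ ^ 2 = _
    rw [diagMap_norm_sq, sum_wKI_mul]
    simp

/-- the counting coordinate -/
lemma test_cnt :
    ∃ T : QT (KI X d ℬ), T.e = 1 ∧ ∀ ζ : EuclideanSpace ℝ (KI X d ℬ),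
      ‖T.L ζ‖ ^ 2 = (ζ (Sum.inr (Sum.inr (Sum.inr (Sum.inr ()))))) ^ 2 := by
  have h1 : ∀ k, |wKI (ℬ := ℬ) X (fun _ : Fin d => 0) (fun _ => 0) (fun _ => 0) 1 k| ≤ 1 := by
    apply abs_wKI_le
    · simp
    · simp
    · simp
    · simp
  refine ⟨QT.diag _ h1 1 ?_, rfl, ?_⟩
  · rw [sum_wKI]
    simp
  · intro ζ
    change ‖diagMap _ ζ‖ ^ 2 = _
    rw [diagMap_norm_sq, sum_wKI_mul]
    simp

/-- the covariance test -/
lemma test_cov (AL : Finset (Fin d)) (q : Fin d → ℝ) (Q qm : ℝ) (hq0 : ∀ j ∈ AL, 0 ≤ q j)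
    (hqm : ∀ j ∈ AL, q j ≤ qm) (hqm0 : 0 ≤ qm) (hQ : ∑ j ∈ AL, q j ≤ Q) :
    ∃ T : QT (KI X d ℬ), T.e = Q ^ 2 / qm ^ 2 ∧ ∀ ζ : EuclideanSpace ℝ (KI X d ℬ),
      qm ^ 2 * ‖T.L ζ‖ ^ 2 = ∑ j ∈ AL, ∑ j' ∈ AL,
        (ζ (Sum.inr (Sum.inr (Sum.inr (Sum.inl (j, j')))))) ^ 2 * (q j * q j') := by
  let wc : Fin d × Fin d → ℝ := fun p =>
    if p.1 ∈ AL ∧ p.2 ∈ AL then Real.sqrt (q p.1 * q p.2) / qm else 0
  have hwc2 : ∀ p, (wc p) ^ 2 = if p.1 ∈ AL ∧ p.2 ∈ AL then (q p.1 * q p.2) / qm ^ 2 else 0 := by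
    intro p
    simp only [wc]
    split_ifs with h
    · rw [div_pow, Real.sq_sqrt (mul_nonneg (hq0 _ h.1) (hq0 _ h.2))]
    · simp
  have hwc1 : ∀ p, |wc p| ≤ 1 := by
    intro p
    rw [← sq_le_one_iff_abs_le_one, hwc2]
    split_ifs with h
    · apply div_le_one_of_le₀ _ (sq_nonneg _)
      rw [sq]
      exact mul_le_mul (hqm _ h.1) (hqm _ h.2) (hq0 _ h.2) hqm0
    · norm_num
  have h1 : ∀ k, |wKI (ℬ := ℬ) X (fun _ : Fin d => 0) (fun _ => 0) wc 0 k| ≤ 1 := by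
    apply abs_wKI_le
    · simp
    · simp
    · exact hwc1
    · simp
  have hsumAL : ∀ F : Fin d → Fin d → ℝ,
      ∑ p : Fin d × Fin d, (if p.1 ∈ AL ∧ p.2 ∈ AL then F p.1 p.2 else 0)
        = ∑ j ∈ AL, ∑ j' ∈ AL, F j j' := by
    intro F
    rw [← Finset.sum_filter, ← Finset.sum_product']
    apply Finset.sum_congr _ fun _ _ => rfl
    ext p
    simp
  have hsum0 : 0 ≤ ∑ j ∈ AL, q j := Finset.sum_nonneg hq0
  refine ⟨QT.diag _ h1 (Q ^ 2 / qm ^ 2) ?_, rfl, ?_⟩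
  · rw [sum_wKI]
    have h2 : ∑ p, wc p ^ 2 ≤ Q ^ 2 / qm ^ 2 := by
      simp_rw [hwc2]
      rw [hsumAL (fun j j' => (q j * q j') / qm ^ 2)]
      have h3 : ∑ j ∈ AL, ∑ j' ∈ AL, (q j * q j') / qm ^ 2 = (∑ j ∈ AL, q j) ^ 2 / qm ^ 2 := by
        rw [sq (∑ j ∈ AL, q j), Finset.sum_mul_sum, Finset.sum_div]
        apply Finset.sum_congr rfl
        intro j _
        rw [Finset.sum_div]
      rw [h3]
      gcongr
    simpa using h2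
  · intro ζ
    change qm ^ 2 * ‖diagMap _ ζ‖ ^ 2 = _
    rw [diagMap_norm_sq, sum_wKI_mul]
    have h2 : ∑ p, (wc p * ζ (Sum.inr (Sum.inr (Sum.inr (Sum.inl p))))) ^ 2
        = ∑ j ∈ AL, ∑ j' ∈ AL,
          (q j * q j') / qm ^ 2 * (ζ (Sum.inr (Sum.inr (Sum.inr (Sum.inl (j, j')))))) ^ 2 := by
      rw [← hsumAL]
      apply Finset.sum_congr rfl
      intro p _
      rw [mul_pow, hwc2]
      split_ifs <;> simp
    have h3 : qm ^ 2 * (∑ j : Fin d, ((0 : ℝ) * ζ (Sum.inr (Sum.inl j))) ^ 2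
        + (∑ b, ((0 : ℝ) * ζ (Sum.inr (Sum.inr (Sum.inl b)))) ^ 2
        + (∑ p, (wc p * ζ (Sum.inr (Sum.inr (Sum.inr (Sum.inl p))))) ^ 2
        + ((0 : ℝ) * ζ (Sum.inr (Sum.inr (Sum.inr (Sum.inr ()))))) ^ 2)))
        = qm ^ 2 * ∑ p, (wc p * ζ (Sum.inr (Sum.inr (Sum.inr (Sum.inl p))))) ^ 2 := by
      simp
    rw [h3, h2, Finset.mul_sum]
    apply Finset.sum_congr rfl
    intro j hj
    rw [Finset.mul_sum]
    apply Finset.sum_congr rfl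
    intro j' hj'
    rcases eq_or_lt_of_le hqm0 with h | h
    · have h4 : q j = 0 := le_antisymm (by rw [h]; exact hqm j hj) (hq0 j hj)
      rw [h4]
      simp
    · field_simp

end Vale.Agent.P262B
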