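import Vale.Agent.P262B.C00

open scoped BigOperators RealInnerProductSpace

namespace Vale.Agent.P262B

/-- **S2. The tilt.** If `∑_X v vᵀ` restricted to the coordinates of `A` is within a factor `1/2` of
the diagonal matrix `D`, then every `Q` supported on `A` can be written `∑ ⟪y,v⟫ v` on `A`. -/
theorem tilt_exists {d : ℕ} {ι : Type} (v : ι → Vec d) (X : Finset ι) (A : Finset (Fin d))
    (D : Fin d → ℝ) (hD : ∀ j ∈ A, 0 < D j)
    (hcov : ∀ x : Vec d, (∀ j, x j ≠ 0 → j ∈ A) →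
      |∑ i ∈ X, ⟪x, v i⟫ ^ 2 - ∑ j, D j * x j ^ 2| ≤ (1 / 2) * ∑ j, D j * x j ^ 2)
    (Q : Fin d → ℝ) :
    ∃ y : Vec d, (∀ j ∉ A, y j = 0) ∧ (∀ j ∈ A, (∑ i ∈ X, ⟪y, v i⟫ • v i) j = Q j) ∧
      ∑ i ∈ X, ⟪y, v i⟫ ^ 2 ≤ 2 * ∑ j ∈ A, Q j ^ 2 / D j ∧
      ∑ j ∈ A, D j * y j ^ 2 ≤ 4 * ∑ j ∈ A, Q j ^ 2 / D j := by
  classical
  -- the quadratic form and the sum over `A`
  have hsupp : ∀ y : Vec d, (∀ j ∉ A, y j = 0) →
      ∑ j, D j * y j ^ 2 = ∑ j ∈ A, D j * y j ^ 2 := by
    intro y hy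
    symm
    apply Finset.sum_subset (Finset.subset_univ _)
    intro j _ hj
    rw [hy j hj]
    ring
  have hquad : ∀ y : Vec d, (∀ j ∉ A, y j = 0) →
      ∑ i ∈ X, ⟪y, v i⟫ ^ 2 = ∑ j ∈ A, y j * (∑ i ∈ X, ⟪y, v i⟫ • v i) j := by
    intro y hy
    have h1 : ∑ i ∈ X, ⟪y, v i⟫ ^ 2 = ⟪y, ∑ i ∈ X, ⟪y, v i⟫ • v i⟫ := by
      rw [inner_sum]
      refine Finset.sum_congr rfl fun i _ => ?_
      rw [real_inner_smul_right, pow_two]
    rw [h1, PiLp.inner_apply]
    symm
    have h2 : ∀ j, (⟪y j, (∑ i ∈ X, ⟪y, v i⟫ • v i) j⟫ : ℝ)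
        = y j * (∑ i ∈ X, ⟪y, v i⟫ • v i) j := by
      intro j
      simp [mul_comm]
    rw [Finset.sum_congr rfl fun j _ => h2 j]
    apply Finset.sum_subset (Finset.subset_univ _)
    intro j _ hj
    rw [hy j hj, zero_mul]
  have hlow : ∀ y : Vec d, (∀ j ∉ A, y j = 0) →
      (1 / 2) * ∑ j ∈ A, D j * y j ^ 2 ≤ ∑ i ∈ X, ⟪y, v i⟫ ^ 2 := by
    intro y hy
    have h := hcov y (fun j hj => by
      by_contra h
      exact hj (hy j h))
    rw [hsupp y hy] at h
    have := (abs_le.1 h).1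
    linarith
  -- the linear map
  let P : Vec d →ₗ[ℝ] Vec d :=
    { toFun := fun x => proj A x
      map_add' := by
        intro x y
        ext j
        simp only [proj, PiLp.add_apply]
        split_ifs <;> simp
      map_smul' := by
        intro r x
        ext j
        simp only [proj, PiLp.smul_apply, RingHom.id_apply]
        split_ifs <;> simp }
  have hP : ∀ x j, P x j = if j ∈ A then x j else 0 := fun x j => rfl
  let S : Vec d →ₗ[ℝ] Vec d := ∑ i ∈ X, (innerₛₗ ℝ (v i)).smulRight (v i)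
  have hS : ∀ x, S x = ∑ i ∈ X, ⟪x, v i⟫ • v i := by
    intro x
    simp only [S, LinearMap.sum_apply, LinearMap.smulRight_apply, innerₛₗ_apply_apply]
    refine Finset.sum_congr rfl fun i _ => ?_
    rw [real_inner_comm]
  let T : Vec d →ₗ[ℝ] Vec d := P ∘ₗ S ∘ₗ P + (LinearMap.id - P)
  have hT : ∀ x j, T x j = if j ∈ A then S (P x) j else x j := by
    intro x j
    have : T x = P (S (P x)) + (x - P x) := rfl
    rw [this, PiLp.add_apply, PiLp.sub_apply, hP, hP]
    split_ifs <;> simp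
  have hinj : Function.Injective T := by
    rw [injective_iff_map_eq_zero]
    intro x hx
    have hx0 : ∀ j ∉ A, x j = 0 := by
      intro j hj
      have := hT x j
      rw [hx, if_neg hj] at this
      simpa using this.symm
    have hPx : P x = x := by
      ext j
      rw [hP]
      split_ifs with h
      · rfl
      · exact (hx0 j h).symm
    have h1 : ∀ j ∈ A, (∑ i ∈ X, ⟪x, v i⟫ • v i) j = 0 := by
      intro j hj
      have := hT x j
      rw [hx, if_pos hj, hPx, hS] at this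
      simpa using this.symm
    have h2 : ∑ i ∈ X, ⟪x, v i⟫ ^ 2 = 0 := by
      rw [hquad x hx0]
      refine Finset.sum_eq_zero fun j hj => ?_
      rw [h1 j hj, mul_zero]
    have h3 := hlow x hx0
    rw [h2] at h3
    have h4 : ∀ j ∈ A, 0 ≤ D j * x j ^ 2 := fun j hj => mul_nonneg (hD j hj).le (sq_nonneg _)
    have h5 : ∑ j ∈ A, D j * x j ^ 2 = 0 :=
      le_antisymm (by linarith) (Finset.sum_nonneg h4)
    rw [Finset.sum_eq_zero_iff_of_nonneg h4] at h5
    ext j
    by_cases hj : j ∈ A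
    · have := h5 j hj
      rcases mul_eq_zero.1 this with h | h
      · exact absurd h (hD j hj).ne'
      · simpa using h
    · simpa using hx0 j hj
  have hsurj : Function.Surjective T := LinearMap.injective_iff_surjective.1 hinj
  obtain ⟨y, hy⟩ := hsurj (WithLp.toLp 2 (fun j => if j ∈ A then Q j else 0))
  have hyA : ∀ j ∉ A, y j = 0 := by
    intro j hj
    have := hT y j
    rw [hy, if_neg hj] at this
    simp only [if_neg hj] at this
    exact this.symm
  have hPy : P y = y := by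
    ext j
    rw [hP]
    split_ifs with h
    · rfl
    · exact (hyA j h).symm
  have hyQ : ∀ j ∈ A, (∑ i ∈ X, ⟪y, v i⟫ • v i) j = Q j := by
    intro j hj
    have := hT y j
    rw [hy, if_pos hj, hPy, hS] at this
    simp only [if_pos hj] at this
    exact this.symm
  have ha : ∑ i ∈ X, ⟪y, v i⟫ ^ 2 = ∑ j ∈ A, y j * Q j := by
    rw [hquad y hyA]
    exact Finset.sum_congr rfl fun j hj => by rw [hyQ j hj]
  have hle : ∑ j ∈ A, y j * Q j
      ≤ (1 / 4) * ∑ j ∈ A, D j * y j ^ 2 + ∑ j ∈ A, Q j ^ 2 / D j := by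
    rw [Finset.mul_sum, ← Finset.sum_add_distrib]
    refine Finset.sum_le_sum fun j hj => ?_
    have hd := hD j hj
    have : (1 / 4) * (D j * y j ^ 2) + Q j ^ 2 / D j - y j * Q j
        = (D j * y j / 2 - Q j) ^ 2 / D j := by
      field_simp
      ring
    have h2 : 0 ≤ (D j * y j / 2 - Q j) ^ 2 / D j := by positivity
    linarith
  have hlow' := hlow y hyA
  refine ⟨y, hyA, hyQ, ?_, ?_⟩
  · linarith
  · linarith

end Vale.Agent.P262B
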