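import Vale.Agent.P262B.S1
import Vale.Agent.P262B.S2
import Vale.Agent.P262B.N2

open scoped BigOperators RealInnerProductSpace
open Finset

namespace Vale.Agent.P262B

variable {d : ℕ} {ι : Type} [Fintype ι] [DecidableEq ι] (I : Inst d ι)

/-! ### elementary helpers -/

theorem s3_norm_sq (x : Vec d) : ‖x‖ ^ 2 = ∑ j, x j ^ 2 := by
  rw [EuclideanSpace.norm_sq_eq]
  simp

theorem s3_proj_norm_sq (J : Finset (Fin d)) (x : Vec d) :
    ‖proj J x‖ ^ 2 = ∑ j ∈ J, x j ^ 2 := by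
  rw [s3_norm_sq]
  rw [← Finset.sum_subset (Finset.subset_univ J)]
  · apply Finset.sum_congr rfl
    intro j hj
    simp [proj, hj]
  · intro j _ hj
    simp [proj, hj]

theorem s3_proj_biUnion_le {α : Type} (s : Finset α) (J : α → Finset (Fin d))
    (x : Vec d) : ‖proj (s.biUnion J) x‖ ^ 2 ≤ ∑ a ∈ s, ‖proj (J a) x‖ ^ 2 := by
  classical
  simp only [s3_proj_norm_sq]
  induction s using Finset.induction_on with
  | empty => simp
  | insert a s ha ih =>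
    rw [Finset.biUnion_insert, Finset.sum_insert ha]
    have h1 : ∑ j ∈ J a ∪ s.biUnion J, x j ^ 2
        ≤ ∑ j ∈ J a, x j ^ 2 + ∑ j ∈ s.biUnion J, x j ^ 2 := by
      rw [← Finset.sum_union_inter]
      have : 0 ≤ ∑ j ∈ J a ∩ s.biUnion J, x j ^ 2 := Finset.sum_nonneg (fun _ _ => sq_nonneg _)
      linarith
    linarith

theorem s3_tauSq_nonneg (t : Fin d → ℝ) (AL : Finset (Fin d)) (wb : ℕ) (j : Fin d) :
    0 ≤ tauSq t AL wb j := by
  unfold tauSq Gc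
  positivity

theorem s3_clip_abs (t : Fin d → ℝ) (k : ℕ) (x : Vec d) (j : Fin d) :
    |clipv t k x j| ≤ Real.sqrt (tauSq t (alive t (k + 1)) (wb t k) j) := by
  unfold clipv
  have h0 := Real.sqrt_nonneg (tauSq t (alive t (k + 1)) (wb t k) j)
  rw [abs_le]
  constructor
  · exact le_max_left _ _
  · apply max_le
    · linarith
    · exact min_le_left _ _

/-- convex combination of two clippings -/
theorem s3_clip_comb (t : Fin d → ℝ) (k : ℕ) (x y : Vec d) (j : Fin d) (a : ℝ) (h0 : 0 ≤ a)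
    (h1 : a ≤ 1) :
    ((1 - a) * clipv t k x j + a * clipv t k y j) ^ 2
      ≤ tauSq t (alive t (k + 1)) (wb t k) j := by
  have hx := s3_clip_abs t k x j
  have hy := s3_clip_abs t k y j
  have h2 : |(1 - a) * clipv t k x j + a * clipv t k y j|
      ≤ Real.sqrt (tauSq t (alive t (k + 1)) (wb t k) j) := by
    calc |(1 - a) * clipv t k x j + a * clipv t k y j|
        ≤ |(1 - a) * clipv t k x j| + |a * clipv t k y j| := abs_add_le _ _
      _ = (1 - a) * |clipv t k x j| + a * |clipv t k y j| := by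
          rw [abs_mul, abs_mul, abs_of_nonneg h0, abs_of_nonneg (by linarith : (0:ℝ) ≤ 1 - a)]
      _ ≤ (1 - a) * Real.sqrt (tauSq t (alive t (k + 1)) (wb t k) j)
          + a * Real.sqrt (tauSq t (alive t (k + 1)) (wb t k) j) := by
          apply add_le_add
          · exact mul_le_mul_of_nonneg_left hx (by linarith)
          · exact mul_le_mul_of_nonneg_left hy h0
      _ = _ := by ring
  calc ((1 - a) * clipv t k x j + a * clipv t k y j) ^ 2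
      = |(1 - a) * clipv t k x j + a * clipv t k y j| ^ 2 := (sq_abs _).symm
    _ ≤ Real.sqrt (tauSq t (alive t (k + 1)) (wb t k) j) ^ 2 := by
        apply pow_le_pow_left₀ (abs_nonneg _) h2
    _ = _ := Real.sq_sqrt (s3_tauSq_nonneg t _ _ j)

theorem s3_MM_cast (t : Fin d → ℝ) (k : ℕ) : (MM t k : ℝ) = (2 : ℝ) ^ (ww t k) := by
  unfold MM
  push_cast
  rfl

theorem s3_MM_two_le (t : Fin d → ℝ) (k : ℕ) : 2 ≤ MM t k := by
  unfold MM
  calc 2 = 2 ^ 1 := by norm_num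
    _ ≤ 2 ^ ww t k := Nat.pow_le_pow_right (by norm_num) (ww_pos t k)

/-- the nominal variances at level `Lev k` -/
theorem s3_D_eq (t : Fin d → ℝ) (k : ℕ) (j : Fin d) :
    (2 : ℝ) ^ (t j - (Lev t k : ℝ)) = (2 : ℝ) ^ (t j - (Lev t (k + 1) : ℝ)) * MM t k := by
  rw [s3_MM_cast, ← Real.rpow_natCast, ← Real.rpow_add (by norm_num)]
  congr 1
  rw [Lev_succ t k]
  push_cast
  ring

omit [DecidableEq ι] in
/-- the covariance control in the form needed for the tilt -/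
theorem s3_cov (k : ℕ) (X : Finset ι) (hcov : CovOK I X (Lev I.t k) (alive I.t k)) (x : Vec d)
    (hx : ∀ j, x j ≠ 0 → j ∈ alive I.t (k + 1)) :
    |∑ i ∈ X, ⟪x, I.v i⟫ ^ 2 - ∑ j, (2 : ℝ) ^ (I.t j - (Lev I.t k : ℝ)) * x j ^ 2|
      ≤ (1 / 2) * ∑ j, (2 : ℝ) ^ (I.t j - (Lev I.t k : ℝ)) * x j ^ 2 := by
  have hlt : (Lev I.t k : ℝ) < (Lev I.t (k + 1) : ℝ) := by exact_mod_cast Lev_lt I.t k
  have h := hcov (Lev I.t (k + 1)) hlt.le x ?_
  · refine h.trans ?_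
    have h0 : 0 ≤ ∑ j, (2 : ℝ) ^ (I.t j - (Lev I.t k : ℝ)) * x j ^ 2 :=
      Finset.sum_nonneg (fun j _ => by positivity)
    apply mul_le_mul_of_nonneg_right _ h0
    have h1 : (2 : ℝ) ^ (-((Lev I.t (k + 1) : ℝ) - (Lev I.t k : ℝ)) / 2) ≤ 1 := by
      apply Real.rpow_le_one_of_one_le_of_nonpos (by norm_num)
      linarith
    linarith
  · intro j hj
    have h1 := hx j hj
    refine ⟨alive_succ_subset I.t k h1, ?_⟩
    have h2 : (zz I.t (k + 1) : ℝ) < I.t j := (Finset.mem_filter.mp h1).2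
    have h3 : (Lev I.t (k + 1) : ℝ) ≤ (zz I.t (k + 1) : ℝ) := by
      exact_mod_cast Lev_le_zz I.t (k + 1)
    linarith

/-- the energy of the tilt -/
theorem s3_energy (t : Fin d → ℝ) (k : ℕ) (Q : Fin d → ℝ)
    (hQ : ∀ j ∈ alive t (k + 1), Q j ^ 2 ≤ tauSq t (alive t (k + 1)) (wb t k) j) :
    ∑ j ∈ alive t (k + 1), Q j ^ 2 / (2 : ℝ) ^ (t j - (Lev t k : ℝ)) ≤ YY t k / MM t k := by
  unfold YY
  rw [Finset.sum_div]
  apply Finset.sum_le_sum
  intro j hj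
  have hM : (0 : ℝ) < MM t k := by
    have := s3_MM_two_le t k
    exact_mod_cast (by omega : 0 < MM t k)
  have hp : (0 : ℝ) < (2 : ℝ) ^ (t j - (Lev t (k + 1) : ℝ)) := by positivity
  rw [s3_D_eq, Real.rpow_neg (by norm_num), div_le_div_iff₀ (by positivity) hM]
  have h := hQ j hj
  have h2 : tauSq t (alive t (k + 1)) (wb t k) j * ((2 : ℝ) ^ (t j - (Lev t (k + 1) : ℝ)))⁻¹
      * ((2 : ℝ) ^ (t j - (Lev t (k + 1) : ℝ)) * MM t k)
      = tauSq t (alive t (k + 1)) (wb t k) j * MM t k := by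
    field_simp
  rw [h2]
  exact mul_le_mul_of_nonneg_right h hM.le

/-- the tilt is small -/
theorem s3_norm (t : Fin d → ℝ) (k : ℕ) (y : Vec d) (hy : ∀ j ∉ alive t (k + 1), y j = 0)
    (h : ∑ j ∈ alive t (k + 1), (2 : ℝ) ^ (t j - (Lev t k : ℝ)) * y j ^ 2
      ≤ 4 * (YY t k / MM t k)) :
    ‖y‖ ≤ 1 / (2000 * MM t k) := by
  have hM : (0 : ℝ) < MM t k := by
    have := s3_MM_two_le t k
    exact_mod_cast (by omega : 0 < MM t k)
  have h1 : ‖y‖ ^ 2 = ∑ j ∈ alive t (k + 1), y j ^ 2 := by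
    rw [s3_norm_sq]
    symm
    apply Finset.sum_subset (Finset.subset_univ _)
    intro j _ hj
    rw [hy j hj]
    norm_num
  have h2 : (2 : ℝ) ^ (186 : ℝ) * MM t k * ‖y‖ ^ 2
      ≤ ∑ j ∈ alive t (k + 1), (2 : ℝ) ^ (t j - (Lev t k : ℝ)) * y j ^ 2 := by
    rw [h1, Finset.mul_sum]
    apply Finset.sum_le_sum
    intro j hj
    rw [s3_D_eq]
    have h3 := alive_gap t hj
    have h4 : (2 : ℝ) ^ (186 : ℝ) ≤ (2 : ℝ) ^ (t j - (Lev t (k + 1) : ℝ)) :=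
      Real.rpow_le_rpow_of_exponent_le (by norm_num) h3
    apply mul_le_mul_of_nonneg_right _ (sq_nonneg _)
    exact mul_le_mul_of_nonneg_right h4 hM.le
  have h5 : (2 : ℝ) ^ (186 : ℝ) = (2 : ℝ) ^ (186 : ℕ) := by
    rw [← Real.rpow_natCast]
    norm_num
  have h6 := YY_small t k
  have h7 : ‖y‖ ^ 2 ≤ (1 / (2000 * MM t k)) ^ 2 := by
    rw [h5] at h2
    have h8 : (2 : ℝ) ^ (186 : ℕ) * MM t k * ‖y‖ ^ 2 ≤ 4 * (YY t k / MM t k) := h2.trans h
    have h9 : 4 * (YY t k / MM t k) ≤ 4 * ((1 / 10 ^ 6) / MM t k) := by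
      apply mul_le_mul_of_nonneg_left _ (by norm_num)
      exact div_le_div_of_nonneg_right h6 hM.le
    have h10 : (2 : ℝ) ^ (186 : ℕ) * MM t k * ‖y‖ ^ 2 ≤ 4 * ((1 / 10 ^ 6) / MM t k) := h8.trans h9
    rw [div_pow, one_pow, le_div_iff₀ (by positivity)]
    have h11 : (2 : ℝ) ^ (186 : ℕ) * MM t k * ‖y‖ ^ 2 * MM t k ≤ 4 * (1 / 10 ^ 6) := by
      have := mul_le_mul_of_nonneg_right h10 hM.le
      have h14 : 4 * ((1 / 10 ^ 6 : ℝ) / MM t k) * MM t k = 4 * (1 / 10 ^ 6) := by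
        rw [mul_assoc, div_mul_cancel₀ _ hM.ne']
      linarith
    have h12 : ‖y‖ ^ 2 * (MM t k : ℝ) ^ 2 * (2 : ℝ) ^ (186 : ℕ) ≤ 4 * (1 / 10 ^ 6) := by
      calc _ = (2 : ℝ) ^ (186 : ℕ) * MM t k * ‖y‖ ^ 2 * MM t k := by ring
        _ ≤ _ := h11
    have h13 : (0 : ℝ) ≤ ‖y‖ ^ 2 * (MM t k : ℝ) ^ 2 := by positivity
    nlinarith [h12, h13]
  exact (pow_le_pow_iff_left₀ (norm_nonneg _) (by positivity) (by norm_num)).mp h7

/-! ### the tilt vectors -/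

omit [DecidableEq ι] in
theorem s3_tilt (k : ℕ) (X : Finset ι) (Ea Eb : Vec d)
    (hcov : CovOK I X (Lev I.t k) (alive I.t k)) (a : ℝ) (h0 : 0 ≤ a) (h1 : a ≤ 1) :
    ∃ y : Vec d, (∀ j ∉ alive I.t (k + 1), y j = 0) ∧
      (∀ j ∈ alive I.t (k + 1), (∑ i ∈ X, ⟪y, I.v i⟫ • I.v i) j
          = (1 - a) * clipv I.t k Ea j + a * clipv I.t k Eb j) ∧
      ∑ i ∈ X, ⟪y, I.v i⟫ ^ 2 ≤ 2 * (YY I.t k / MM I.t k) ∧
      ‖y‖ ≤ 1 / (2000 * MM I.t k) := by
  obtain ⟨y, hy1, hy2, hy3, hy4⟩ := tilt_exists I.v X (alive I.t (k + 1))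
    (fun j => (2 : ℝ) ^ (I.t j - (Lev I.t k : ℝ))) (fun j _ => by positivity)
    (fun x hx => s3_cov I k X hcov x hx)
    (fun j => (1 - a) * clipv I.t k Ea j + a * clipv I.t k Eb j)
  have hE := s3_energy I.t k (fun j => (1 - a) * clipv I.t k Ea j + a * clipv I.t k Eb j)
    (fun j _ => s3_clip_comb I.t k Ea Eb j a h0 h1)
  refine ⟨y, hy1, hy2, ?_, ?_⟩
  · exact hy3.trans (mul_le_mul_of_nonneg_left hE (by norm_num))
  · exact s3_norm I.t k y hy1 (hy4.trans (mul_le_mul_of_nonneg_left hE (by norm_num)))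

/-- tilt of a boundary -/
noncomputable def s3yb (M : ℕ) (y1 y2 : Vec d) (m : ℕ) : Vec d :=
  (1 - tht M m) • y1 + tht M m • y2

/-- tilt of a cell -/
noncomputable def s3yc (M : ℕ) (y1 y2 : Vec d) (m : ℕ) : Vec d :=
  if m = 0 then -y1 else if m = M - 1 then y2 else (1 / ((M : ℝ) - 2)) • (y1 - y2)

theorem s3yb_inner (M : ℕ) (y1 y2 x : Vec d) (m : ℕ) :
    ⟪s3yb M y1 y2 m, x⟫ = (1 - tht M m) * ⟪y1, x⟫ + tht M m * ⟪y2, x⟫ := by
  unfold s3yb
  rw [inner_add_left, real_inner_smul_left, real_inner_smul_left]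

theorem s3yc_inner {ι : Type} (M : ℕ) (y1 y2 : Vec d) (v : ι → Vec d) (m : ℕ) (i : ι) :
    ⟪s3yc M y1 y2 m, v i⟫ = cellw M (fun i => ⟪y1, v i⟫) (fun i => ⟪y2, v i⟫) m i := by
  unfold s3yc cellw
  split_ifs
  · rw [inner_neg_left]
  · rfl
  · rw [real_inner_smul_left, inner_sub_left]
    ring

theorem s3_M_cases (w : ℕ) (hw : 1 ≤ w) : (w = 1 ∧ 2 ^ w = 2) ∨ (2 ≤ w ∧ 4 ≤ 2 ^ w) := by
  rcases Nat.lt_or_ge w 2 with h | h
  · left
    have : w = 1 := by omega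
    exact ⟨this, by rw [this]; norm_num⟩
  · right
    exact ⟨h, (Nat.pow_le_pow_right (by norm_num) h : 2 ^ 2 ≤ 2 ^ w)⟩

theorem s3_tht (M m : ℕ) (hM : M = 2 ∨ 4 ≤ M) (h1 : 1 ≤ m) (h2 : m < M) :
    0 ≤ tht M m ∧ tht M m ≤ 1 ∧
      (1 - tht M m) * (1 / (M : ℝ)) + tht M m * (1 - 1 / (M : ℝ)) = m / M := by
  unfold tht
  rcases hM with rfl | hM
  · have : m = 1 := by omega
    subst this
    norm_num
  · have hne : M ≠ 2 := by omega
    rw [if_neg hne]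
    have hMr : (4 : ℝ) ≤ M := by exact_mod_cast hM
    have hm1 : (1 : ℝ) ≤ m := by exact_mod_cast h1
    have hm2 : (m : ℝ) + 1 ≤ M := by exact_mod_cast h2
    refine ⟨div_nonneg (by linarith) (by linarith), ?_, ?_⟩
    · rw [div_le_one (by linarith)]
      linarith
    · have hM2 : (M : ℝ) - 2 ≠ 0 := by linarith
      have hM0 : (M : ℝ) ≠ 0 := by linarith
      field_simp
      ring

/-- all properties of the tilt vectors -/
theorem s3_tilts (k : ℕ) (X : Finset ι) (Ea Eb : Vec d)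
    (hcov : CovOK I X (Lev I.t k) (alive I.t k)) :
    ∃ y1 y2 : Vec d, (ww I.t k = 1 → y1 = y2) ∧
      (∀ j ∉ alive I.t (k + 1), y1 j = 0) ∧ (∀ j ∉ alive I.t (k + 1), y2 j = 0) ∧
      (∀ j ∈ alive I.t (k + 1), (∑ i ∈ X, ⟪y1, I.v i⟫ • I.v i) j
          = (1 - 1 / (MM I.t k : ℝ)) * clipv I.t k Ea j + 1 / (MM I.t k : ℝ) * clipv I.t k Eb j) ∧
      (∀ j ∈ alive I.t (k + 1), (∑ i ∈ X, ⟪y2, I.v i⟫ • I.v i) j
          = 1 / (MM I.t k : ℝ) * clipv I.t k Ea j + (1 - 1 / (MM I.t k : ℝ)) * clipv I.t k Eb j) ∧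
      ∑ i ∈ X, ⟪y1, I.v i⟫ ^ 2 ≤ 2 * (YY I.t k / MM I.t k) ∧
      ∑ i ∈ X, ⟪y2, I.v i⟫ ^ 2 ≤ 2 * (YY I.t k / MM I.t k) ∧
      ‖y1‖ ≤ 1 / (2000 * MM I.t k) ∧ ‖y2‖ ≤ 1 / (2000 * MM I.t k) := by
  have hM2 := s3_MM_two_le I.t k
  have hMr : (2 : ℝ) ≤ MM I.t k := by exact_mod_cast hM2
  have ha0 : (0 : ℝ) ≤ 1 / (MM I.t k : ℝ) := by positivity
  have ha1 : 1 / (MM I.t k : ℝ) ≤ 1 := by
    rw [div_le_one (by linarith)]
    linarith
  obtain ⟨y1, h1, h2, h3, h4⟩ := s3_tilt I k X Ea Eb hcov (1 / (MM I.t k : ℝ)) ha0 ha1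
  by_cases hw : ww I.t k = 1
  · have hM : (MM I.t k : ℝ) = 2 := by
      rw [s3_MM_cast, hw]
      norm_num
    refine ⟨y1, y1, fun _ => rfl, h1, h1, h2, ?_, h3, h3, h4, h4⟩
    intro j hj
    rw [h2 j hj, hM]
    norm_num
  · obtain ⟨y2, g1, g2, g3, g4⟩ := s3_tilt I k X Ea Eb hcov (1 - 1 / (MM I.t k : ℝ))
      (by linarith) (by linarith)
    refine ⟨y1, y2, fun h => absurd h hw, h1, g1, h2, ?_, h3, g3, h4, g4⟩
    intro j hj
    rw [g2 j hj]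
    ring

/-! ### energies and norms of the tilt vectors -/

theorem s3_enb {ι : Type} (v : ι → Vec d) (X : Finset ι) (y1 y2 : Vec d) (M m : ℕ) (e : ℝ)
    (h1 : ∑ i ∈ X, ⟪y1, v i⟫ ^ 2 ≤ e) (h2 : ∑ i ∈ X, ⟪y2, v i⟫ ^ 2 ≤ e)
    (hθ0 : 0 ≤ tht M m) (hθ1 : tht M m ≤ 1) :
    ∑ i ∈ X, ⟪s3yb M y1 y2 m, v i⟫ ^ 2 ≤ e := by
  calc ∑ i ∈ X, ⟪s3yb M y1 y2 m, v i⟫ ^ 2
      ≤ ∑ i ∈ X, ((1 - tht M m) * ⟪y1, v i⟫ ^ 2 + tht M m * ⟪y2, v i⟫ ^ 2) := by
        apply Finset.sum_le_sum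
        intro i _
        rw [s3yb_inner]
        have h := mul_nonneg (mul_nonneg hθ0 (by linarith : 0 ≤ 1 - tht M m))
          (sq_nonneg (⟪y1, v i⟫ - ⟪y2, v i⟫))
        nlinarith [h]
    _ = (1 - tht M m) * ∑ i ∈ X, ⟪y1, v i⟫ ^ 2 + tht M m * ∑ i ∈ X, ⟪y2, v i⟫ ^ 2 := by
        rw [Finset.sum_add_distrib, Finset.mul_sum, Finset.mul_sum]
    _ ≤ (1 - tht M m) * e + tht M m * e := by
        apply add_le_add
        · exact mul_le_mul_of_nonneg_left h1 (by linarith)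
        · exact mul_le_mul_of_nonneg_left h2 hθ0
    _ = e := by ring

theorem s3_enc {ι : Type} (v : ι → Vec d) (X : Finset ι) (y1 y2 : Vec d) (M m : ℕ) (e : ℝ)
    (hM : M = 2 ∨ 4 ≤ M) (hm : m < M)
    (h1 : ∑ i ∈ X, ⟪y1, v i⟫ ^ 2 ≤ e) (h2 : ∑ i ∈ X, ⟪y2, v i⟫ ^ 2 ≤ e) :
    ∑ i ∈ X, ⟪s3yc M y1 y2 m, v i⟫ ^ 2 ≤ e := by
  have he : 0 ≤ e := (Finset.sum_nonneg (fun i _ => sq_nonneg _)).trans h1
  unfold s3yc
  split_ifs with h h'
  · simpa [inner_neg_left] using h1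
  · exact h2
  · have hM4 : 4 ≤ M := by omega
    have hMr : (4 : ℝ) ≤ M := by exact_mod_cast hM4
    have hq : (1 / ((M : ℝ) - 2)) ^ 2 ≤ 1 / 4 := by
      rw [div_pow, one_pow]
      apply div_le_div_of_nonneg_left (by norm_num) (by norm_num)
      nlinarith
    calc ∑ i ∈ X, ⟪(1 / ((M : ℝ) - 2)) • (y1 - y2), v i⟫ ^ 2
        ≤ ∑ i ∈ X, (1 / 4) * (2 * ⟪y1, v i⟫ ^ 2 + 2 * ⟪y2, v i⟫ ^ 2) := by
          apply Finset.sum_le_sum
          intro i _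
          rw [real_inner_smul_left, inner_sub_left, mul_pow]
          apply mul_le_mul hq _ (sq_nonneg _) (by norm_num)
          nlinarith [sq_nonneg (⟪y1, v i⟫ + ⟪y2, v i⟫)]
      _ = (1 / 2) * ∑ i ∈ X, ⟪y1, v i⟫ ^ 2 + (1 / 2) * ∑ i ∈ X, ⟪y2, v i⟫ ^ 2 := by
          rw [Finset.mul_sum, Finset.mul_sum, ← Finset.sum_add_distrib]
          apply Finset.sum_congr rfl
          intro i _
          ring
      _ ≤ (1 / 2) * e + (1 / 2) * e := by linarith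
      _ = e := by ring

theorem s3_smallc (y1 y2 : Vec d) (M m : ℕ) (hM : M = 2 ∨ 4 ≤ M) (hm : m < M)
    (h1 : ‖y1‖ ≤ 1 / (2000 * M)) (h2 : ‖y2‖ ≤ 1 / (2000 * M)) :
    ‖s3yc M y1 y2 m‖ ≤ 1 / (1000 * M) := by
  have hM0 : (2 : ℝ) ≤ M := by
    have : 2 ≤ M := by omega
    exact_mod_cast this
  have h3 : 1 / (1000 * (M : ℝ)) = 2 * (1 / (2000 * M)) := by
    field_simp
    norm_num
  have h4 : (0 : ℝ) ≤ 1 / (2000 * M) := by positivity
  unfold s3yc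
  split_ifs with h h'
  · rw [norm_neg, h3]
    linarith
  · rw [h3]
    linarith
  · have hM4 : 4 ≤ M := by omega
    have hMr : (4 : ℝ) ≤ M := by exact_mod_cast hM4
    rw [norm_smul, Real.norm_eq_abs, abs_of_nonneg (div_nonneg zero_le_one (by linarith)), h3]
    have h5 : ‖y1 - y2‖ ≤ 2 * (1 / (2000 * M)) := by
      have := norm_sub_le y1 y2
      linarith
    have h6 : 1 / ((M : ℝ) - 2) ≤ 1 := by
      rw [div_le_one (by linarith)]
      linarith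
    calc 1 / ((M : ℝ) - 2) * ‖y1 - y2‖ ≤ 1 * ‖y1 - y2‖ :=
          mul_le_mul_of_nonneg_right h6 (norm_nonneg _)
      _ ≤ _ := by linarith

/-! ### functionals and projections -/

omit [DecidableEq ι] in
theorem s3_ff_nonneg (k : ℕ) (g : Grp) (i : ι) : 0 ≤ ff I k g i := by
  unfold ff
  apply le_min zero_le_one
  positivity

theorem s3_proj_le (J : Finset (Fin d)) (x : Vec d) : ‖proj J x‖ ^ 2 ≤ ‖x‖ ^ 2 := by
  rw [s3_proj_norm_sq, s3_norm_sq]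
  exact Finset.sum_le_sum_of_subset_of_nonneg (Finset.subset_univ _) (fun _ _ _ => sq_nonneg _)

omit [DecidableEq ι] in
theorem s3_proj_le_one (J : Finset (Fin d)) (i : ι) : ‖proj J (I.v i)‖ ^ 2 ≤ 1 := by
  refine (s3_proj_le J _).trans ?_
  have := I.hv i
  exact pow_le_one₀ (norm_nonneg _) this

omit [DecidableEq ι] in
theorem s3_proj_le_ff (k : ℕ) (g : Grp) (i : ι) : ‖proj (GS I.t k g) (I.v i)‖ ^ 2 ≤ ff I k g i := by
  unfold ff
  apply le_min (s3_proj_le_one I _ i)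
  have h1 : (1 : ℝ) ≤ (2 : ℝ) ^ ((age I.t k g : ℝ) / 8) :=
    Real.one_le_rpow (by norm_num) (by positivity)
  calc ‖proj (GS I.t k g) (I.v i)‖ ^ 2 = 1 * ‖proj (GS I.t k g) (I.v i)‖ ^ 2 := (one_mul _).symm
    _ ≤ _ := mul_le_mul_of_nonneg_right h1 (sq_nonneg _)

theorem s3_BB_nonneg (t : Fin d → ℝ) (g : Grp) : 0 ≤ BB t g := by
  unfold BB
  split_ifs <;> positivity

theorem s3_phi_nonneg (t : Fin d → ℝ) (k : ℕ) (g : Grp) : 0 ≤ phi t k g := by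
  unfold phi Cf
  have := s3_BB_nonneg t g
  positivity

theorem s3_grps_mem {k : ℕ} {g : Grp} : g ∈ grps k ↔ g.1 ≤ k := by
  unfold grps
  simp [Finset.mem_product]

/-- trace of a group -/
theorem s3_trace (k : ℕ) (X : Finset ι)
    (hF : ∀ g ∈ grps k, ∑ i ∈ X, ff I k g i ≤ phi I.t k g) (g : Grp) (hg : g ∈ grps k) :
    ∑ i ∈ X, ‖proj (GS I.t k g) (I.v i)‖ ^ 2 ≤ phi I.t k g :=
  (Finset.sum_le_sum (fun i _ => s3_proj_le_ff I k g i)).trans (hF g hg)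

open Classical in
/-- trace of the absorbed base groups -/
theorem s3_trace_abs (k : ℕ) (X : Finset ι)
    (hF : ∀ g ∈ grps k, ∑ i ∈ X, ff I k g i ≤ phi I.t k g) :
    ∑ i ∈ X, ‖proj (Jabs I.t k false) (I.v i)‖ ^ 2
      ≤ ∑ b ∈ (range (k + 1)).filter (fun b => absb I.t b k), phi I.t k (b, 0) := by
  calc ∑ i ∈ X, ‖proj (Jabs I.t k false) (I.v i)‖ ^ 2
      ≤ ∑ i ∈ X, ∑ b ∈ (range (k + 1)).filter (fun b => absb I.t b k),
          ‖proj (PP I.t b false) (I.v i)‖ ^ 2 := by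
        apply Finset.sum_le_sum
        intro i _
        unfold Jabs
        convert s3_proj_biUnion_le _ _ (I.v i)
    _ = ∑ b ∈ (range (k + 1)).filter (fun b => absb I.t b k), ∑ i ∈ X,
          ‖proj (PP I.t b false) (I.v i)‖ ^ 2 := Finset.sum_comm
    _ ≤ _ := by
        apply Finset.sum_le_sum
        intro b hb
        have hb' := Finset.mem_filter.mp hb
        have hg : ((b, 0) : Grp) ∈ grps k := by
          rw [s3_grps_mem]
          have := Finset.mem_range.mp hb'.1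
          simp only
          omega
        have h := s3_trace I k X hF (b, 0) hg
        rwa [(GS_abs I.t hb'.2).1] at h

/-- trace of the fine part of a noncritical group -/
theorem s3_trace_fine (k : ℕ) (X : Finset ι)
    (hF : ∀ g ∈ grps k, ∑ i ∈ X, ff I k g i ≤ phi I.t k g)
    (S : Grp → Finset ι) (hS : ∀ g ∈ grps k, ∀ i ∈ X, gran I k g i → i ∈ S g)
    (g : Grp) (hg : g ∈ grps k) (hc : ¬ critg I.t k g) :
    ∑ i ∈ X \ S g, ‖proj (GS I.t k g) (I.v i)‖ ^ 2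
      ≤ (2 : ℝ) ^ (-(age I.t k g : ℝ) / 8) * phi I.t k g := by
  have h1 : ∀ i ∈ X \ S g, ‖proj (GS I.t k g) (I.v i)‖ ^ 2
      = (2 : ℝ) ^ (-(age I.t k g : ℝ) / 8) * ff I k g i := by
    intro i hi
    have hi' := Finset.mem_sdiff.mp hi
    have h2 : ¬ gran I k g i := fun h => hi'.2 (hS g hg i hi'.1 h)
    have h3 : (2 : ℝ) ^ ((age I.t k g : ℝ) / 8) * ‖proj (GS I.t k g) (I.v i)‖ ^ 2 < 1 := by
      by_contra h
      exact h2 ⟨hc, not_lt.mp h⟩
    unfold ff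
    rw [min_eq_right h3.le, ← mul_assoc, ← Real.rpow_add (by norm_num)]
    have h4 : -(age I.t k g : ℝ) / 8 + (age I.t k g : ℝ) / 8 = 0 := by ring
    rw [h4, Real.rpow_zero, one_mul]
  rw [Finset.sum_congr rfl h1, ← Finset.mul_sum]
  apply mul_le_mul_of_nonneg_left _ (by positivity)
  exact (Finset.sum_le_sum_of_subset_of_nonneg Finset.sdiff_subset
    (fun i _ _ => s3_ff_nonneg I k g i)).trans (hF g hg)

/-! ### the families of tests -/

/-- tests of the first kind -/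
noncomputable def s3J1 (t : Fin d → ℝ) (k : ℕ) : Fin (k + 1) ⊕ Bool → Finset (Fin d)
  | Sum.inl b => GS t k (b.1, 1)
  | Sum.inr true => Jabs t k true
  | Sum.inr false => PP t (k + 1) false ∪ PP t (k + 1) true

noncomputable def s3x1 (t : Fin d → ℝ) (k : ℕ) : Fin (k + 1) ⊕ Bool → ℕ
  | Sum.inl b => age t k (b.1, 1)
  | Sum.inr _ => 0

/-- tests of the second kind -/
noncomputable def s3J2 (t : Fin d → ℝ) (k : ℕ) : Fin (k + 1) ⊕ Unit → Finset (Fin d)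
  | Sum.inl b => GS t k (b.1, 0)
  | Sum.inr _ => Jabs t k false

open Classical in
noncomputable def s3e2 (t : Fin d → ℝ) (k : ℕ) : Fin (k + 1) ⊕ Unit → ℝ
  | Sum.inl b => phi t k (b.1, 0)
  | Sum.inr _ => ∑ b ∈ (range (k + 1)).filter (fun b => absb t b k), phi t k (b, 0)

noncomputable def s3x2 (t : Fin d → ℝ) (k : ℕ) : Fin (k + 1) ⊕ Unit → ℕ
  | Sum.inl b => age t k (b.1, 0)
  | Sum.inr _ => 0

theorem s3_age_sum_fin (t : Fin d → ℝ) (k : ℕ) (τ : Fin 3) :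
    ∑ b : Fin (k + 1), Real.exp (-(age t k (b.1, τ) : ℝ)) ≤ 10 := by
  refine le_trans ?_ (exp_age_sum t k)
  have h1 : ∑ b : Fin (k + 1), Real.exp (-(age t k (b.1, τ) : ℝ))
      = ∑ g ∈ (univ : Finset (Fin (k + 1))).image (fun b => ((b.1, τ) : Grp)),
        Real.exp (-(age t k g : ℝ)) := by
    rw [Finset.sum_image]
    intro a _ b _ hab
    have := congrArg Prod.fst hab
    exact Fin.ext this
  rw [h1]
  apply Finset.sum_le_sum_of_subset_of_nonneg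
  · intro g hg
    obtain ⟨b, _, rfl⟩ := Finset.mem_image.mp hg
    rw [s3_grps_mem]
    have := b.2
    simp only
    omega
  · intro g _ _
    positivity

theorem s3_age_sum_grps (t : Fin d → ℝ) (k : ℕ) :
    ∑ g : {g // g ∈ grps k}, Real.exp (-(age t k g.1 : ℝ)) ≤ 10 := by
  refine le_trans ?_ (exp_age_sum t k)
  rw [Finset.sum_coe_sort (grps k) (fun g => Real.exp (-(age t k g : ℝ)))]
  apply Finset.sum_le_sum_of_subset_of_nonneg
  · intro g hg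
    rw [s3_grps_mem] at hg ⊢
    omega
  · intro g _ _
    positivity

theorem s3_hx (t : Fin d → ℝ) (k : ℕ) :
    ∑ b : {g // g ∈ grps (k + 1)}, Real.exp (-(age t k b.1 : ℝ))
      + ∑ a, Real.exp (-(s3x1 t k a : ℝ)) + ∑ a, Real.exp (-(s3x2 t k a : ℝ))
      + ∑ a : {g // g ∈ grps k}, Real.exp (-(age t k a.1 : ℝ)) ≤ 90 := by
  have h0 : ∑ b : {g // g ∈ grps (k + 1)}, Real.exp (-(age t k b.1 : ℝ)) ≤ 10 := by
    rw [Finset.sum_coe_sort (grps (k + 1)) (fun g => Real.exp (-(age t k g : ℝ)))]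
    exact exp_age_sum t k
  have h1 : ∑ a, Real.exp (-(s3x1 t k a : ℝ)) ≤ 12 := by
    rw [Fintype.sum_sum_type]
    have h := s3_age_sum_fin t k 1
    have h' : ∑ a : Bool, Real.exp (-(s3x1 t k (Sum.inr a) : ℝ)) = 2 := by
      simp [s3x1]
    have h'' : ∑ a : Fin (k + 1), Real.exp (-(s3x1 t k (Sum.inl a) : ℝ))
        = ∑ b : Fin (k + 1), Real.exp (-(age t k (b.1, 1) : ℝ)) := rfl
    rw [h', h'']
    linarith
  have h2 : ∑ a, Real.exp (-(s3x2 t k a : ℝ)) ≤ 11 := by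
    rw [Fintype.sum_sum_type]
    have h := s3_age_sum_fin t k 0
    have h' : ∑ a : Unit, Real.exp (-(s3x2 t k (Sum.inr a) : ℝ)) = 1 := by
      simp [s3x2]
    have h'' : ∑ a : Fin (k + 1), Real.exp (-(s3x2 t k (Sum.inl a) : ℝ))
        = ∑ b : Fin (k + 1), Real.exp (-(age t k (b.1, 0) : ℝ)) := rfl
    rw [h', h'']
    linarith
  have h3 := s3_age_sum_grps t k
  linarith

theorem s3_he2 (k : ℕ) (X : Finset ι)
    (hF : ∀ g ∈ grps k, ∑ i ∈ X, ff I k g i ≤ phi I.t k g) (a : Fin (k + 1) ⊕ Unit) :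
    ∑ i ∈ X, ‖proj (s3J2 I.t k a) (I.v i)‖ ^ 2 ≤ s3e2 I.t k a := by
  rcases a with b | u
  · apply s3_trace I k X hF (b.1, 0)
    rw [s3_grps_mem]
    have := b.2
    simp only
    omega
  · exact s3_trace_abs I k X hF

open Classical in
theorem s3_he3 (k : ℕ) (X : Finset ι)
    (hF : ∀ g ∈ grps k, ∑ i ∈ X, ff I k g i ≤ phi I.t k g)
    (S : Grp → Finset ι) (hS : ∀ g ∈ grps k, ∀ i ∈ X, gran I k g i → i ∈ S g)
    (a : {g // g ∈ grps k}) :
    ∑ i ∈ (if critg I.t k a.1 then ∅ else X \ S a.1), ‖proj (GS I.t k a.1) (I.v i)‖ ^ 2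
      ≤ (2 : ℝ) ^ (-(age I.t k a.1 : ℝ) / 8) * phi I.t k a.1 := by
  split_ifs with h
  · have := s3_phi_nonneg I.t k a.1
    simp only [Finset.sum_empty]
    positivity
  · exact s3_trace_fine I k X hF S hS a.1 a.2 h

omit [DecidableEq ι] in
theorem s3_uco (k : ℕ) (c : ι → ℕ) (y1 y2 : Vec d) (m : ℕ) (i : ι) :
    uco (ww I.t k) (fun i => ⟪y1, I.v i⟫) (fun i => ⟪y2, I.v i⟫) c m i
      = uu I k c (s3yb (MM I.t k) y1 y2 m) m i := by
  unfold uco uu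
  rw [s3yb_inner]
  rfl

omit [DecidableEq ι] in
theorem s3_phi_small (k : ℕ) (y : Vec d) (hy : ‖y‖ ≤ 1 / (2000 * MM I.t k)) (i : ι) :
    |⟪y, I.v i⟫| ≤ 1 / (2 * (MM I.t k : ℝ)) := by
  have hM : (0 : ℝ) < MM I.t k := by
    have := s3_MM_two_le I.t k
    exact_mod_cast (by omega : 0 < MM I.t k)
  calc |⟪y, I.v i⟫| ≤ ‖y‖ * ‖I.v i‖ := abs_real_inner_le_norm _ _
    _ ≤ ‖y‖ * 1 := mul_le_mul_of_nonneg_left (I.hv i) (norm_nonneg _)
    _ ≤ 1 / (2000 * MM I.t k) := by rw [mul_one]; exact hy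
    _ ≤ 1 / (2 * (MM I.t k : ℝ)) := by
        apply div_le_div_of_nonneg_left zero_le_one (by positivity)
        nlinarith

/-- upper bound from a two-sided cell estimate -/
theorem s3_cell_upper {ι : Type} (X : Finset ι) (f u : ι → ℝ) (hf : ∀ i ∈ X, 0 ≤ f i) (M : ℝ)
    (hM : 0 < M) (hu : ∀ i ∈ X, |u i| ≤ 1 / (1000 * M)) (s r : ℝ)
    (h : |s - ∑ i ∈ X, (1 / M + u i) * f i| ≤ r) :
    s ≤ (51 / 50) * (1 / M) * ∑ i ∈ X, f i + r := by
  have h1 : ∑ i ∈ X, (1 / M + u i) * f i ≤ (51 / 50) * (1 / M) * ∑ i ∈ X, f i := by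
    rw [Finset.mul_sum]
    apply Finset.sum_le_sum
    intro i hi
    apply mul_le_mul_of_nonneg_right _ (hf i hi)
    have h2 := (le_abs_self _).trans (hu i hi)
    have h3 : 1 / (1000 * M) = (1 / 1000) * (1 / M) := by
      field_simp
    have h4 : 0 < 1 / M := by positivity
    rw [h3] at h2
    linarith
  have h5 := (le_abs_self _).trans h
  linarith

theorem s3yb_supp (t : Fin d → ℝ) (k M : ℕ) (y1 y2 : Vec d)
    (s1 : ∀ j ∉ alive t (k + 1), y1 j = 0) (s2 : ∀ j ∉ alive t (k + 1), y2 j = 0)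
    (m : ℕ) (j : Fin d) (hj : j ∉ alive t (k + 1)) : s3yb M y1 y2 m j = 0 := by
  simp [s3yb, s1 j hj, s2 j hj]

theorem s3yc_supp (t : Fin d → ℝ) (k M : ℕ) (y1 y2 : Vec d)
    (s1 : ∀ j ∉ alive t (k + 1), y1 j = 0) (s2 : ∀ j ∉ alive t (k + 1), y2 j = 0)
    (m : ℕ) (j : Fin d) (hj : j ∉ alive t (k + 1)) : s3yc M y1 y2 m j = 0 := by
  unfold s3yc
  split_ifs <;> simp [s1 j hj, s2 j hj]

theorem s3_cancel {ι : Type} [DecidableEq ι] (v : ι → Vec d) (X : Finset ι) (y1 y2 : Vec d)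
    (M m : ℕ) (hM : M = 2 ∨ 4 ≤ M) (hm1 : 1 ≤ m) (hm2 : m < M) (j : Fin d) (a b : ℝ)
    (h1 : (∑ i ∈ X, ⟪y1, v i⟫ • v i) j = (1 - 1 / (M : ℝ)) * a + 1 / (M : ℝ) * b)
    (h2 : (∑ i ∈ X, ⟪y2, v i⟫ • v i) j = 1 / (M : ℝ) * a + (1 - 1 / (M : ℝ)) * b) :
    (∑ i ∈ X, ⟪s3yb M y1 y2 m, v i⟫ • v i) j = (1 - (m : ℝ) / M) * a + (m : ℝ) / M * b := by
  obtain ⟨_, _, h3⟩ := s3_tht M m hM hm1 hm2
  have h4 : ∑ i ∈ X, ⟪s3yb M y1 y2 m, v i⟫ • v i
      = (1 - tht M m) • (∑ i ∈ X, ⟪y1, v i⟫ • v i) + tht M m • (∑ i ∈ X, ⟪y2, v i⟫ • v i) := by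
    rw [Finset.smul_sum, Finset.smul_sum, ← Finset.sum_add_distrib]
    apply Finset.sum_congr rfl
    intro i _
    rw [s3yb_inner, add_smul, smul_smul, smul_smul]
  rw [h4]
  have h5 : ((1 - tht M m) • (∑ i ∈ X, ⟪y1, v i⟫ • v i)
      + tht M m • (∑ i ∈ X, ⟪y2, v i⟫ • v i)) j
      = (1 - tht M m) * (∑ i ∈ X, ⟪y1, v i⟫ • v i) j
        + tht M m * (∑ i ∈ X, ⟪y2, v i⟫ • v i) j := by
    simp only [PiLp.add_apply, PiLp.smul_apply, smul_eq_mul]
  rw [h5, h1, h2, ← h3]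
  ring

/-- **S3. One stage can be carried out.** -/
theorem stage_exists (k : ℕ) (X : Finset ι) (Ea Eb : Vec d)
    (hcov : CovOK I X (Lev I.t k) (alive I.t k))
    (hF : ∀ g ∈ grps k, ∑ i ∈ X, ff I k g i ≤ phi I.t k g)
    (S : Grp → Finset ι)
    (hcrit : ∀ g ∈ grps k, critg I.t k g → S g = ∅)
    (hS : ∀ g ∈ grps k, ∀ i ∈ X, gran I k g i → i ∈ S g) :
    ∃ (c : ι → ℕ) (yb yc : ℕ → Vec d), StageOut I k X Ea Eb S c yb yc := by
  classical
  obtain ⟨y1, y2, hw1, s1, s2, cn1, cn2, en1, en2, nm1, nm2⟩ := s3_tilts I k X Ea Eb hcov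
  obtain ⟨qm, hqm0, hqm1, hqm2⟩ := qmax I.t k
  have hMcases : MM I.t k = 2 ∨ 4 ≤ MM I.t k := by
    rcases s3_M_cases (ww I.t k) (ww_pos I.t k) with h | h
    · exact Or.inl h.2
    · exact Or.inr h.2
  obtain ⟨c, hc, hb, hcell⟩ := stage_core I.v I.hv I.t X (alive I.t (k + 1))
    (fun j => (2 : ℝ) ^ (-(I.t j - (Lev I.t (k + 1) : ℝ)) / 2)) cc qm
    (fun j _ => by positivity) hqm1 hqm0 (qsum I.t k)
    (ww I.t k) (wb I.t k) (ww_pos I.t k) (wb_cases I.t k)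
    (fun i => ⟪y1, I.v i⟫) (fun i => ⟪y2, I.v i⟫)
    (fun i _ => s3_phi_small I k y1 nm1 i) (fun i _ => s3_phi_small I k y2 nm2 i)
    (fun h => by rw [hw1 h])
    (ℬ := {g // g ∈ grps (k + 1)}) (𝒜₁ := Fin (k + 1) ⊕ Bool) (𝒜₂ := Fin (k + 1) ⊕ Unit)
    (𝒜₃ := {g // g ∈ grps k})
    (fun b i => ff I (k + 1) b.1 i) (fun b i => s3_ff_nonneg I (k + 1) b.1 i)
    (fun b => age I.t k b.1)
    (fun i _ => by
      rw [Finset.sum_coe_sort (grps (k + 1))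
        (fun g => (ff I (k + 1) g i / (3 * (1 + age I.t k g))) ^ 2)]
      exact func_weights I k i)
    (s3J1 I.t k) (s3x1 I.t k) (s3J2 I.t k) (s3e2 I.t k) (s3x2 I.t k) (s3_he2 I k X hF)
    (fun a => GS I.t k a.1) (fun a => if critg I.t k a.1 then ∅ else X \ S a.1)
    (fun a => (2 : ℝ) ^ (-(age I.t k a.1 : ℝ) / 8) * phi I.t k a.1) (fun a => age I.t k a.1)
    (fun a => by
      split_ifs
      · exact Finset.empty_subset _
      · exact Finset.sdiff_subset)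
    (s3_he3 I k X hF S hS) (s3_hx I.t k)
  simp only [s3_uco] at hb
  have hMMc : ((2 ^ ww I.t k : ℕ) : ℝ) = (MM I.t k : ℝ) := rfl
  have hMpos : (0 : ℝ) < MM I.t k := by
    have := s3_MM_two_le I.t k
    exact_mod_cast (by omega : 0 < MM I.t k)
  have hMinv : (2 : ℝ) ^ (-(ww I.t k : ℝ)) = 1 / (MM I.t k : ℝ) := by
    rw [s3_MM_cast, Real.rpow_neg (by norm_num), Real.rpow_natCast, one_div]
  have hcmb : ∀ m, cmb I X (uu I k c (s3yb (MM I.t k) y1 y2 m) m)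
      = ∑ i ∈ X, uu I k c (s3yb (MM I.t k) y1 y2 m) m i • I.v i := fun m => rfl
  have hG : (0 : ℝ) ≤ Gc := by norm_num [Gc]
  have hcw : ∀ m < MM I.t k, ∀ i,
      |cellw (2 ^ ww I.t k) (fun i => ⟪y1, I.v i⟫) (fun i => ⟪y2, I.v i⟫) m i|
        ≤ 1 / (1000 * (MM I.t k : ℝ)) := by
    intro m hm i
    have h1 := s3yc_inner (MM I.t k) y1 y2 I.v m i
    have h2 := s3_smallc y1 y2 (MM I.t k) m hMcases hm nm1 nm2
    have h3 : |⟪s3yc (MM I.t k) y1 y2 m, I.v i⟫| ≤ 1 / (1000 * (MM I.t k : ℝ)) :=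
      calc |⟪s3yc (MM I.t k) y1 y2 m, I.v i⟫|
          ≤ ‖s3yc (MM I.t k) y1 y2 m‖ * ‖I.v i‖ := abs_real_inner_le_norm _ _
        _ ≤ ‖s3yc (MM I.t k) y1 y2 m‖ * 1 :=
            mul_le_mul_of_nonneg_left (I.hv i) (norm_nonneg _)
        _ ≤ _ := by rw [mul_one]; exact h2
    rw [h1] at h3
    exact h3
  refine ⟨c, s3yb (MM I.t k) y1 y2, s3yc (MM I.t k) y1 y2, ?_⟩
  constructor
  · exact hc
  · exact fun m j hj => s3yb_supp I.t k _ y1 y2 s1 s2 m j hj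
  · exact fun m j hj => s3yc_supp I.t k _ y1 y2 s1 s2 m j hj
  · intro m hm1 hm2 j hj
    exact s3_cancel I.v X y1 y2 (MM I.t k) m hMcases hm1 hm2 j _ _ (cn1 j hj) (cn2 j hj)
  · intro m hm1 hm2
    obtain ⟨hθ0, hθ1, _⟩ := s3_tht (MM I.t k) m hMcases hm1 hm2
    have h := s3_enb I.v X y1 y2 (MM I.t k) m _ en1 en2 hθ0 hθ1
    rw [mul_div_assoc]
    exact h
  · intro m hm
    have h := s3_enc I.v X y1 y2 (MM I.t k) m _ hMcases hm en1 en2
    rw [mul_div_assoc]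
    exact h
  · intro m hm
    exact s3_smallc y1 y2 (MM I.t k) m hMcases hm nm1 nm2
  · intro m hm1 hm2 l
    exact (hb m hm1 hm2).1 l
  · intro m hm1 hm2 b hbk _ _
    have h := (hb m hm1 hm2).2.2.1 (Sum.inl ⟨b, by omega⟩)
    exact h
  · intro m hm1 hm2 b hbk _ _
    have h := (hb m hm1 hm2).2.1 (Sum.inl ⟨b, by omega⟩)
    refine h.trans ?_
    apply mul_le_mul_of_nonneg_left _ hG
    have h1 : ((GS I.t k (b, 1)).card : ℝ) ≤ ((PP I.t b true).card : ℝ) := by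
      have h2 : GS I.t k (b, 1) ⊆ PP I.t b true := by
        unfold GS
        simp only
        split_ifs <;> simp_all
      exact_mod_cast Finset.card_le_card h2
    have h3 : ((s3J1 I.t k (Sum.inl ⟨b, by omega⟩)).card : ℝ) = ((GS I.t k (b, 1)).card : ℝ) := rfl
    have h4 : (s3x1 I.t k (Sum.inl ⟨b, by omega⟩) : ℝ) = (age I.t k (b, 1) : ℝ) := rfl
    rw [h3, h4]
    linarith
  · intro m hm1 hm2 g hg hcg
    have h := (hb m hm1 hm2).2.2.2 ⟨g, hg⟩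
    simp only [if_neg hcg] at h
    exact h
  · intro m hm1 hm2
    have h := (hb m hm1 hm2).2.2.1 (Sum.inr ())
    have h1 : (s3x2 I.t k (Sum.inr ()) : ℝ) = 0 := by simp [s3x2]
    rw [h1, add_zero] at h
    exact h
  · intro m hm1 hm2
    have h := (hb m hm1 hm2).2.1 (Sum.inr true)
    have h1 : (s3x1 I.t k (Sum.inr true) : ℝ) = 0 := by simp [s3x1]
    rw [h1, add_zero] at h
    refine h.trans ?_
    apply mul_le_mul_of_nonneg_left _ hG
    have h2 : ((s3J1 I.t k (Sum.inr true)).card : ℝ)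
        ≤ ∑ b ∈ (range (k + 1)).filter (fun b => absb I.t b k), ((PP I.t b true).card : ℝ) := by
      have h3 : (s3J1 I.t k (Sum.inr true)).card
          ≤ ∑ b ∈ (range (k + 1)).filter (fun b => absb I.t b k), (PP I.t b true).card := by
        have h4 : s3J1 I.t k (Sum.inr true) = Jabs I.t k true := rfl
        rw [h4]
        unfold Jabs
        exact Finset.card_biUnion_le
      exact_mod_cast h3
    linarith
  · intro m hm1 hm2
    have h := (hb m hm1 hm2).2.1 (Sum.inr false)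
    have h1 : (s3x1 I.t k (Sum.inr false) : ℝ) = 0 := by simp [s3x1]
    rw [h1, add_zero] at h
    refine h.trans ?_
    apply mul_le_mul_of_nonneg_left _ hG
    have h2 : ((s3J1 I.t k (Sum.inr false)).card : ℝ)
        ≤ ((PP I.t (k + 1) false).card : ℝ) + ((PP I.t (k + 1) true).card : ℝ) := by
      have h3 : (s3J1 I.t k (Sum.inr false)).card
          ≤ (PP I.t (k + 1) false).card + (PP I.t (k + 1) true).card :=
        Finset.card_union_le _ _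
      exact_mod_cast h3
    linarith
  · intro m hm g hg
    have h := (hcell m hm).1 ⟨g, hg⟩
    rw [hMinv]
    exact s3_cell_upper X (fun i => ff I (k + 1) g i) _ (fun i _ => s3_ff_nonneg I (k + 1) g i)
      (MM I.t k) hMpos (fun i _ => hcw m hm i) _ _ h
  · intro m hm
    have h := (hcell m hm).2.1
    refine le_trans (le_of_eq ?_) (h.trans hqm2)
    apply Finset.sum_congr rfl
    intro j _
    apply Finset.sum_congr rfl
    intro j' _
    rw [← Real.rpow_add (by norm_num)]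
    congr 2
    · congr 1
      apply Finset.sum_congr rfl
      intro i _
      rw [s3yc_inner]
      rfl
    · ring
  · intro m hm
    have h := (hcell m hm).2.2
    rw [hMinv]
    have h1 := s3_cell_upper X (fun _ => (1 : ℝ)) _ (fun _ _ => zero_le_one)
      (MM I.t k) hMpos (fun i _ => hcw m hm i) ((X.filter (fun i => c i = m)).card : ℝ)
      (5000 * Real.sqrt (1 + wb I.t k)) (by
        simp only [mul_one]
        exact h)
    simpa using h1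

end Vale.Agent.P262B
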