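import Vale.Agent.P262B.N2

open scoped BigOperators RealInnerProductSpace
open Finset

namespace Vale.Agent.P262B

variable {d : ℕ} {ι : Type} [Fintype ι] [DecidableEq ι] (I : Inst d ι)

theorem s4_proj_apply (J : Finset (Fin d)) (x : Vec d) (j : Fin d) :
    proj J x j = if j ∈ J then x j else 0 := by
  simp [proj]

theorem s4_norm_sq (x : Vec d) : ‖x‖ ^ 2 = ∑ j, x j ^ 2 := by
  rw [EuclideanSpace.norm_sq_eq]
  simp

theorem s4_proj_norm_sq (J : Finset (Fin d)) (x : Vec d) : ‖proj J x‖ ^ 2 = ∑ j ∈ J, x j ^ 2 := by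
  rw [s4_norm_sq]
  rw [← Finset.sum_subset (Finset.subset_univ J)]
  · apply Finset.sum_congr rfl
    intro j hj
    rw [s4_proj_apply, if_pos hj]
  · intro j _ hj
    rw [s4_proj_apply, if_neg hj]
    simp

theorem s4_proj_empty (x : Vec d) : proj ∅ x = 0 := by
  ext j; simp [proj]

theorem s4_proj_le_one (J : Finset (Fin d)) (i : ι) : ‖proj J (I.v i)‖ ^ 2 ≤ 1 := by
  have h1 : ‖proj J (I.v i)‖ ^ 2 ≤ ‖I.v i‖ ^ 2 := by
    rw [s4_proj_norm_sq, s4_norm_sq]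
    exact Finset.sum_le_sum_of_subset_of_nonneg (Finset.subset_univ _)
      (fun _ _ _ => sq_nonneg _)
  have h2 := I.hv i
  nlinarith [norm_nonneg (I.v i)]

theorem s4_two_rpow_age (n : ℕ) (c : ℝ) (hc : 0 < c) : (1 : ℝ) ≤ (2 : ℝ) ^ ((n : ℝ) / c) := by
  apply Real.one_le_rpow (by norm_num)
  positivity

theorem s4_ff_nonneg (k : ℕ) (g : Grp) (i : ι) : 0 ≤ ff I k g i := by
  unfold ff
  apply le_min (by norm_num)
  positivity

theorem s4_proj_le_ff (k : ℕ) (g : Grp) (i : ι) : ‖proj (GS I.t k g) (I.v i)‖ ^ 2 ≤ ff I k g i := by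
  unfold ff
  apply le_min (s4_proj_le_one I _ i)
  have h1 := s4_two_rpow_age (age I.t k g) 8 (by norm_num)
  nlinarith [sq_nonneg ‖proj (GS I.t k g) (I.v i)‖]

theorem s4_ff_le (k : ℕ) (g : Grp) (i : ι) :
    ff I k g i ≤ (2 : ℝ) ^ ((age I.t k g : ℝ) / 8) * ‖proj (GS I.t k g) (I.v i)‖ ^ 2 :=
  min_le_right _ _

theorem s4_BB_nonneg (t : Fin d → ℝ) (g : Grp) : 0 ≤ BB t g := by
  unfold BB
  split_ifs
  · positivity
  · positivity
  · exact le_rfl

theorem s4_phi_nonneg (t : Fin d → ℝ) (k : ℕ) (g : Grp) : 0 ≤ phi t k g := by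
  unfold phi Cf
  have := s4_BB_nonneg t g
  positivity

/-- trace bound for one coordinate -/
theorem s4_coord (k : ℕ) (X : Finset ι)
    (hcov : CovOK I X (Lev I.t k) (alive I.t k)) (j : Fin d) (hj : j ∈ alive I.t k) :
    ∑ i ∈ X, (I.v i j) ^ 2 ≤ (5 / 4) * (2 : ℝ) ^ (I.t j - Lev I.t k) := by
  have hz : (zz I.t k : ℝ) < I.t j := (Finset.mem_filter.mp hj).2
  have hL : (Lev I.t k : ℝ) ≤ zz I.t k := by exact_mod_cast Lev_le_zz I.t k
  have h := hcov (Lev I.t k) le_rfl (EuclideanSpace.single j (1 : ℝ)) (by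
    intro j' hj'
    have : j' = j := by
      by_contra hne
      apply hj'
      simp [hne]
    subst this
    exact ⟨hj, by linarith⟩)
  have e1 : ∑ i ∈ X, ⟪(EuclideanSpace.single j (1 : ℝ) : Vec d), I.v i⟫ ^ 2
      = ∑ i ∈ X, (I.v i j) ^ 2 := by
    apply Finset.sum_congr rfl
    intro i _
    rw [EuclideanSpace.inner_single_left]
    simp
  have e2 : ∑ j', (2 : ℝ) ^ (I.t j' - Lev I.t k) * ((EuclideanSpace.single j (1 : ℝ) : Vec d) j') ^ 2
      = (2 : ℝ) ^ (I.t j - Lev I.t k) := by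
    rw [Finset.sum_eq_single j]
    · simp
    · intro j' _ hne
      simp [hne]
    · simp
  rw [e1, e2] at h
  have h3 := (abs_le.mp h).2
  have h4 : (2 : ℝ) ^ (-((Lev I.t k : ℝ) - Lev I.t k) / 2) = 1 := by simp
  rw [h4] at h3
  linarith

theorem s4_trace (k : ℕ) (X : Finset ι)
    (hcov : CovOK I X (Lev I.t k) (alive I.t k)) (J : Finset (Fin d)) (hJ : J ⊆ alive I.t k) :
    ∑ i ∈ X, ‖proj J (I.v i)‖ ^ 2 ≤ (5 / 4) * ∑ j ∈ J, (2 : ℝ) ^ (I.t j - Lev I.t k) := by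
  calc ∑ i ∈ X, ‖proj J (I.v i)‖ ^ 2 = ∑ j ∈ J, ∑ i ∈ X, (I.v i j) ^ 2 := by
        rw [Finset.sum_comm]
        apply Finset.sum_congr rfl
        intro i _
        rw [s4_proj_norm_sq]
    _ ≤ ∑ j ∈ J, (5 / 4) * (2 : ℝ) ^ (I.t j - Lev I.t k) :=
        Finset.sum_le_sum (fun j hj => s4_coord I k X hcov j (hJ hj))
    _ = _ := by rw [Finset.mul_sum]

theorem s4_PP_subset (t : Fin d → ℝ) (k : ℕ) (τ : Bool) : PP t (k + 1) τ ⊆ alive t k := by
  intro j hj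
  unfold alive
  cases τ <;> simp only [PP, Finset.mem_filter, Finset.mem_univ, true_and] at hj ⊢ <;> exact hj.1

theorem s4_rpow_split (a b c : ℝ) : (2 : ℝ) ^ (a - b) = (2 : ℝ) ^ (c - b) * (2 : ℝ) ^ (a - c) := by
  rw [← Real.rpow_add (by norm_num)]
  congr 1
  ring

theorem s4_pow_half {w : ℕ} (hw : 1 ≤ w) : (2 : ℝ) ^ (-(3 / 4) * (w : ℝ)) ≤ 0.6 := by
  have h1 : (2 : ℝ) ^ (-(3 / 4) * (w : ℝ)) ≤ (2 : ℝ) ^ (-(3 / 4 : ℝ)) := by
    apply Real.rpow_le_rpow_of_exponent_le (by norm_num)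
    have : (1 : ℝ) ≤ w := by exact_mod_cast hw
    linarith
  refine h1.trans ?_
  have h2 : ((2 : ℝ) ^ (-(3 / 4 : ℝ))) ^ 4 ≤ 0.6 ^ 4 := by
    rw [← Real.rpow_natCast, ← Real.rpow_mul (by norm_num)]
    norm_num
  exact le_of_pow_le_pow_left₀ (by norm_num) (by norm_num) h2

theorem s4_pow_eighth {w : ℕ} (hw : 1 ≤ w) :
    (51 / 50) * (2 : ℝ) ^ (-(w : ℝ) / 8) ≤ 1 := by
  have h1 : (2 : ℝ) ^ (-(w : ℝ) / 8) ≤ (2 : ℝ) ^ (-(1 / 8 : ℝ)) := by
    apply Real.rpow_le_rpow_of_exponent_le (by norm_num)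
    have : (1 : ℝ) ≤ w := by exact_mod_cast hw
    linarith
  have h2 : ((2 : ℝ) ^ (-(1 / 8 : ℝ))) ^ 8 ≤ (50 / 51) ^ 8 := by
    rw [← Real.rpow_natCast, ← Real.rpow_mul (by norm_num)]
    norm_num
  have h3 : (2 : ℝ) ^ (-(1 / 8 : ℝ)) ≤ 50 / 51 :=
    le_of_pow_le_pow_left₀ (by norm_num) (by norm_num) h2
  nlinarith

/-- persisting groups -/
theorem s4_persist (k : ℕ) (X : Finset ι) (g : Grp) (hg : g ∈ grps k)
    (hGS : GS I.t (k + 1) g = GS I.t k g)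
    (hF : ∑ i ∈ X, ff I k g i ≤ phi I.t k g) :
    (51 / 50) * (2 : ℝ) ^ (-(ww I.t k : ℝ)) * ∑ i ∈ X, ff I (k + 1) g i
        + 15000 * (1 + age I.t k g) * Real.sqrt (1 + wb I.t k + age I.t k g)
      ≤ phi I.t (k + 1) g := by
  set w := ww I.t k with hw
  set s := age I.t k g with hs
  have hw1 : 1 ≤ w := ww_pos I.t k
  have hage : age I.t (k + 1) g = s + w := age_succ I.t hg
  have hff : ∀ i, ff I (k + 1) g i ≤ (2 : ℝ) ^ ((w : ℝ) / 8) * ff I k g i := by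
    intro i
    have h1 := s4_two_rpow_age w 8 (by norm_num)
    unfold ff
    rw [hGS, hage, ← hs]
    rw [mul_min_of_nonneg _ _ (by positivity)]
    apply min_le_min
    · simpa using h1
    · rw [← mul_assoc, ← Real.rpow_add (by norm_num)]
      apply le_of_eq
      congr 2
      push_cast
      ring
  have hsum : ∑ i ∈ X, ff I (k + 1) g i ≤ (2 : ℝ) ^ ((w : ℝ) / 8) * phi I.t k g := by
    calc ∑ i ∈ X, ff I (k + 1) g i ≤ ∑ i ∈ X, (2 : ℝ) ^ ((w : ℝ) / 8) * ff I k g i :=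
          Finset.sum_le_sum (fun i _ => hff i)
      _ = (2 : ℝ) ^ ((w : ℝ) / 8) * ∑ i ∈ X, ff I k g i := by rw [Finset.mul_sum]
      _ ≤ _ := by gcongr
  have hphi := s4_phi_nonneg I.t k g
  have h1 : (51 / 50) * (2 : ℝ) ^ (-(w : ℝ)) * ∑ i ∈ X, ff I (k + 1) g i
      ≤ (2 : ℝ) ^ (-(3 / 4) * (w : ℝ)) * phi I.t k g := by
    calc (51 / 50) * (2 : ℝ) ^ (-(w : ℝ)) * ∑ i ∈ X, ff I (k + 1) g i
        ≤ (51 / 50) * (2 : ℝ) ^ (-(w : ℝ)) * ((2 : ℝ) ^ ((w : ℝ) / 8) * phi I.t k g) := by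
          gcongr
      _ = ((51 / 50) * (2 : ℝ) ^ (-(w : ℝ) / 8)) * ((2 : ℝ) ^ (-(3 / 4) * (w : ℝ)) * phi I.t k g) := by
          have : (2 : ℝ) ^ (-(w : ℝ)) * (2 : ℝ) ^ ((w : ℝ) / 8)
              = (2 : ℝ) ^ (-(w : ℝ) / 8) * (2 : ℝ) ^ (-(3 / 4) * (w : ℝ)) := by
            rw [← Real.rpow_add (by norm_num), ← Real.rpow_add (by norm_num)]
            congr 1
            ring
          calc _ = (51 / 50) * ((2 : ℝ) ^ (-(w : ℝ)) * (2 : ℝ) ^ ((w : ℝ) / 8)) * phi I.t k g := by ring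
            _ = _ := by rw [this]; ring
      _ ≤ 1 * ((2 : ℝ) ^ (-(3 / 4) * (w : ℝ)) * phi I.t k g) := by
          gcongr
          exact s4_pow_eighth hw1
      _ = _ := one_mul _
  have hsq : Real.sqrt (1 + wb I.t k + s) ≤ 1 + s + w := by
    rw [Real.sqrt_le_left (by positivity)]
    have h2 : (wb I.t k : ℝ) ≤ w := by exact_mod_cast wb_le I.t k
    have h3 : (0 : ℝ) ≤ s := by positivity
    have h4 : (1 : ℝ) ≤ w := by exact_mod_cast hw1
    nlinarith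
  have hphi' : phi I.t k g = Cf * ((2 : ℝ) ^ (-(3 / 4) * (s : ℝ)) * BB I.t g + (1 + (s : ℝ)) ^ 2) := rfl
  have hphi2 : phi I.t (k + 1) g
      = Cf * ((2 : ℝ) ^ (-(3 / 4) * (w : ℝ)) * ((2 : ℝ) ^ (-(3 / 4) * (s : ℝ)) * BB I.t g)
        + (1 + (s : ℝ) + w) ^ 2) := by
    unfold phi
    rw [hage]
    congr 2
    · rw [← mul_assoc, ← Real.rpow_add (by norm_num)]
      congr 2
      push_cast
      ring
    · push_cast
      ring
  rw [hphi2]
  have h5 := s4_pow_half hw1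
  have h6 : (0 : ℝ) ≤ s := by positivity
  have h7 : (0 : ℝ) ≤ w := by positivity
  have h8 : (1 + (s : ℝ)) * Real.sqrt (1 + wb I.t k + s) ≤ (1 + (s : ℝ) + w) ^ 2 := by
    calc (1 + (s : ℝ)) * Real.sqrt (1 + wb I.t k + s) ≤ (1 + (s : ℝ) + w) * (1 + s + w) :=
          mul_le_mul (by linarith) hsq (Real.sqrt_nonneg _) (by positivity)
      _ = _ := by ring
  have h9 : (2 : ℝ) ^ (-(3 / 4) * (w : ℝ)) * (1 + (s : ℝ)) ^ 2 ≤ 0.6 * (1 + (s : ℝ) + w) ^ 2 := by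
    exact mul_le_mul h5 (pow_le_pow_left₀ (by positivity) (by linarith) 2) (by positivity)
      (by norm_num)
  have h10 : (0 : ℝ) ≤ (2 : ℝ) ^ (-(3 / 4) * (w : ℝ)) := by positivity
  rw [hphi'] at h1
  have hpos : 0 ≤ (1 + (s : ℝ) + w) ^ 2 := by positivity
  have e1 : (2 : ℝ) ^ (-(3 / 4) * (w : ℝ)) * (Cf * ((2 : ℝ) ^ (-(3 / 4) * (s : ℝ)) * BB I.t g + (1 + (s : ℝ)) ^ 2))
      = Cf * ((2 : ℝ) ^ (-(3 / 4) * (w : ℝ)) * ((2 : ℝ) ^ (-(3 / 4) * (s : ℝ)) * BB I.t g))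
        + Cf * ((2 : ℝ) ^ (-(3 / 4) * (w : ℝ)) * (1 + (s : ℝ)) ^ 2) := by ring
  rw [e1] at h1
  have hCf : (Cf : ℝ) = 10 ^ 9 := rfl
  rw [hCf] at h1 ⊢
  nlinarith

theorem s4_clog_le (n : ℕ) : Nat.clog 2 n ≤ n := by
  apply Nat.clog_le_of_le_pow
  exact Nat.lt_two_pow_self.le

theorem s4_big {w : ℕ} (hw : 64 < w) : (2 * (w : ℝ)) ^ 7 ≤ (2 : ℝ) ^ (7 / 8 * (w : ℝ)) := by
  have hw' : (64 : ℝ) < w := by exact_mod_cast hw
  have h1 : 2 * (w : ℝ) ≤ (2 : ℝ) ^ ((w : ℝ) / 8) := by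
    have h2 : (2 : ℝ) ^ ((w : ℝ) / 8) = 2 ^ 8 * (2 : ℝ) ^ ((w : ℝ) / 8 - 8) := by
      rw [Real.rpow_sub (by norm_num)]
      norm_num
      ring
    have h3 : 1 + ((w : ℝ) / 8 - 8) * 0.69 ≤ (2 : ℝ) ^ ((w : ℝ) / 8 - 8) := by
      rw [Real.rpow_def_of_pos (by norm_num)]
      have h4 := Real.add_one_le_exp (Real.log 2 * ((w : ℝ) / 8 - 8))
      have h5 : (0.69 : ℝ) ≤ Real.log 2 := by
        have := Real.log_two_gt_d9
        linarith
      have h6 : (0 : ℝ) ≤ (w : ℝ) / 8 - 8 := by linarith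
      nlinarith
    rw [h2]
    nlinarith
  calc (2 * (w : ℝ)) ^ 7 ≤ ((2 : ℝ) ^ ((w : ℝ) / 8)) ^ 7 := by gcongr
    _ = (2 : ℝ) ^ (7 / 8 * (w : ℝ)) := by
        rw [← Real.rpow_natCast, ← Real.rpow_mul (by norm_num)]
        congr 1
        push_cast
        ring

theorem s4_sqrt_le (x : ℝ) (hx : 0 ≤ x) : Real.sqrt (1 + x) ≤ 1 + x := by
  rw [Real.sqrt_le_left (by positivity)]
  nlinarith

/-- new groups of type `0`, `1` -/
theorem s4_new (k : ℕ) (X : Finset ι) (hcov : CovOK I X (Lev I.t k) (alive I.t k)) (g : Grp)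
    (τ : Bool) (hGS : GS I.t (k + 1) g = PP I.t (k + 1) τ) (hage : age I.t (k + 1) g = 0) :
    (51 / 50) * (2 : ℝ) ^ (-(ww I.t k : ℝ)) * ∑ i ∈ X, ff I (k + 1) g i
      ≤ 1.275 * ∑ j ∈ PP I.t (k + 1) τ, (2 : ℝ) ^ (I.t j - Lev I.t (k + 1)) := by
  set w := ww I.t k with hw
  have h1 : ∑ i ∈ X, ff I (k + 1) g i ≤ (5 / 4) * ∑ j ∈ PP I.t (k + 1) τ, (2 : ℝ) ^ (I.t j - Lev I.t k) := by
    refine le_trans ?_ (s4_trace I k X hcov _ (s4_PP_subset I.t k τ))
    apply Finset.sum_le_sum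
    intro i _
    refine (s4_ff_le I (k + 1) g i).trans ?_
    rw [hage, hGS]
    simp
  have h2 : ∑ j ∈ PP I.t (k + 1) τ, (2 : ℝ) ^ (I.t j - Lev I.t k)
      = (2 : ℝ) ^ (w : ℝ) * ∑ j ∈ PP I.t (k + 1) τ, (2 : ℝ) ^ (I.t j - Lev I.t (k + 1)) := by
    rw [Finset.mul_sum]
    apply Finset.sum_congr rfl
    intro j _
    rw [← Real.rpow_add (by norm_num)]
    congr 1
    rw [Lev_succ]
    push_cast
    ring
  rw [h2] at h1
  have h3 : (2 : ℝ) ^ (-(w : ℝ)) * (2 : ℝ) ^ (w : ℝ) = 1 := by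
    rw [← Real.rpow_add (by norm_num)]; simp
  calc (51 / 50) * (2 : ℝ) ^ (-(w : ℝ)) * ∑ i ∈ X, ff I (k + 1) g i
      ≤ (51 / 50) * (2 : ℝ) ^ (-(w : ℝ)) * ((5 / 4) * ((2 : ℝ) ^ (w : ℝ) *
          ∑ j ∈ PP I.t (k + 1) τ, (2 : ℝ) ^ (I.t j - Lev I.t (k + 1)))) := by gcongr
    _ = 1.275 * ((2 : ℝ) ^ (-(w : ℝ)) * (2 : ℝ) ^ (w : ℝ)) *
          ∑ j ∈ PP I.t (k + 1) τ, (2 : ℝ) ^ (I.t j - Lev I.t (k + 1)) := by ring
    _ = _ := by rw [h3, mul_one]

open Classical in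
/-- number of absorbed groups -/
theorem s4_card_abs (t : Fin d → ℝ) (k : ℕ) :
    ((range (k + 1)).filter (fun b => absb t b k)).card ≤ 4 * (ww t k) ^ 2 := by
  have h1 : ((range (k + 1)).filter (fun b => absb t b k)).card ≤ (range (4 * (ww t k) ^ 2)).card := by
    apply Finset.card_le_card_of_injOn (fun b => Lev t k - Lev t b)
    · intro b hb
      have hb' := (Finset.mem_filter.mp hb).2
      obtain ⟨hbk, hc, hN⟩ := hb'
      have h2 : sstar t b ≤ 4 * (ww t k) ^ 2 := by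
        unfold sstar
        have := s4_clog_le (NN t b)
        omega
      have h3 : Lev t k < Lev t b + sstar t b := hc
      have h4 : Lev t b + (k - b) ≤ Lev t k := Lev_mono t hbk
      simp only [Finset.coe_range, Set.mem_Iio]
      have : 0 < sstar t b := by omega
      omega
    · intro b hb b' hb' heq
      have hbk := (Finset.mem_filter.mp hb).2.1
      have hbk' := (Finset.mem_filter.mp hb').2.1
      have h4 : Lev t b + (k - b) ≤ Lev t k := Lev_mono t hbk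
      have h5 : Lev t b' + (k - b') ≤ Lev t k := Lev_mono t hbk'
      simp only at heq
      rcases Nat.lt_trichotomy b b' with h | h | h
      · have := Lev_mono t h.le
        omega
      · exact h
      · have := Lev_mono t h.le
        omega
  simpa using h1

/-- one absorbed group -/
theorem s4_abs_phi (t : Fin d → ℝ) (k b : ℕ) (h : absb t b k) :
    phi t k (b, 0) + phi t k (b, 1) ≤
      Cf * ((ww t k : ℝ) ^ 2 + (ww t k : ℝ) ^ 5 + 2 * (1 + 4 * (ww t k : ℝ) ^ 2) ^ 2) := by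
  obtain ⟨hbk, hc, hN⟩ := h
  have hw64 := (absb_ww t (⟨hbk, hc, hN⟩ : absb t b k)).1
  set w := ww t k with hw
  have hN' : (NN t b : ℝ) ≤ (w : ℝ) ^ 2 := by exact_mod_cast hN.le
  have hwr : (1 : ℝ) ≤ w := by
    have : 1 ≤ w := by omega
    exact_mod_cast this
  have hwc : (wc t b : ℝ) ≤ (w : ℝ) ^ 2 := by
    have h1 := NN_ge_wc t b
    have h2 : wc t b ≤ w ^ 2 := by omega
    exact_mod_cast h2
  have hwc2 : (wc t b : ℝ) ^ (9 / 4 : ℝ) ≤ (w : ℝ) ^ 5 := by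
    calc (wc t b : ℝ) ^ (9 / 4 : ℝ) ≤ ((w : ℝ) ^ 2) ^ (9 / 4 : ℝ) := by
          apply Real.rpow_le_rpow (by positivity) hwc (by norm_num)
      _ = (w : ℝ) ^ (9 / 2 : ℝ) := by
          rw [← Real.rpow_natCast, ← Real.rpow_mul (by positivity)]
          norm_num
      _ ≤ (w : ℝ) ^ (5 : ℝ) := Real.rpow_le_rpow_of_exponent_le hwr (by norm_num)
      _ = (w : ℝ) ^ 5 := by
          rw [← Real.rpow_natCast]; norm_num
  have hs : Lev t k - Lev t b ≤ 4 * w ^ 2 := by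
    have h2 : sstar t b ≤ 4 * w ^ 2 := by
      unfold sstar
      have := s4_clog_le (NN t b)
      omega
    have h3 : Lev t k < Lev t b + sstar t b := hc
    omega
  have hs' : ((Lev t k - Lev t b : ℕ) : ℝ) ≤ 4 * (w : ℝ) ^ 2 := by exact_mod_cast hs
  have hp : (2 : ℝ) ^ (-(3 / 4) * ((Lev t k - Lev t b : ℕ) : ℝ)) ≤ 1 := by
    apply Real.rpow_le_one_of_one_le_of_nonpos (by norm_num)
    have : (0 : ℝ) ≤ ((Lev t k - Lev t b : ℕ) : ℝ) := by positivity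
    linarith
  have hp0 : 0 ≤ (2 : ℝ) ^ (-(3 / 4) * ((Lev t k - Lev t b : ℕ) : ℝ)) := by positivity
  have e0 : phi t k (b, 0) = Cf * ((2 : ℝ) ^ (-(3 / 4) * ((Lev t k - Lev t b : ℕ) : ℝ)) * (NN t b : ℝ)
      + (1 + ((Lev t k - Lev t b : ℕ) : ℝ)) ^ 2) := by
    simp [phi, age, BB]
  have e1 : phi t k (b, 1) = Cf * ((2 : ℝ) ^ (-(3 / 4) * ((Lev t k - Lev t b : ℕ) : ℝ)) *
      (wc t b : ℝ) ^ (9 / 4 : ℝ) + (1 + ((Lev t k - Lev t b : ℕ) : ℝ)) ^ 2) := by
    simp [phi, age, BB]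
  rw [e0, e1, ← mul_add]
  have hCf : (0 : ℝ) ≤ Cf := by unfold Cf; positivity
  apply mul_le_mul_of_nonneg_left _ hCf
  have a1 : (2 : ℝ) ^ (-(3 / 4) * ((Lev t k - Lev t b : ℕ) : ℝ)) * (NN t b : ℝ) ≤ (w : ℝ) ^ 2 := by
    calc _ ≤ 1 * (NN t b : ℝ) := by gcongr
      _ ≤ _ := by linarith
  have a2 : (2 : ℝ) ^ (-(3 / 4) * ((Lev t k - Lev t b : ℕ) : ℝ)) * (wc t b : ℝ) ^ (9 / 4 : ℝ)
      ≤ (w : ℝ) ^ 5 := by
    calc _ ≤ 1 * (wc t b : ℝ) ^ (9 / 4 : ℝ) := by gcongr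
      _ ≤ _ := by linarith
  have a3 : (1 + ((Lev t k - Lev t b : ℕ) : ℝ)) ^ 2 ≤ (1 + 4 * (w : ℝ) ^ 2) ^ 2 :=
    pow_le_pow_left₀ (by positivity) (by linarith) 2
  linarith

/-- the merged group: trace -/
theorem s4_merged_trace (k : ℕ) (X : Finset ι)
    (hF : ∀ g ∈ grps k, ∑ i ∈ X, ff I k g i ≤ phi I.t k g) :
    ∑ i ∈ X, ‖proj (Jabs I.t k false ∪ Jabs I.t k true) (I.v i)‖ ^ 2
      ≤ 4 * (ww I.t k : ℝ) ^ 2 * (Cf * ((ww I.t k : ℝ) ^ 2 + (ww I.t k : ℝ) ^ 5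
        + 2 * (1 + 4 * (ww I.t k : ℝ) ^ 2) ^ 2)) := by
  classical
  set A := (range (k + 1)).filter (fun b => absb I.t b k) with hA
  have hsub : Jabs I.t k false ∪ Jabs I.t k true
      ⊆ A.biUnion (fun b => PP I.t b false ∪ PP I.t b true) := by
    intro j hj
    rcases Finset.mem_union.mp hj with hj | hj
    all_goals
      unfold Jabs at hj
      obtain ⟨b, hb, hjb⟩ := Finset.mem_biUnion.mp hj
      refine Finset.mem_biUnion.mpr ⟨b, ?_, ?_⟩
      · rw [hA]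
        convert hb
      · first
          | exact Finset.mem_union_left _ hjb
          | exact Finset.mem_union_right _ hjb
  have hA_mem : ∀ b ∈ A, absb I.t b k := fun b hb => (Finset.mem_filter.mp hb).2
  have h1 : ∀ i, ‖proj (Jabs I.t k false ∪ Jabs I.t k true) (I.v i)‖ ^ 2
      ≤ ∑ b ∈ A, (ff I k (b, 0) i + ff I k (b, 1) i) := by
    intro i
    rw [s4_proj_norm_sq]
    calc ∑ j ∈ Jabs I.t k false ∪ Jabs I.t k true, (I.v i j) ^ 2
        ≤ ∑ j ∈ A.biUnion (fun b => PP I.t b false ∪ PP I.t b true), (I.v i j) ^ 2 :=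
          Finset.sum_le_sum_of_subset_of_nonneg hsub (fun _ _ _ => sq_nonneg _)
      _ = ∑ b ∈ A, ∑ j ∈ PP I.t b false ∪ PP I.t b true, (I.v i j) ^ 2 := by
          apply Finset.sum_biUnion
          intro b hb b' hb' hne
          rw [Function.onFun, Finset.disjoint_union_left, Finset.disjoint_union_right,
            Finset.disjoint_union_right]
          exact ⟨⟨PP_disjoint I.t hne _ _, PP_disjoint I.t hne _ _⟩,
            ⟨PP_disjoint I.t hne _ _, PP_disjoint I.t hne _ _⟩⟩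
      _ ≤ ∑ b ∈ A, (ff I k (b, 0) i + ff I k (b, 1) i) := by
          apply Finset.sum_le_sum
          intro b hb
          rw [Finset.sum_union (PP_disjoint_FT I.t b)]
          have hg := GS_abs I.t (hA_mem b hb)
          have h2 := s4_proj_le_ff I k (b, 0) i
          have h3 := s4_proj_le_ff I k (b, 1) i
          rw [hg.1, s4_proj_norm_sq] at h2
          rw [hg.2, s4_proj_norm_sq] at h3
          linarith
  calc ∑ i ∈ X, ‖proj (Jabs I.t k false ∪ Jabs I.t k true) (I.v i)‖ ^ 2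
      ≤ ∑ i ∈ X, ∑ b ∈ A, (ff I k (b, 0) i + ff I k (b, 1) i) :=
        Finset.sum_le_sum (fun i _ => h1 i)
    _ = ∑ b ∈ A, (∑ i ∈ X, ff I k (b, 0) i + ∑ i ∈ X, ff I k (b, 1) i) := by
        rw [Finset.sum_comm]
        apply Finset.sum_congr rfl
        intro b _
        rw [Finset.sum_add_distrib]
    _ ≤ ∑ b ∈ A, (Cf * ((ww I.t k : ℝ) ^ 2 + (ww I.t k : ℝ) ^ 5
        + 2 * (1 + 4 * (ww I.t k : ℝ) ^ 2) ^ 2)) := by
        apply Finset.sum_le_sum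
        intro b hb
        have hbk : b ≤ k := (hA_mem b hb).1
        have m0 : ((b, 0) : Grp) ∈ grps k := by
          simp [grps]; omega
        have m1 : ((b, 1) : Grp) ∈ grps k := by
          simp [grps]; omega
        exact (add_le_add (hF _ m0) (hF _ m1)).trans (s4_abs_phi I.t k b (hA_mem b hb))
    _ = (A.card : ℝ) * (Cf * ((ww I.t k : ℝ) ^ 2 + (ww I.t k : ℝ) ^ 5
        + 2 * (1 + 4 * (ww I.t k : ℝ) ^ 2) ^ 2)) := by
        rw [Finset.sum_const, nsmul_eq_mul]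
    _ ≤ _ := by
        have hc : (A.card : ℝ) ≤ 4 * (ww I.t k : ℝ) ^ 2 := by
          have := s4_card_abs I.t k
          exact_mod_cast this
        have hCf : (0 : ℝ) ≤ Cf := by unfold Cf; positivity
        gcongr

/-- the merged group -/
theorem s4_merged (k : ℕ) (X : Finset ι)
    (hF : ∀ g ∈ grps k, ∑ i ∈ X, ff I k g i ≤ phi I.t k g) :
    (51 / 50) * (2 : ℝ) ^ (-(ww I.t k : ℝ)) * ∑ i ∈ X, ff I (k + 1) (k + 1, 2) i ≤ Cf * 0.1 := by
  classical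
  set w := ww I.t k with hw
  have hGS := (GS_new I.t k).2.2
  have hage : age I.t (k + 1) (k + 1, 2) = w := by
    simp [age, Lev_succ, hw]
  have h1 : ∑ i ∈ X, ff I (k + 1) (k + 1, 2) i
      ≤ (2 : ℝ) ^ ((w : ℝ) / 8) *
        ∑ i ∈ X, ‖proj (Jabs I.t k false ∪ Jabs I.t k true) (I.v i)‖ ^ 2 := by
    rw [Finset.mul_sum]
    apply Finset.sum_le_sum
    intro i _
    refine (s4_ff_le I (k + 1) _ i).trans ?_
    rw [hage, hGS]
  by_cases hempty : ∃ b, absb I.t b k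
  · obtain ⟨b, hb⟩ := hempty
    have hw64 : 64 < w := (absb_ww I.t hb).1
    have hwr : (64 : ℝ) < w := by exact_mod_cast hw64
    have h2 := s4_merged_trace I k X hF
    rw [← hw] at h2
    have h3 := s4_big hw64
    have h4 : (2 : ℝ) ^ (-(w : ℝ)) * (2 : ℝ) ^ ((w : ℝ) / 8) = ((2 : ℝ) ^ (7 / 8 * (w : ℝ)))⁻¹ := by
      rw [← Real.rpow_add (by norm_num), ← Real.rpow_neg (by norm_num)]
      congr 1
      ring
    have h5 : ((2 : ℝ) ^ (7 / 8 * (w : ℝ)))⁻¹ ≤ ((2 * (w : ℝ)) ^ 7)⁻¹ := by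
      apply inv_anti₀ (by positivity) h3
    have hCf : (0 : ℝ) ≤ Cf := by unfold Cf; positivity
    calc (51 / 50) * (2 : ℝ) ^ (-(w : ℝ)) * ∑ i ∈ X, ff I (k + 1) (k + 1, 2) i
        ≤ (51 / 50) * (2 : ℝ) ^ (-(w : ℝ)) * ((2 : ℝ) ^ ((w : ℝ) / 8) *
          (4 * (w : ℝ) ^ 2 * (Cf * ((w : ℝ) ^ 2 + (w : ℝ) ^ 5 + 2 * (1 + 4 * (w : ℝ) ^ 2) ^ 2)))) := by
          gcongr
          exact h1.trans (by gcongr)
      _ = (51 / 50) * ((2 : ℝ) ^ (-(w : ℝ)) * (2 : ℝ) ^ ((w : ℝ) / 8)) *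
          (4 * (w : ℝ) ^ 2 * (Cf * ((w : ℝ) ^ 2 + (w : ℝ) ^ 5 + 2 * (1 + 4 * (w : ℝ) ^ 2) ^ 2))) := by
          ring
      _ ≤ (51 / 50) * ((2 * (w : ℝ)) ^ 7)⁻¹ *
          (4 * (w : ℝ) ^ 2 * (Cf * ((w : ℝ) ^ 2 + (w : ℝ) ^ 5 + 2 * (1 + 4 * (w : ℝ) ^ 2) ^ 2))) := by
          rw [h4]
          gcongr
      _ = Cf * ((51 / 50) * (4 * (w : ℝ) ^ 2 * ((w : ℝ) ^ 2 + (w : ℝ) ^ 5
            + 2 * (1 + 4 * (w : ℝ) ^ 2) ^ 2)) / ((2 * (w : ℝ)) ^ 7)) := by
          field_simp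
      _ ≤ Cf * 0.1 := by
          apply mul_le_mul_of_nonneg_left _ hCf
          rw [div_le_iff₀ (by positivity)]
          have hw0 : (0 : ℝ) < w := by linarith
          have b1 : (w : ℝ) ^ 2 ≤ (w : ℝ) ^ 5 := pow_le_pow_right₀ (by linarith) (by norm_num)
          have b2 : (1 + 4 * (w : ℝ) ^ 2) ^ 2 ≤ 0.5 * (w : ℝ) ^ 5 := by
            have c1 : 1 + 4 * (w : ℝ) ^ 2 ≤ 5 * (w : ℝ) ^ 2 := by nlinarith
            calc (1 + 4 * (w : ℝ) ^ 2) ^ 2 ≤ (5 * (w : ℝ) ^ 2) ^ 2 :=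
                  pow_le_pow_left₀ (by positivity) c1 2
              _ = 25 * (w : ℝ) ^ 4 := by ring
              _ ≤ 0.5 * (w : ℝ) ^ 5 := by
                  have : (w : ℝ) ^ 5 = w * (w : ℝ) ^ 4 := by ring
                  rw [this]
                  have : (0 : ℝ) ≤ (w : ℝ) ^ 4 := by positivity
                  nlinarith
          have b3 : (w : ℝ) ^ 2 + (w : ℝ) ^ 5 + 2 * (1 + 4 * (w : ℝ) ^ 2) ^ 2 ≤ 3 * (w : ℝ) ^ 5 := by
            linarith
          calc (51 / 50) * (4 * (w : ℝ) ^ 2 * ((w : ℝ) ^ 2 + (w : ℝ) ^ 5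
                + 2 * (1 + 4 * (w : ℝ) ^ 2) ^ 2))
              ≤ (51 / 50) * (4 * (w : ℝ) ^ 2 * (3 * (w : ℝ) ^ 5)) := by gcongr
            _ = 12.24 * (w : ℝ) ^ 7 := by ring
            _ ≤ 0.1 * (2 * (w : ℝ)) ^ 7 := by
                have : (2 * (w : ℝ)) ^ 7 = 128 * (w : ℝ) ^ 7 := by ring
                rw [this]
                have : (0 : ℝ) ≤ (w : ℝ) ^ 7 := by positivity
                linarith
  · have hJ : Jabs I.t k false ∪ Jabs I.t k true = ∅ := by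
      rw [Finset.eq_empty_iff_forall_notMem]
      intro j hj
      apply hempty
      rcases Finset.mem_union.mp hj with hj | hj
      all_goals
        unfold Jabs at hj
        obtain ⟨b, hb, _⟩ := Finset.mem_biUnion.mp hj
        exact ⟨b, (Finset.mem_filter.mp hb).2⟩
    rw [hJ] at h1
    have h2 : ∑ i ∈ X, ‖proj (∅ : Finset (Fin d)) (I.v i)‖ ^ 2 = 0 := by
      apply Finset.sum_eq_zero
      intro i _
      rw [s4_proj_empty]
      simp
    rw [h2, mul_zero] at h1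
    have h3 : 0 ≤ ∑ i ∈ X, ff I (k + 1) (k + 1, 2) i :=
      Finset.sum_nonneg (fun i _ => s4_ff_nonneg I _ _ i)
    have h4 : ∑ i ∈ X, ff I (k + 1) (k + 1, 2) i = 0 := le_antisymm h1 h3
    rw [h4, mul_zero]
    unfold Cf
    positivity

/-- **S4. Update of the functionals.** -/
theorem func_update (k : ℕ) (X : Finset ι) (Ea Eb : Vec d) (S : Grp → Finset ι)
    (c : ι → ℕ) (yb yc : ℕ → Vec d) (h : StageOut I k X Ea Eb S c yb yc)
    (hcov : CovOK I X (Lev I.t k) (alive I.t k))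
    (hF : ∀ g ∈ grps k, ∑ i ∈ X, ff I k g i ≤ phi I.t k g) (m : ℕ) (hm : m < MM I.t k) :
    ∀ g ∈ grps (k + 1), ∑ i ∈ X with c i = m, ff I (k + 1) g i ≤ phi I.t (k + 1) g := by
  intro g hg
  have hfun := h.func m hm g hg
  obtain ⟨b, τ⟩ := g
  have hb : b ≤ k + 1 := by
    have := hg
    simp [grps] at this
    omega
  have hwb : (wb I.t k : ℝ) ≤ ww I.t k := by exact_mod_cast wb_le I.t k
  have hwc : wc I.t (k + 1) = wb I.t k := by simp [wc]
  rcases Nat.lt_or_ge b (k + 1) with hbk | hbk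
  · have hbk : b ≤ k := by omega
    have hgk : ((b, τ) : Grp) ∈ grps k := by
      simp [grps]; omega
    by_cases hτ : τ = 2
    · subst hτ
      exact hfun.trans (s4_persist I k X (b, 2) hgk (GS_succ_merged I.t hbk) (hF _ hgk))
    · by_cases ha : absb I.t b k
      · have hGS := GS_succ_abs I.t ha hτ
        have h0 : ∑ i ∈ X with c i = m, ff I (k + 1) (b, τ) i = 0 := by
          apply Finset.sum_eq_zero
          intro i _
          unfold ff
          rw [hGS, s4_proj_empty]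
          simp
        rw [h0]
        exact s4_phi_nonneg I.t (k + 1) _
      · exact hfun.trans (s4_persist I k X (b, τ) hgk (GS_succ_base I.t hbk ha τ) (hF _ hgk))
  · have hbk : b = k + 1 := by omega
    subst hbk
    have hLlt := Lev_lt I.t k
    have hNN : (4096 : ℝ) * wc I.t (k + 1) ≤ NN I.t (k + 1) := by
      exact_mod_cast NN_ge_wc I.t (k + 1)
    have hwbn : (0 : ℝ) ≤ wb I.t k := by positivity
    have hsq := s4_sqrt_le (wb I.t k : ℝ) hwbn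
    fin_cases τ
    · -- type 0
      have hage1 : age I.t (k + 1) (k + 1, 0) = 0 := by simp [age]
      have hage0 : age I.t k (k + 1, 0) = 0 := by simp [age]; omega
      have h1 := s4_new I k X hcov (k + 1, 0) false (GS_new I.t k).1 hage1
      have h2 := trace_base I.t (k + 1) (by omega)
      have h3 : ((PP I.t (k + 1) false).card : ℝ) ≤ NN I.t (k + 1) := by
        have : (PP I.t (k + 1) false).card ≤ NN I.t (k + 1) := by
          unfold NN; omega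
        exact_mod_cast this
      have hphi : phi I.t (k + 1) (k + 1, 0) = Cf * ((NN I.t (k + 1) : ℝ) + 1) := by
        unfold phi
        rw [hage1]
        simp [BB]
      refine hfun.trans ?_
      simp only [Fin.zero_eta] at *
      rw [hphi, hage0]
      simp only [Nat.cast_zero, add_zero, mul_one]
      rw [hwc] at hNN
      have hNN0 : (0 : ℝ) ≤ NN I.t (k + 1) := by positivity
      unfold Cf
      nlinarith
    · -- type 1
      have hage1 : age I.t (k + 1) (k + 1, 1) = 0 := by simp [age]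
      have hage0 : age I.t k (k + 1, 1) = 0 := by simp [age]; omega
      have h1 := s4_new I k X hcov (k + 1, 1) true (GS_new I.t k).2.1 hage1
      have h2 := trace_zone I.t (k + 1)
      have hphi : phi I.t (k + 1) (k + 1, 1) = Cf * ((wb I.t k : ℝ) ^ (9 / 4 : ℝ) + 1) := by
        unfold phi
        rw [hage1]
        simp [BB, hwc]
      have h4 : (wb I.t k : ℝ) ≤ (wb I.t k : ℝ) ^ (9 / 4 : ℝ) := by
        rcases Nat.eq_zero_or_pos (wb I.t k) with h0 | h0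
        · rw [h0]
          simp [Real.zero_rpow]
        · have h5 : (1 : ℝ) ≤ wb I.t k := by exact_mod_cast h0
          calc (wb I.t k : ℝ) = (wb I.t k : ℝ) ^ (1 : ℝ) := (Real.rpow_one _).symm
            _ ≤ _ := Real.rpow_le_rpow_of_exponent_le h5 (by norm_num)
      refine hfun.trans ?_
      simp only [Fin.mk_one] at *
      rw [hphi, hage0]
      simp only [Nat.cast_zero, add_zero, mul_one]
      rw [hwc] at h2
      unfold Cf
      nlinarith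
    · -- merged
      have hage1 : age I.t (k + 1) (k + 1, 2) = ww I.t k := by
        simp [age, Lev_succ]
      have hage0 : age I.t k (k + 1, 2) = 0 := by simp [age]
      have h1 := s4_merged I k X hF
      have hphi : phi I.t (k + 1) (k + 1, 2) = Cf * (1 + (ww I.t k : ℝ)) ^ 2 := by
        unfold phi
        rw [hage1]
        simp [BB]
      refine hfun.trans ?_
      have e2 : (⟨2, by omega⟩ : Fin 3) = 2 := rfl
      simp only [Fin.reduceFinMk] at *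
      rw [hphi, hage0]
      simp only [Nat.cast_zero, add_zero, mul_one]
      have hw0 : (0 : ℝ) ≤ ww I.t k := by positivity
      unfold Cf at *
      nlinarith

end Vale.Agent.P262B
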