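import Vale.Agent.P262B.S5d

open scoped BigOperators RealInnerProductSpace
open Finset

set_option linter.unusedSectionVars false

namespace Vale.Agent.P262B.S5aux

section merged

variable {d : ℕ} {ι : Type} [Fintype ι] [DecidableEq ι] {I : Inst d ι}

/-- cost of the birth index `b` -/
noncomputable def cb (t : Fin d → ℝ) (k b : ℕ) : ℝ :=
  (2 : ℝ) ^ (-((Lev t k : ℝ) - Lev t b) / 64) * ((NN t b : ℝ) + 1 + wb t k)

lemma cb_nonneg (t : Fin d → ℝ) (k b : ℕ) : 0 ≤ cb t k b := by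
  unfold cb
  have := two_rpow_pos (-((Lev t k : ℝ) - Lev t b) / 64)
  positivity

lemma le_cb {t : Fin d → ℝ} {k b : ℕ} (hb : b ≤ k) {G K : ℝ} (hK : 0 ≤ K)
    (h : xg (Lev t k - Lev t b) ^ 2 * G ≤ K * (NN t b : ℝ)) : G ≤ K * cb t k b := by
  have hx1 : 1 ≤ xg (Lev t k - Lev t b) := one_le_xg _
  have hx0 : 0 < xg (Lev t k - Lev t b) := xg_pos _
  have hinv : (xg (Lev t k - Lev t b))⁻¹ = (2 : ℝ) ^ (-((Lev t k : ℝ) - Lev t b) / 64) := by
    have h1 := xg_inv (Lev t k - Lev t b) 1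
    rw [pow_one] at h1
    rw [h1, age_cast t hb]
    congr 1
    push_cast
    ring
  have hN : (0 : ℝ) ≤ NN t b := Nat.cast_nonneg _
  have hw : (0 : ℝ) ≤ wb t k := Nat.cast_nonneg _
  unfold cb
  rw [← hinv]
  set x := xg (Lev t k - Lev t b)
  calc G = (x ^ 2)⁻¹ * (x ^ 2 * G) := by
        field_simp
    _ ≤ (x ^ 2)⁻¹ * (K * (NN t b : ℝ)) := by
        have : 0 ≤ (x ^ 2)⁻¹ := by positivity
        gcongr
    _ ≤ x⁻¹ * (K * (NN t b : ℝ)) := by
        apply mul_le_mul_of_nonneg_right _ (mul_nonneg hK hN)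
        apply inv_anti₀ hx0
        exact le_self_pow₀ hx1 (by norm_num)
    _ ≤ x⁻¹ * (K * ((NN t b : ℝ) + 1 + wb t k)) := by
        have : 0 ≤ x⁻¹ := by positivity
        gcongr
        linarith
    _ = _ := by ring

open Classical in
/-- absorbed birth indices -/
noncomputable def AB (t : Fin d → ℝ) (k : ℕ) : Finset ℕ :=
  (range (k + 1)).filter (fun b => absb t b k)

lemma mem_AB {t : Fin d → ℝ} {k b : ℕ} : b ∈ AB t k ↔ b ≤ k ∧ absb t b k := by
  unfold AB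
  simp

lemma Jabs_eq (t : Fin d → ℝ) (k : ℕ) (τ : Bool) :
    Jabs t k τ = (AB t k).biUnion (fun b => PP t b τ) := by
  unfold Jabs AB
  rfl

open Classical in
/-- merged group -/
lemma group_new2 {k : ℕ} {X : Finset ι} {Ea Eb : Vec d} {S : Grp → Finset ι}
    {c : ι → ℕ} {yb yc : ℕ → Vec d} (h : StageOut I k X Ea Eb S c yb yc)
    (hF : ∀ g ∈ grps k, ∑ i ∈ X, ff I k g i ≤ phi I.t k g) (hSe : S (k + 1, 2) = ∅)
    {m : ℕ} (hm1 : 1 ≤ m) (hm : m < MM I.t k) :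
    ‖gt I k X S c m (k + 1, 2)‖ ^ 2
      ≤ 10 ^ 50 * (∑ b ∈ (range (k + 1)).filter (fun b => LB I.t b), cb I.t k b + wb I.t k) := by
  have hwb : (0 : ℝ) ≤ wb I.t k := Nat.cast_nonneg _
  have hLBsum : 0 ≤ ∑ b ∈ (range (k + 1)).filter (fun b => LB I.t b), cb I.t k b :=
    Finset.sum_nonneg fun b _ => cb_nonneg _ _ _
  rcases Finset.eq_empty_or_nonempty (AB I.t k) with he | ⟨b₀, hb₀⟩
  · rw [gt_empty I (by
      rw [(GS_new I.t k).2.2, Jabs_eq, Jabs_eq, he]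
      simp)]
    simp only [norm_zero, ne_eq, OfNat.ofNat_ne_zero, not_false_eq_true, zero_pow]
    positivity
  have hw1 : (1 : ℝ) ≤ wb I.t k := by
    have h1 := absb_ww I.t (mem_AB.1 hb₀).2
    rw [h1.2]
    exact_mod_cast (by omega : 1 ≤ ww I.t k)
  have h1 := gt_sq_le I k X S c m (yb m) (k + 1, 2)
  rw [hSe, Finset.sdiff_empty, (GS_new I.t k).2.2] at h1
  have hn0 := h.noiseM0 m hm1 hm
  have hn1 := h.noiseM1 m hm1 hm
  have hn := norm_proj_sq_union_le (Jabs I.t k false) (Jabs I.t k true)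
    (cmb I X (uu I k c (yb m) m))
  have hn' : ‖∑ i ∈ X, uu I k c (yb m) m i • proj (Jabs I.t k false ∪ Jabs I.t k true) (I.v i)‖ ^ 2
      ≤ ‖proj (Jabs I.t k false) (cmb I X (uu I k c (yb m) m))‖ ^ 2
        + ‖proj (Jabs I.t k true) (cmb I X (uu I k c (yb m) m))‖ ^ 2 := by
    rw [← proj_sum]
    exact hn
  have h3 := leak_le h hm1 hm (Finset.Subset.refl X) (Jabs I.t k false ∪ Jabs I.t k true)
  have hy0 := yr_nonneg I.t k
  have hy1 := yr_le_one I.t k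
  -- sums over the absorbed groups
  have hA : ∀ b ∈ AB I.t k, phi I.t k (b, 0) ≤ 4 * 10 ^ 13 * cb I.t k b := by
    intro b hb
    have hb' := mem_AB.1 hb
    exact le_cb hb'.1 (by norm_num) (crit_phi0 I.t (absb_present I.t hb'.2).2 hb'.2.2.1)
  have hB : ∀ b ∈ AB I.t k, YY I.t k / MM I.t k * phi I.t k (b, 1) ≤ 4 * 10 ^ 13 * cb I.t k b := by
    intro b hb
    have hb' := mem_AB.1 hb
    exact le_cb hb'.1 (by norm_num) (crit_phi1 I.t hb'.1 (absb_present I.t hb'.2).2 hb'.2.2.1)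
  have hC : ∀ b ∈ AB I.t k, ((PP I.t b true).card : ℝ) ≤ 2 * cb I.t k b := by
    intro b hb
    have hb' := mem_AB.1 hb
    exact le_cb hb'.1 (by norm_num) (crit_card I.t (absb_present I.t hb'.2).2 hb'.2.2.1)
  have hsumAB : ∑ b ∈ AB I.t k, cb I.t k b
      ≤ ∑ b ∈ (range (k + 1)).filter (fun b => LB I.t b), cb I.t k b := by
    apply Finset.sum_le_sum_of_subset_of_nonneg
    · intro b hb
      have hb' := mem_AB.1 hb
      rw [Finset.mem_filter, Finset.mem_range]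
      exact ⟨by omega, (absb_present I.t hb'.2).2⟩
    · intro b _ _
      exact cb_nonneg _ _ _
  set Cs := ∑ b ∈ (range (k + 1)).filter (fun b => LB I.t b), cb I.t k b with hCs
  have hAs : ∑ b ∈ AB I.t k, phi I.t k (b, 0) ≤ 4 * 10 ^ 13 * Cs := by
    calc ∑ b ∈ AB I.t k, phi I.t k (b, 0) ≤ ∑ b ∈ AB I.t k, 4 * 10 ^ 13 * cb I.t k b :=
          Finset.sum_le_sum hA
      _ = 4 * 10 ^ 13 * ∑ b ∈ AB I.t k, cb I.t k b := by rw [Finset.mul_sum]
      _ ≤ _ := by gcongr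
  have hBs : ∑ b ∈ AB I.t k, YY I.t k / MM I.t k * phi I.t k (b, 1) ≤ 4 * 10 ^ 13 * Cs := by
    calc ∑ b ∈ AB I.t k, YY I.t k / MM I.t k * phi I.t k (b, 1)
        ≤ ∑ b ∈ AB I.t k, 4 * 10 ^ 13 * cb I.t k b := Finset.sum_le_sum hB
      _ = 4 * 10 ^ 13 * ∑ b ∈ AB I.t k, cb I.t k b := by rw [Finset.mul_sum]
      _ ≤ _ := by gcongr
  have hCsum : ∑ b ∈ AB I.t k, ((PP I.t b true).card : ℝ) ≤ 2 * Cs := by
    calc ∑ b ∈ AB I.t k, ((PP I.t b true).card : ℝ) ≤ ∑ b ∈ AB I.t k, 2 * cb I.t k b :=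
          Finset.sum_le_sum hC
      _ = 2 * ∑ b ∈ AB I.t k, cb I.t k b := by rw [Finset.mul_sum]
      _ ≤ _ := by gcongr
  -- energy in the absorbed groups
  have hen : ∑ i ∈ X, ‖proj (Jabs I.t k false ∪ Jabs I.t k true) (I.v i)‖ ^ 2
      ≤ ∑ b ∈ AB I.t k, phi I.t k (b, 0) + ∑ b ∈ AB I.t k, phi I.t k (b, 1) := by
    have h4 : ∀ i ∈ X, ‖proj (Jabs I.t k false ∪ Jabs I.t k true) (I.v i)‖ ^ 2
        ≤ ∑ b ∈ AB I.t k, ‖proj (PP I.t b false) (I.v i)‖ ^ 2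
          + ∑ b ∈ AB I.t k, ‖proj (PP I.t b true) (I.v i)‖ ^ 2 := by
      intro i _
      refine (norm_proj_sq_union_le _ _ _).trans ?_
      rw [Jabs_eq, Jabs_eq]
      exact add_le_add (norm_proj_sq_biUnion_le _ _ _) (norm_proj_sq_biUnion_le _ _ _)
    refine (Finset.sum_le_sum h4).trans ?_
    rw [Finset.sum_add_distrib, Finset.sum_comm (s := X), Finset.sum_comm (s := X)]
    apply add_le_add
    · refine Finset.sum_le_sum fun b hb => ?_
      have hb' := mem_AB.1 hb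
      have h5 := energy_all I (hF (b, 0) (mem_grps.2 hb'.1))
      rwa [(GS_abs I.t hb'.2).1] at h5
    · refine Finset.sum_le_sum fun b hb => ?_
      have hb' := mem_AB.1 hb
      have h5 := energy_all I (hF (b, 1) (mem_grps.2 hb'.1))
      rwa [(GS_abs I.t hb'.2).2] at h5
  have hleak : ‖∑ i ∈ X, ⟪yb m, I.v i⟫ • proj (Jabs I.t k false ∪ Jabs I.t k true) (I.v i)‖ ^ 2
      ≤ 2 * (4 * 10 ^ 13 * Cs) + 2 * (4 * 10 ^ 13 * Cs) := by
    refine h3.trans ?_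
    calc 2 * (YY I.t k / MM I.t k)
          * ∑ i ∈ X, ‖proj (Jabs I.t k false ∪ Jabs I.t k true) (I.v i)‖ ^ 2
        ≤ 2 * (YY I.t k / MM I.t k) *
          (∑ b ∈ AB I.t k, phi I.t k (b, 0) + ∑ b ∈ AB I.t k, phi I.t k (b, 1)) := by gcongr
      _ = 2 * ((YY I.t k / MM I.t k) * ∑ b ∈ AB I.t k, phi I.t k (b, 0))
          + 2 * ∑ b ∈ AB I.t k, YY I.t k / MM I.t k * phi I.t k (b, 1) := by
          rw [← Finset.mul_sum]
          ring
      _ ≤ 2 * (1 * (4 * 10 ^ 13 * Cs)) + 2 * (4 * 10 ^ 13 * Cs) := by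
          have h6 : 0 ≤ ∑ b ∈ AB I.t k, phi I.t k (b, 0) :=
            Finset.sum_nonneg fun b _ => phi_nonneg I.t k (b, 0)
          have h7 : YY I.t k / MM I.t k ≤ 1 := hy1.trans (by norm_num)
          gcongr
      _ = _ := by ring
  have hn0' : ‖proj (Jabs I.t k false) (cmb I X (uu I k c (yb m) m))‖ ^ 2
      ≤ Gc * (∑ b ∈ AB I.t k, phi I.t k (b, 0) + 1 + wb I.t k) := hn0
  have hn1' : ‖proj (Jabs I.t k true) (cmb I X (uu I k c (yb m) m))‖ ^ 2
      ≤ Gc * (∑ b ∈ AB I.t k, ((PP I.t b true).card : ℝ) + 1 + wb I.t k) := hn1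
  unfold Gc at hn0' hn1'
  linarith

end merged

variable {d : ℕ} {ι : Type} [Fintype ι] [DecidableEq ι] (I : Inst d ι)

lemma GS_zero_two (t : Fin d → ℝ) (k : ℕ) : GS t k (0, 2) = ∅ := by
  unfold GS
  simp

lemma GS_notLB {t : Fin d → ℝ} {k b : ℕ} (hL : ¬ LB t b) (τ : Fin 3) : GS t k (b, τ) = ∅ := by
  unfold GS
  split_ifs with h0 h1 h2 h3 h4
  · exact PP_short t hL false
  · rfl
  · exact PP_short t hL true
  · rfl
  · unfold Mg
    have hb : 1 ≤ b := h4.1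
    have : ¬ long t (b - 1) := fun h => hL (Or.inr h)
    rw [Finset.eq_empty_iff_forall_notMem]
    intro j hj
    obtain ⟨b', hb', _⟩ := Finset.mem_biUnion.1 hj
    have hab : absb t b' (b - 1) := by
      classical
      exact (Finset.mem_filter.1 hb').2
    have h5 := absb_ww t hab
    exact this (Or.inr (by omega))
  · rfl

lemma old_group (k : ℕ) (X : Finset ι) (Ea Eb : Vec d) (S : Grp → Finset ι)
    (c : ι → ℕ) (yb yc : ℕ → Vec d) (h : StageOut I k X Ea Eb S c yb yc)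
    (hF : ∀ g ∈ grps k, ∑ i ∈ X, ff I k g i ≤ phi I.t k g)
    (hcrit : ∀ g ∈ grps k, critg I.t k g → S g = ∅)
    (hS : ∀ g ∈ grps k, ∀ i ∈ X, gran I k g i → i ∈ S g)
    (m : ℕ) (hm1 : 1 ≤ m) (hm : m < MM I.t k) {b : ℕ} (hb : b ≤ k) (hL : LB I.t b) (τ : Fin 3) :
    om I.t (k + 1) (b, τ) * (1 + 1 / eta I.t k (b, τ)) * ‖gt I k X S c m (b, τ)‖ ^ 2
      ≤ 10 ^ 59 * cb I.t k b := by
  have hg : ((b, τ) : Grp) ∈ grps k := mem_grps.2 hb
  have hcbn : 0 ≤ 10 ^ 59 * cb I.t k b := mul_nonneg (by norm_num) (cb_nonneg _ _ _)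
  have hzero : GS I.t (k + 1) (b, τ) = ∅ →
      om I.t (k + 1) (b, τ) * (1 + 1 / eta I.t k (b, τ)) * ‖gt I k X S c m (b, τ)‖ ^ 2
      ≤ 10 ^ 59 * cb I.t k b := by
    intro hG
    rw [gt_empty I hG]
    simpa using hcbn
  have hs : Lev I.t k - Lev I.t b ≤ age I.t k (b, τ) := by
    unfold age
    split_ifs
    · have := Lev_le I.t (Nat.sub_le b 1)
      simp only
      omega
    · exact le_rfl
  have hfin : xg (age I.t k (b, τ)) ^ 2 * ‖gt I k X S c m (b, τ)‖ ^ 2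
        ≤ 10 ^ 50 * ((NN I.t b : ℝ) + 1 + wb I.t k) →
      om I.t (k + 1) (b, τ) * (1 + 1 / eta I.t k (b, τ)) * ‖gt I k X S c m (b, τ)‖ ^ 2
      ≤ 10 ^ 59 * cb I.t k b := by
    intro hle
    exact weighted_old (g := (b, τ)) hb (sq_nonneg _) (by positivity) hs hle
  by_cases h2 : τ = 2
  · subst h2
    apply hfin
    apply group_noncrit h hg hL (fun hc => hc.1 rfl) (GS_succ_merged I.t hb) (hF _ hg) (hS _ hg)
      hm1 hm
  · by_cases ha : absb I.t b k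
    · exact hzero (GS_succ_abs I.t ha h2)
    · by_cases hc : crit I.t b k
      · have hcg : critg I.t k (b, τ) := ⟨h2, hc⟩
        apply hfin
        have hSe := hcrit _ hg hcg
        have hτ : τ = 0 ∨ τ = 1 := by
          fin_cases τ
          · exact Or.inl rfl
          · exact Or.inr rfl
          · exact absurd rfl h2
        rcases hτ with h0 | h1
        · subst h0
          exact group_crit0 h hb hL hc ha (hF _ hg) hSe hm1 hm
        · subst h1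
          exact group_crit1 h hb hL hc ha (hF _ hg) hSe hm1 hm
      · apply hfin
        apply group_noncrit h hg hL (fun hcg => hc hcg.2) (GS_succ_base I.t hb ha τ) (hF _ hg)
          (hS _ hg) hm1 hm

theorem energy_bound_aux (k : ℕ) (X : Finset ι) (Ea Eb : Vec d) (S : Grp → Finset ι)
    (c : ι → ℕ) (yb yc : ℕ → Vec d) (h : StageOut I k X Ea Eb S c yb yc)
    (hcov : CovOK I X (Lev I.t k) (alive I.t k))
    (hF : ∀ g ∈ grps k, ∑ i ∈ X, ff I k g i ≤ phi I.t k g)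
    (hcrit : ∀ g ∈ grps k, critg I.t k g → S g = ∅)
    (hoff : ∀ g, g ∉ grps k → S g = ∅)
    (hS : ∀ g ∈ grps k, ∀ i ∈ X, gran I k g i → i ∈ S g)
    (m : ℕ) (hm1 : 1 ≤ m) (hm : m < MM I.t k) :
    ∑ g ∈ grps (k + 1), om I.t (k + 1) g * (1 + 1 / eta I.t k g) * ‖gt I k X S c m g‖ ^ 2
      ≤ cost I.t k := by
  classical
  set W : Grp → ℝ := fun g => om I.t (k + 1) g * (1 + 1 / eta I.t k g) * ‖gt I k X S c m g‖ ^ 2
    with hW
  have hsplit : ∑ g ∈ grps (k + 1), W g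
      = ∑ b ∈ range (k + 1), (W (b, 0) + W (b, 1) + W (b, 2))
        + (W (k + 1, 0) + W (k + 1, 1) + W (k + 1, 2)) := by
    unfold grps
    rw [Finset.sum_product, Finset.sum_range_succ]
    simp only [Fin.sum_univ_three]
  have hWnn : ∀ g, GS I.t (k + 1) g = ∅ → W g = 0 := by
    intro g hg
    simp only [hW]
    rw [gt_empty I hg]
    simp
  set Cs := ∑ b ∈ (range (k + 1)).filter (fun b => LB I.t b), cb I.t k b with hCs
  have hCs0 : 0 ≤ Cs := Finset.sum_nonneg fun b _ => cb_nonneg _ _ _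
  have hold : ∑ b ∈ range (k + 1), (W (b, 0) + W (b, 1) + W (b, 2)) ≤ 3 * 10 ^ 59 * Cs := by
    rw [hCs, Finset.mul_sum, Finset.sum_filter]
    refine Finset.sum_le_sum fun b hb => ?_
    have hbk : b ≤ k := by
      rw [Finset.mem_range] at hb
      omega
    split_ifs with hL
    · have h0 := old_group I k X Ea Eb S c yb yc h hF hcrit hS m hm1 hm hbk hL 0
      have h1 := old_group I k X Ea Eb S c yb yc h hF hcrit hS m hm1 hm hbk hL 1
      have h2 := old_group I k X Ea Eb S c yb yc h hF hcrit hS m hm1 hm hbk hL 2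
      simp only [hW]
      linarith
    · rw [hWnn _ (GS_notLB hL 0), hWnn _ (GS_notLB hL 1), hWnn _ (GS_notLB hL 2)]
      simp
  have hwb : (0 : ℝ) ≤ wb I.t k := Nat.cast_nonneg _
  have hNN : (0 : ℝ) ≤ NN I.t (k + 1) := Nat.cast_nonneg _
  have hnew : ∀ τ : Fin 3, ∀ B : ℝ, 0 ≤ B → ‖gt I k X S c m (k + 1, τ)‖ ^ 2 ≤ 10 ^ 50 * B →
      W (k + 1, τ) ≤ 10 ^ 59 * B := by
    intro τ B hB hle
    have h1 := weight_new I.t (k := k) (g := (k + 1, τ)) (by simp)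
    have h2 := weight_nonneg I.t (k := k) (g := (k + 1, τ))
    simp only [hW]
    calc om I.t (k + 1) (k + 1, τ) * (1 + 1 / eta I.t k (k + 1, τ))
          * ‖gt I k X S c m (k + 1, τ)‖ ^ 2
        ≤ 16 * (10 ^ 50 * B) := mul_le_mul h1 hle (sq_nonneg _) (by norm_num)
      _ ≤ 10 ^ 59 * B := by nlinarith
  have hn2 : W (k + 1, 2) ≤ 10 ^ 59 * (Cs + wb I.t k) :=
    hnew 2 _ (by positivity) (group_new2 h hF (hoff _ not_mem_grps) hm1 hm)
  have hn01 : W (k + 1, 0) ≤ 10 ^ 59 * ((NN I.t (k + 1) : ℝ) + wb I.t k)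
      ∧ W (k + 1, 1) ≤ 10 ^ 59 * ((NN I.t (k + 1) : ℝ) + wb I.t k) := by
    by_cases hL : LB I.t (k + 1)
    · exact ⟨hnew 0 _ (by positivity) (group_new0 h hcov (hoff _ not_mem_grps) hL hm1 hm),
        hnew 1 _ (by positivity) (group_new1 h hcov (hoff _ not_mem_grps) hL hm1 hm)⟩
    · rw [hWnn _ (GS_notLB hL 0), hWnn _ (GS_notLB hL 1)]
      constructor <;> positivity
  rw [hsplit]
  have hcost : cost I.t k = Cc * (Cs + NN I.t (k + 1) + wb I.t k) := by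
    unfold cost
    rw [hCs]
    congr 3
  rw [hcost]
  unfold Cc
  nlinarith [hn01.1, hn01.2]

end Vale.Agent.P262B.S5aux

namespace Vale.Agent.P262B

variable {d : ℕ} {ι : Type} [Fintype ι] [DecidableEq ι] (I : Inst d ι)

/-- **S5. Weighted energy (noise + leak) of the passed groups at an inner boundary.** -/
theorem energy_bound (k : ℕ) (X : Finset ι) (Ea Eb : Vec d) (S : Grp → Finset ι)
    (c : ι → ℕ) (yb yc : ℕ → Vec d) (h : StageOut I k X Ea Eb S c yb yc)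
    (hcov : CovOK I X (Lev I.t k) (alive I.t k))
    (hF : ∀ g ∈ grps k, ∑ i ∈ X, ff I k g i ≤ phi I.t k g)
    (hcrit : ∀ g ∈ grps k, critg I.t k g → S g = ∅)
    (hoff : ∀ g, g ∉ grps k → S g = ∅)
    (hS : ∀ g ∈ grps k, ∀ i ∈ X, gran I k g i → i ∈ S g)
    (m : ℕ) (hm1 : 1 ≤ m) (hm : m < MM I.t k) :
    ∑ g ∈ grps (k + 1), om I.t (k + 1) g * (1 + 1 / eta I.t k g) * ‖gt I k X S c m g‖ ^ 2
      ≤ cost I.t k :=
  S5aux.energy_bound_aux I k X Ea Eb S c yb yc h hcov hF hcrit hoff hS m hm1 hm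

end Vale.Agent.P262B
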