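import Vale.Agent.P262B.N2

open scoped BigOperators RealInnerProductSpace
open Finset

namespace Vale.Agent.P262B.S5aux

/-! ### elementary facts on `proj` -/

lemma proj_apply {d : ℕ} (J : Finset (Fin d)) (x : Vec d) (j : Fin d) :
    proj J x j = if j ∈ J then x j else 0 := rfl

lemma proj_sum {d : ℕ} {ι : Type} (J : Finset (Fin d)) (X : Finset ι) (u : ι → ℝ) (v : ι → Vec d) :
    proj J (∑ i ∈ X, u i • v i) = ∑ i ∈ X, u i • proj J (v i) := by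
  ext j
  rw [proj_apply]
  simp only [WithLp.ofLp_sum, Finset.sum_apply, PiLp.smul_apply, proj_apply, smul_eq_mul]
  split_ifs with h
  · rfl
  · simp

lemma norm_proj_sq {d : ℕ} (J : Finset (Fin d)) (x : Vec d) :
    ‖proj J x‖ ^ 2 = ∑ j ∈ J, x j ^ 2 := by
  rw [EuclideanSpace.norm_sq_eq]
  simp only [proj_apply, Real.norm_eq_abs, sq_abs]
  rw [← Finset.sum_filter_add_sum_filter_not Finset.univ (fun j => j ∈ J)]
  have h1 : ∑ j with j ∉ J, (if j ∈ J then x j else 0) ^ 2 = 0 := by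
    refine Finset.sum_eq_zero fun j hj => ?_
    rw [if_neg (Finset.mem_filter.1 hj).2]
    ring
  rw [h1, add_zero]
  have h2 : (Finset.univ.filter (fun j => j ∈ J)) = J := by
    ext j
    simp
  rw [h2]
  exact Finset.sum_congr rfl fun j hj => by rw [if_pos hj]

lemma norm_proj_sq_mono {d : ℕ} {J J' : Finset (Fin d)} (h : J ⊆ J') (x : Vec d) :
    ‖proj J x‖ ^ 2 ≤ ‖proj J' x‖ ^ 2 := by
  rw [norm_proj_sq, norm_proj_sq]
  exact Finset.sum_le_sum_of_subset_of_nonneg h fun _ _ _ => sq_nonneg _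

lemma norm_proj_sq_le {d : ℕ} (J : Finset (Fin d)) (x : Vec d) : ‖proj J x‖ ^ 2 ≤ ‖x‖ ^ 2 := by
  rw [norm_proj_sq, EuclideanSpace.norm_sq_eq]
  simp only [Real.norm_eq_abs, sq_abs]
  exact Finset.sum_le_sum_of_subset_of_nonneg (Finset.subset_univ _) fun _ _ _ => sq_nonneg _

lemma proj_empty {d : ℕ} (x : Vec d) : proj ∅ x = 0 := by
  ext j
  rw [proj_apply]
  simp

lemma norm_proj_sq_union_le {d : ℕ} (J J' : Finset (Fin d)) (x : Vec d) :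
    ‖proj (J ∪ J') x‖ ^ 2 ≤ ‖proj J x‖ ^ 2 + ‖proj J' x‖ ^ 2 := by
  rw [norm_proj_sq, norm_proj_sq, norm_proj_sq]
  have := Finset.sum_union_inter (s₁ := J) (s₂ := J') (f := fun j => x j ^ 2)
  have h2 : 0 ≤ ∑ j ∈ J ∩ J', x j ^ 2 := Finset.sum_nonneg fun _ _ => sq_nonneg _
  linarith

lemma norm_proj_sq_biUnion_le {d : ℕ} {β : Type} [DecidableEq β] (s : Finset β)
    (J : β → Finset (Fin d)) (x : Vec d) :
    ‖proj (s.biUnion J) x‖ ^ 2 ≤ ∑ b ∈ s, ‖proj (J b) x‖ ^ 2 := by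
  induction s using Finset.induction_on with
  | empty => simp [proj_empty]
  | insert a s ha ih =>
    rw [Finset.biUnion_insert, Finset.sum_insert ha]
    exact (norm_proj_sq_union_le _ _ _).trans (by linarith)

/-- Cauchy–Schwarz for a combination -/
lemma norm_comb_sq_le {ι : Type} {F : Type*} [NormedAddCommGroup F] [InnerProductSpace ℝ F]
    (Y : Finset ι) (a : ι → ℝ) (p : ι → F) :
    ‖∑ i ∈ Y, a i • p i‖ ^ 2 ≤ (∑ i ∈ Y, a i ^ 2) * ∑ i ∈ Y, ‖p i‖ ^ 2 := by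
  have h1 : ‖∑ i ∈ Y, a i • p i‖ ≤ ∑ i ∈ Y, |a i| * ‖p i‖ := by
    refine (norm_sum_le _ _).trans (le_of_eq ?_)
    exact Finset.sum_congr rfl fun i _ => by rw [norm_smul, Real.norm_eq_abs]
  calc ‖∑ i ∈ Y, a i • p i‖ ^ 2 ≤ (∑ i ∈ Y, |a i| * ‖p i‖) ^ 2 :=
        pow_le_pow_left₀ (norm_nonneg _) h1 2
    _ ≤ (∑ i ∈ Y, |a i| ^ 2) * ∑ i ∈ Y, ‖p i‖ ^ 2 := Finset.sum_mul_sq_le_sq_mul_sq _ _ _
    _ = (∑ i ∈ Y, a i ^ 2) * ∑ i ∈ Y, ‖p i‖ ^ 2 := by simp only [sq_abs]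

lemma norm_sub_sq_le {F : Type*} [NormedAddCommGroup F] [InnerProductSpace ℝ F] (a b : F) :
    ‖a - b‖ ^ 2 ≤ 2 * ‖a‖ ^ 2 + 2 * ‖b‖ ^ 2 := by
  have h := norm_sub_le a b
  have h1 : ‖a - b‖ ^ 2 ≤ (‖a‖ + ‖b‖) ^ 2 := pow_le_pow_left₀ (norm_nonneg _) h 2
  nlinarith [sq_nonneg (‖a‖ - ‖b‖)]

/-! ### powers of two -/

lemma two_rpow_pos (x : ℝ) : (0 : ℝ) < (2 : ℝ) ^ x := Real.rpow_pos_of_pos (by norm_num) x

lemma two_rpow_mono {x y : ℝ} (h : x ≤ y) : (2 : ℝ) ^ x ≤ (2 : ℝ) ^ y :=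
  Real.rpow_le_rpow_of_exponent_le (by norm_num) h

lemma two_rpow_le_one {x : ℝ} (h : x ≤ 0) : (2 : ℝ) ^ x ≤ 1 :=
  Real.rpow_le_one_of_one_le_of_nonpos (by norm_num) h

lemma one_le_two_rpow {x : ℝ} (h : 0 ≤ x) : 1 ≤ (2 : ℝ) ^ x :=
  Real.one_le_rpow (by norm_num) h

lemma one_add_le_two_rpow {x : ℝ} (h : 0 ≤ x) : 1 + x / 2 ≤ (2 : ℝ) ^ x := by
  rw [Real.rpow_def_of_pos (by norm_num)]
  have h1 := Real.add_one_le_exp (Real.log 2 * x)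
  have h2 := Real.log_two_gt_d9
  nlinarith

lemma one_add_le_age (s : ℕ) : 1 + (s : ℝ) ≤ 128 * (2 : ℝ) ^ ((s : ℝ) / 64) := by
  have h := one_add_le_two_rpow (x := (s : ℝ) / 64) (by positivity)
  have hs : (0 : ℝ) ≤ s := Nat.cast_nonneg s
  linarith

lemma one_add_sq_le_age (s : ℕ) : (1 + (s : ℝ)) ^ 2 ≤ 128 ^ 2 * (2 : ℝ) ^ ((s : ℝ) / 32) := by
  have h := one_add_le_age s
  have h1 : (1 + (s : ℝ)) ^ 2 ≤ (128 * (2 : ℝ) ^ ((s : ℝ) / 64)) ^ 2 :=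
    pow_le_pow_left₀ (by positivity) h 2
  refine h1.trans (le_of_eq ?_)
  rw [mul_pow, ← Real.rpow_natCast ((2 : ℝ) ^ ((s : ℝ) / 64)) 2, ← Real.rpow_mul (by norm_num)]
  congr 2
  push_cast
  ring

lemma one_add_cube_le_age (s : ℕ) :
    (1 + (s : ℝ)) ^ 3 ≤ 128 ^ 3 * (2 : ℝ) ^ (3 * (s : ℝ) / 64) := by
  have h := one_add_le_age s
  have h1 : (1 + (s : ℝ)) ^ 3 ≤ (128 * (2 : ℝ) ^ ((s : ℝ) / 64)) ^ 3 :=
    pow_le_pow_left₀ (by positivity) h 3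
  refine h1.trans (le_of_eq ?_)
  rw [mul_pow, ← Real.rpow_natCast ((2 : ℝ) ^ ((s : ℝ) / 64)) 3, ← Real.rpow_mul (by norm_num)]
  congr 2
  push_cast
  ring

section

variable {d : ℕ} (t : Fin d → ℝ)

lemma om_nonneg (k : ℕ) (g : Grp) : 0 ≤ om t k g := by
  unfold om
  have := two_rpow_pos (-(age t k g : ℝ) / 64)
  split_ifs <;> positivity

lemma om_le (k : ℕ) (g : Grp) : om t k g ≤ 8 := by
  unfold om
  have h : (2 : ℝ) ^ (-(age t k g : ℝ) / 64) ≤ 1 := by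
    apply two_rpow_le_one
    have : (0 : ℝ) ≤ (age t k g : ℝ) := Nat.cast_nonneg _
    linarith
  split_ifs <;> linarith

lemma weight_old {k : ℕ} {g : Grp} (hg : g.1 ≤ k) :
    om t (k + 1) g * (1 + 1 / eta t k g) ≤ 1608 * (2 : ℝ) ^ ((age t k g : ℝ) / 64) := by
  have h1 := om_nonneg t (k + 1) g
  have h2 := om_le t (k + 1) g
  have h3 : 1 / eta t k g = 200 * (2 : ℝ) ^ ((age t k g : ℝ) / 64) := by
    unfold eta
    rw [if_pos hg, neg_div, Real.rpow_neg (by norm_num)]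
    have := two_rpow_pos ((age t k g : ℝ) / 64)
    field_simp
  have h4 : 1 ≤ (2 : ℝ) ^ ((age t k g : ℝ) / 64) := one_le_two_rpow (by positivity)
  rw [h3]
  nlinarith

lemma weight_new {k : ℕ} {g : Grp} (hg : ¬ g.1 ≤ k) :
    om t (k + 1) g * (1 + 1 / eta t k g) ≤ 16 := by
  have h2 := om_le t (k + 1) g
  unfold eta
  rw [if_neg hg]
  linarith

lemma weight_nonneg {k : ℕ} {g : Grp} : 0 ≤ om t (k + 1) g * (1 + 1 / eta t k g) := by
  have h1 := om_nonneg t (k + 1) g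
  have h2 : 0 ≤ eta t k g := by
    unfold eta
    have := two_rpow_pos (-(age t k g : ℝ) / 64)
    split_ifs <;> positivity
  positivity

end

end Vale.Agent.P262B.S5aux
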