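import Vale.Agent.P262B.S5a

open scoped BigOperators RealInnerProductSpace
open Finset

namespace Vale.Agent.P262B.S5aux

section

variable {d : ℕ} (t : Fin d → ℝ)

/-- the basic exponential of a group -/
noncomputable def xg (s : ℕ) : ℝ := (2 : ℝ) ^ ((s : ℝ) / 64)

lemma xg_pos (s : ℕ) : 0 < xg s := two_rpow_pos _

lemma one_le_xg (s : ℕ) : 1 ≤ xg s := one_le_two_rpow (by positivity)

lemma xg_pow (s n : ℕ) : xg s ^ n = (2 : ℝ) ^ ((n : ℝ) * (s : ℝ) / 64) := by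
  unfold xg
  rw [← Real.rpow_natCast, ← Real.rpow_mul (by norm_num)]
  congr 1
  ring

lemma xg_inv (s n : ℕ) : (xg s ^ n)⁻¹ = (2 : ℝ) ^ (-((n : ℝ) * (s : ℝ) / 64)) := by
  rw [xg_pow, Real.rpow_neg (by norm_num)]

lemma phi_eq (k : ℕ) (g : Grp) :
    phi t k g = Cf * ((xg (age t k g) ^ 48)⁻¹ * BB t g + (1 + (age t k g : ℝ)) ^ 2) := by
  unfold phi
  rw [xg_inv]
  congr 4
  push_cast
  ring

lemma BB_nonneg (g : Grp) : 0 ≤ BB t g := by
  unfold BB
  split_ifs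
  · exact Nat.cast_nonneg _
  · exact Real.rpow_nonneg (Nat.cast_nonneg _) _
  · exact le_rfl

lemma phi_nonneg (k : ℕ) (g : Grp) : 0 ≤ phi t k g := by
  rw [phi_eq]
  have h1 := BB_nonneg t g
  have h2 := xg_pos (age t k g)
  unfold Cf
  positivity

lemma age_base {b k : ℕ} {τ : Fin 3} (hτ : τ ≠ 2) : age t k (b, τ) = Lev t k - Lev t b := by
  unfold age
  rw [if_neg hτ]

lemma Lev_le {b k : ℕ} (h : b ≤ k) : Lev t b ≤ Lev t k := by
  have := Lev_mono t h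
  omega

lemma age_cast {b k : ℕ} (hb : b ≤ k) :
    ((Lev t k - Lev t b : ℕ) : ℝ) = (Lev t k : ℝ) - Lev t b := by
  rw [Nat.cast_sub (Lev_le t hb)]

/-- a critical group is young -/
lemma crit_pow {b k : ℕ} (hL : LB t b) (hc : crit t b k) :
    xg (Lev t k - Lev t b) ^ 16 ≤ 2 * (NN t b : ℝ) := by
  have hN := NN_ge t hL
  unfold crit sstar at hc
  have h1 : (2 : ℕ) ^ (Nat.clog 2 (NN t b)).pred < NN t b :=
    Nat.pow_pred_clog_lt_self (by norm_num) (by omega)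
  have hcl : 0 < Nat.clog 2 (NN t b) := Nat.clog_pos (by norm_num) (by omega)
  have h2 : (2 : ℕ) ^ (Nat.clog 2 (NN t b)) ≤ 2 * NN t b := by
    obtain ⟨n, hn⟩ := Nat.exists_eq_succ_of_ne_zero hcl.ne'
    rw [hn] at h1 ⊢
    rw [Nat.pred_succ] at h1
    rw [pow_succ]
    omega
  have h3 : Lev t k - Lev t b ≤ 4 * Nat.clog 2 (NN t b) := by omega
  have h3' : ((Lev t k - Lev t b : ℕ) : ℝ) ≤ 4 * (Nat.clog 2 (NN t b) : ℝ) := by exact_mod_cast h3
  rw [xg_pow]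
  calc (2 : ℝ) ^ (((16 : ℕ) : ℝ) * ((Lev t k - Lev t b : ℕ) : ℝ) / 64)
      ≤ (2 : ℝ) ^ ((Nat.clog 2 (NN t b) : ℝ)) := by
        apply two_rpow_mono
        push_cast
        linarith
    _ = ((2 ^ Nat.clog 2 (NN t b) : ℕ) : ℝ) := by
        rw [Real.rpow_natCast]
        push_cast
        rfl
    _ ≤ 2 * (NN t b : ℝ) := by exact_mod_cast h2

/-- a noncritical group is old -/
lemma noncrit_pow {b k : ℕ} (hc : ¬ crit t b k) :
    (NN t b : ℝ) ≤ xg (Lev t k - Lev t b) ^ 16 := by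
  unfold crit sstar at hc
  have h3 : 4 * Nat.clog 2 (NN t b) ≤ Lev t k - Lev t b := by omega
  have h3' : 4 * (Nat.clog 2 (NN t b) : ℝ) ≤ ((Lev t k - Lev t b : ℕ) : ℝ) := by exact_mod_cast h3
  have h4 : NN t b ≤ 2 ^ Nat.clog 2 (NN t b) := Nat.le_pow_clog (by norm_num) _
  rw [xg_pow]
  calc (NN t b : ℝ) ≤ ((2 ^ Nat.clog 2 (NN t b) : ℕ) : ℝ) := by exact_mod_cast h4
    _ = (2 : ℝ) ^ ((Nat.clog 2 (NN t b) : ℝ)) := by
        rw [Real.rpow_natCast]
        push_cast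
        rfl
    _ ≤ _ := by
        apply two_rpow_mono
        push_cast
        linarith

/-- a critical group which is not absorbed does not see a long stage -/
lemma wb_sq_le {b k : ℕ} (hb : b ≤ k) (hc : crit t b k) (ha : ¬ absb t b k) :
    (wb t k : ℝ) ^ 2 ≤ (NN t b : ℝ) := by
  have h1 : ww t k ^ 2 ≤ NN t b := by
    by_contra h
    exact ha ⟨hb, hc, by omega⟩
  have h2 := wb_le t k
  have h3 : wb t k ^ 2 ≤ NN t b := (Nat.pow_le_pow_left h2 2).trans h1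
  exact_mod_cast h3

lemma card_sq_le {b : ℕ} (hL : LB t b) : ((PP t b true).card : ℝ) ^ 2 ≤ (NN t b : ℝ) := by
  have h1 := card_zone t b
  have h2 := wc_pos t hL
  have h3 := NN_ge_wc t b
  have h4 : (1 : ℝ) ≤ wc t b := by exact_mod_cast h2
  have h5 : (wc t b : ℝ) ^ (1 / 4 : ℝ) ≤ (wc t b : ℝ) ^ (1 / 2 : ℝ) :=
    Real.rpow_le_rpow_of_exponent_le h4 (by norm_num)
  have h6 : ((PP t b true).card : ℝ) ^ 2 ≤ ((wc t b : ℝ) ^ (1 / 2 : ℝ)) ^ 2 :=
    pow_le_pow_left₀ (Nat.cast_nonneg _) (h1.trans h5) 2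
  have h7 : ((wc t b : ℝ) ^ (1 / 2 : ℝ)) ^ 2 = wc t b := by
    rw [← Real.rpow_natCast, ← Real.rpow_mul (by linarith)]
    norm_num
  rw [h7] at h6
  refine h6.trans ?_
  have : wc t b ≤ NN t b := by omega
  exact_mod_cast this

lemma pow_le_pow16 {x : ℝ} (hx : 1 ≤ x) {n : ℕ} (hn : n ≤ 16) : x ^ n ≤ x ^ 16 :=
  pow_le_pow_right₀ hx hn

/-- (A) -/
lemma crit_phi0 {b k : ℕ} (hL : LB t b) (hc : crit t b k) :
    xg (Lev t k - Lev t b) ^ 2 * phi t k (b, 0) ≤ 4 * 10 ^ 13 * (NN t b : ℝ) := by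
  rw [phi_eq, age_base t (by decide)]
  have hBB : BB t (b, 0) = NN t b := by simp [BB]
  rw [hBB]
  have h1 := crit_pow t hL hc
  set s := Lev t k - Lev t b with hs
  set x := xg s with hx
  have hx1 : 1 ≤ x := one_le_xg s
  have hN : (0 : ℝ) ≤ NN t b := Nat.cast_nonneg _
  have hage : 1 + (s : ℝ) ≤ 128 * x := one_add_le_age s
  have hs0 : (0 : ℝ) ≤ s := Nat.cast_nonneg s
  have h2 : x ^ 2 * (x ^ 48)⁻¹ ≤ 1 := by
    rw [← div_eq_mul_inv, div_le_one (by positivity)]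
    exact pow_le_pow_right₀ hx1 (by norm_num)
  have h3 : x ^ 2 * (1 + (s : ℝ)) ^ 2 ≤ 128 ^ 2 * (2 * NN t b) := by
    calc x ^ 2 * (1 + (s : ℝ)) ^ 2 ≤ x ^ 2 * (128 * x) ^ 2 := by gcongr
      _ = 128 ^ 2 * x ^ 4 := by ring
      _ ≤ 128 ^ 2 * x ^ 16 := by
        gcongr
        norm_num
      _ ≤ _ := by gcongr
  have h4 : x ^ 2 * (Cf * ((x ^ 48)⁻¹ * (NN t b : ℝ) + (1 + (s : ℝ)) ^ 2))
      = Cf * ((x ^ 2 * (x ^ 48)⁻¹) * NN t b + x ^ 2 * (1 + (s : ℝ)) ^ 2) := by ring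
  rw [h4]
  have h5 : (x ^ 2 * (x ^ 48)⁻¹) * NN t b ≤ NN t b := by
    calc (x ^ 2 * (x ^ 48)⁻¹) * NN t b ≤ 1 * NN t b := by gcongr
      _ = _ := one_mul _
  unfold Cf
  linarith

/-- (C) -/
lemma crit_card {b k : ℕ} (hL : LB t b) (hc : crit t b k) :
    xg (Lev t k - Lev t b) ^ 2 * ((PP t b true).card : ℝ) ≤ 2 * (NN t b : ℝ) := by
  have h1 := crit_pow t hL hc
  have h2 := card_sq_le t hL
  set x := xg (Lev t k - Lev t b)
  have hx1 : 1 ≤ x := one_le_xg _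
  have h3 : x ^ 4 ≤ x ^ 16 := pow_le_pow16 hx1 (by norm_num)
  nlinarith [sq_nonneg (x ^ 2 - ((PP t b true).card : ℝ))]

/-- (D) -/
lemma crit_age {b k : ℕ} (hL : LB t b) (hc : crit t b k) :
    xg (Lev t k - Lev t b) ^ 2 * (1 + ((Lev t k - Lev t b : ℕ) : ℝ)) ≤ 256 * (NN t b : ℝ) := by
  have h1 := crit_pow t hL hc
  have h2 := one_add_le_age (Lev t k - Lev t b)
  change 1 + ((Lev t k - Lev t b : ℕ) : ℝ) ≤ 128 * xg (Lev t k - Lev t b) at h2
  set x := xg (Lev t k - Lev t b)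
  have hx1 : 1 ≤ x := one_le_xg _
  have h3 : x ^ 3 ≤ x ^ 16 := pow_le_pow16 hx1 (by norm_num)
  calc x ^ 2 * (1 + ((Lev t k - Lev t b : ℕ) : ℝ)) ≤ x ^ 2 * (128 * x) := by gcongr
    _ = 128 * x ^ 3 := by ring
    _ ≤ 256 * (NN t b : ℝ) := by linarith

/-- (E) -/
lemma crit_wb {b k : ℕ} (hb : b ≤ k) (hL : LB t b) (hc : crit t b k) (ha : ¬ absb t b k) :
    xg (Lev t k - Lev t b) ^ 2 * (wb t k : ℝ) ≤ 2 * (NN t b : ℝ) := by
  have h1 := crit_pow t hL hc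
  have h2 := wb_sq_le t hb hc ha
  set x := xg (Lev t k - Lev t b)
  have hx1 : 1 ≤ x := one_le_xg _
  have h3 : x ^ 4 ≤ x ^ 16 := pow_le_pow16 hx1 (by norm_num)
  nlinarith [sq_nonneg (x ^ 2 - (wb t k : ℝ))]

/-- the width of the zone is large compared to the length of the stage -/
lemma wc_le_rho {b : ℕ} (hb : 1 ≤ b) : (wc t b : ℝ) ≤ (2 : ℝ) ^ ((rho t (b - 1) : ℝ) / 2) := by
  have hb0 : b ≠ 0 := by omega
  unfold wc wb rho
  rw [if_neg hb0]
  split_ifs with hl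
  · have h4 : ww t (b - 1) ≤ 2 ^ Nat.clog 2 (ww t (b - 1)) := Nat.le_pow_clog (by norm_num) _
    calc (ww t (b - 1) : ℝ) ≤ ((2 ^ Nat.clog 2 (ww t (b - 1)) : ℕ) : ℝ) := by exact_mod_cast h4
      _ = (2 : ℝ) ^ ((Nat.clog 2 (ww t (b - 1)) : ℝ)) := by
          rw [Real.rpow_natCast]
          push_cast
          rfl
      _ ≤ _ := by
          apply two_rpow_mono
          push_cast
          linarith
  · simp

lemma MM_pos (k : ℕ) : (0 : ℝ) < MM t k := by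
  unfold MM
  positivity

lemma MM_ge_one (k : ℕ) : (1 : ℝ) ≤ MM t k := by
  unfold MM
  exact_mod_cast Nat.one_le_two_pow

lemma yr_nonneg (k : ℕ) : 0 ≤ YY t k / MM t k := div_nonneg (YY_nonneg t k) (MM_pos t k).le

lemma yr_le_one (k : ℕ) : YY t k / MM t k ≤ 1 / 10 ^ 6 := by
  refine (div_le_self (YY_nonneg t k) (MM_ge_one t k)).trans (YY_small t k)

/-- (B) -/
lemma crit_phi1 {b k : ℕ} (hbk : b ≤ k) (hL : LB t b) (hc : crit t b k) :
    xg (Lev t k - Lev t b) ^ 2 * (YY t k / MM t k * phi t k (b, 1))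
      ≤ 4 * 10 ^ 13 * (NN t b : ℝ) := by
  rw [phi_eq, age_base t (by decide)]
  have hBB : BB t (b, 1) = ((wc t b : ℕ) : ℝ) ^ (9 / 4 : ℝ) := by simp [BB]
  rw [hBB]
  have h1 := crit_pow t hL hc
  have hy0 := yr_nonneg t k
  have hy1 : YY t k / MM t k ≤ 1 := (yr_le_one t k).trans (by norm_num)
  have hwc : (1 : ℝ) ≤ wc t b := by exact_mod_cast wc_pos t hL
  have hwcN : (wc t b : ℝ) ≤ NN t b := by
    have := NN_ge_wc t b
    have h : wc t b ≤ NN t b := by omega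
    exact_mod_cast h
  have hcast := age_cast t hbk
  -- the main product
  have hmain : xg (Lev t k - Lev t b) ^ 2 * (xg (Lev t k - Lev t b) ^ 48)⁻¹
      * (YY t k / MM t k) * ((wc t b : ℕ) : ℝ) ^ (9 / 4 : ℝ) ≤ NN t b := by
    have hx246 : xg (Lev t k - Lev t b) ^ 2 * (xg (Lev t k - Lev t b) ^ 48)⁻¹
        = (2 : ℝ) ^ (-(23 / 32) * ((Lev t k : ℝ) - Lev t b)) := by
      rw [xg_pow, xg_inv, ← Real.rpow_add (by norm_num), hcast]
      congr 1
      push_cast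
      ring
    rw [hx246]
    rcases Nat.eq_zero_or_pos b with hb0 | hb1
    · have hwc0 : wc t b = 1 := by
        unfold wc
        rw [if_pos hb0]
      rw [hwc0] at hwcN ⊢
      have hle : (2 : ℝ) ^ (-(23 / 32) * ((Lev t k : ℝ) - Lev t b)) ≤ 1 := by
        apply two_rpow_le_one
        rw [← hcast]
        have : (0 : ℝ) ≤ ((Lev t k - Lev t b : ℕ) : ℝ) := Nat.cast_nonneg _
        linarith
      rw [Nat.cast_one, Real.one_rpow, mul_one]
      have : (2 : ℝ) ^ (-(23 / 32) * ((Lev t k : ℝ) - Lev t b)) * (YY t k / MM t k) ≤ 1 * 1 :=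
        mul_le_mul hle hy1 hy0 zero_le_one
      push_cast at hwcN
      linarith
    · have hz := YY_zone t hb1 hbk
      set σ : ℝ := (Lev t k : ℝ) - Lev t b with hσ
      set ρ : ℝ := (rho t (b - 1) : ℝ) with hρ
      have hσ0 : 0 ≤ σ := by
        rw [← hcast]
        exact Nat.cast_nonneg _
      have hρ0 : 0 ≤ ρ := Nat.cast_nonneg _
      have h2 : (2 : ℝ) ^ (-(23 / 32) * σ) * (YY t k / MM t k) ≤ (2 : ℝ) ^ (-(5 / 8) * ρ) := by
        calc (2 : ℝ) ^ (-(23 / 32) * σ) * (YY t k / MM t k)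
            ≤ (2 : ℝ) ^ (-(23 / 32) * σ) * (2 : ℝ) ^ (-(3 / 4) * max 0 (ρ - σ)) := by
              gcongr
          _ = (2 : ℝ) ^ (-(23 / 32) * σ + -(3 / 4) * max 0 (ρ - σ)) := by
              rw [Real.rpow_add (by norm_num)]
          _ ≤ _ := by
              apply two_rpow_mono
              rcases le_total ρ σ with h | h
              · rw [max_eq_left (by linarith)]
                linarith
              · rw [max_eq_right (by linarith)]
                linarith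
      have h3 : ((wc t b : ℕ) : ℝ) ^ (9 / 4 : ℝ)
          = (wc t b : ℝ) * (wc t b : ℝ) ^ (5 / 4 : ℝ) := by
        rw [← Real.rpow_one_add' (by linarith) (by norm_num)]
        norm_num
      have h4 : (wc t b : ℝ) ^ (5 / 4 : ℝ) ≤ (2 : ℝ) ^ ((5 / 8) * ρ) := by
        calc (wc t b : ℝ) ^ (5 / 4 : ℝ) ≤ ((2 : ℝ) ^ (ρ / 2)) ^ (5 / 4 : ℝ) :=
              Real.rpow_le_rpow (by linarith) (wc_le_rho t hb1) (by norm_num)
          _ = _ := by
              rw [← Real.rpow_mul (by norm_num)]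
              congr 1
              ring
      rw [h3]
      calc (2 : ℝ) ^ (-(23 / 32) * σ) * (YY t k / MM t k) *
            ((wc t b : ℝ) * (wc t b : ℝ) ^ (5 / 4 : ℝ))
          ≤ (2 : ℝ) ^ (-(5 / 8) * ρ) * ((wc t b : ℝ) * (2 : ℝ) ^ ((5 / 8) * ρ)) := by
            apply mul_le_mul h2 _ _ (two_rpow_pos _).le
            · gcongr
            · exact mul_nonneg (by linarith) (Real.rpow_nonneg (by linarith) _)
        _ = (wc t b : ℝ) * ((2 : ℝ) ^ (-(5 / 8) * ρ) * (2 : ℝ) ^ ((5 / 8) * ρ)) := by ring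
        _ = (wc t b : ℝ) := by
            rw [← Real.rpow_add (by norm_num)]
            have : -(5 / 8) * ρ + 5 / 8 * ρ = 0 := by ring
            rw [this, Real.rpow_zero, mul_one]
        _ ≤ NN t b := hwcN
  have h2 := one_add_le_age (Lev t k - Lev t b)
  change 1 + ((Lev t k - Lev t b : ℕ) : ℝ) ≤ 128 * xg (Lev t k - Lev t b) at h2
  set s := Lev t k - Lev t b with hs
  set x := xg s with hx
  set y := YY t k / MM t k with hy
  have hx1 : 1 ≤ x := one_le_xg s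
  have h3 : x ^ 2 * (y * (1 + (s : ℝ)) ^ 2) ≤ 128 ^ 2 * (2 * NN t b) := by
    calc x ^ 2 * (y * (1 + (s : ℝ)) ^ 2) ≤ x ^ 2 * (1 * (128 * x) ^ 2) := by gcongr
      _ = 128 ^ 2 * x ^ 4 := by ring
      _ ≤ 128 ^ 2 * x ^ 16 := by
        gcongr
        norm_num
      _ ≤ _ := by gcongr
  have h4 : x ^ 2 * (y * (Cf * ((x ^ 48)⁻¹ * ((wc t b : ℕ) : ℝ) ^ (9 / 4 : ℝ)
        + (1 + (s : ℝ)) ^ 2)))
      = Cf * (x ^ 2 * (x ^ 48)⁻¹ * y * ((wc t b : ℕ) : ℝ) ^ (9 / 4 : ℝ)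
        + x ^ 2 * (y * (1 + (s : ℝ)) ^ 2)) := by ring
  rw [h4]
  unfold Cf
  linarith

/-- functional bound of an old group -/
lemma noncrit_phi {k : ℕ} {g : Grp} (hL : LB t g.1) (hc : ¬ critg t k g) :
    phi t k g ≤ 2 * Cf * (1 + (age t k g : ℝ)) ^ 2 := by
  rw [phi_eq]
  have hage : (1 : ℝ) ≤ (1 + (age t k g : ℝ)) ^ 2 := by
    have : (0 : ℝ) ≤ (age t k g : ℝ) := Nat.cast_nonneg _
    nlinarith
  have hx0 : 0 < xg (age t k g) ^ 48 := pow_pos (xg_pos _) _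
  have hBB : BB t g ≤ xg (age t k g) ^ 48 := by
    by_cases h2 : g.2 = 2
    · have : BB t g = 0 := by
        unfold BB
        rw [if_neg (by rw [h2]; decide), if_neg (by rw [h2]; decide)]
      rw [this]
      exact hx0.le
    · have hc' : ¬ crit t g.1 k := fun h => hc ⟨h2, h⟩
      have hag : age t k g = Lev t k - Lev t g.1 := by
        unfold age
        rw [if_neg h2]
      rw [hag]
      have h3 := noncrit_pow t hc'
      set x := xg (Lev t k - Lev t g.1)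
      have hx1 : 1 ≤ x := one_le_xg _
      have hN : (1 : ℝ) ≤ NN t g.1 := by
        have := NN_ge t hL
        exact_mod_cast (by omega : 1 ≤ NN t g.1)
      have hNN48 : (NN t g.1 : ℝ) ^ 3 ≤ x ^ 48 := by
        calc (NN t g.1 : ℝ) ^ 3 ≤ (x ^ 16) ^ 3 := by gcongr
          _ = x ^ 48 := by ring
      unfold BB
      split_ifs with h0 h1
      · refine le_trans ?_ hNN48
        exact le_self_pow₀ hN (by norm_num)
      · have hwc : (1 : ℝ) ≤ wc t g.1 := by exact_mod_cast wc_pos t hL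
        have hwcN : (wc t g.1 : ℝ) ≤ NN t g.1 := by
          have := NN_ge_wc t g.1
          have h : wc t g.1 ≤ NN t g.1 := by omega
          exact_mod_cast h
        calc ((wc t g.1 : ℕ) : ℝ) ^ (9 / 4 : ℝ) ≤ (wc t g.1 : ℝ) ^ (3 : ℝ) :=
              Real.rpow_le_rpow_of_exponent_le hwc (by norm_num)
          _ = (wc t g.1 : ℝ) ^ 3 := by norm_cast
          _ ≤ (NN t g.1 : ℝ) ^ 3 := by gcongr
          _ ≤ _ := hNN48
      · exact (zero_le_one.trans (one_le_pow₀ hx1))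
  have h5 : (xg (age t k g) ^ 48)⁻¹ * BB t g ≤ 1 := by
    rw [inv_mul_le_one₀ hx0]
    exact hBB
  unfold Cf
  linarith

end

end Vale.Agent.P262B.S5aux
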