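import Vale.Agent.P262B.S5b

open scoped BigOperators RealInnerProductSpace
open Finset

set_option linter.unusedSectionVars false

namespace Vale.Agent.P262B.S5aux

variable {d : ℕ} {ι : Type} [Fintype ι] [DecidableEq ι] (I : Inst d ι)

lemma norm_v_proj_le_one (G : Finset (Fin d)) (i : ι) : ‖proj G (I.v i)‖ ^ 2 ≤ 1 := by
  refine (norm_proj_sq_le G (I.v i)).trans ?_
  have h1 := I.hv i
  have h2 := norm_nonneg (I.v i)
  nlinarith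

lemma ff_age (k : ℕ) (g : Grp) (i : ι) :
    ff I k g i = min 1 (xg (age I.t k g) ^ 8 * ‖proj (GS I.t k g) (I.v i)‖ ^ 2) := by
  unfold ff
  rw [xg_pow]
  congr 3
  push_cast
  ring

lemma ff_nonneg (k : ℕ) (g : Grp) (i : ι) : 0 ≤ ff I k g i := by
  rw [ff_age]
  have := xg_pos (age I.t k g)
  apply le_min <;> positivity

lemma proj_le_ff (k : ℕ) (g : Grp) (i : ι) : ‖proj (GS I.t k g) (I.v i)‖ ^ 2 ≤ ff I k g i := by
  rw [ff_age]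
  apply le_min (norm_v_proj_le_one I _ i)
  have h1 : 1 ≤ xg (age I.t k g) ^ 8 := one_le_pow₀ (one_le_xg _)
  have h2 := sq_nonneg ‖proj (GS I.t k g) (I.v i)‖
  nlinarith

/-- energy of a group -/
lemma energy_all {k : ℕ} {X : Finset ι} {g : Grp} (hF : ∑ i ∈ X, ff I k g i ≤ phi I.t k g) :
    ∑ i ∈ X, ‖proj (GS I.t k g) (I.v i)‖ ^ 2 ≤ phi I.t k g :=
  (Finset.sum_le_sum fun i _ => proj_le_ff I k g i).trans hF

/-- energy of the fine part of a noncritical group -/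
lemma energy_fine {k : ℕ} {X : Finset ι} {g : Grp} {S : Grp → Finset ι}
    (hF : ∑ i ∈ X, ff I k g i ≤ phi I.t k g) (hc : ¬ critg I.t k g)
    (hS : ∀ i ∈ X, gran I k g i → i ∈ S g) :
    ∑ i ∈ X \ S g, ‖proj (GS I.t k g) (I.v i)‖ ^ 2 ≤ (xg (age I.t k g) ^ 8)⁻¹ * phi I.t k g := by
  have hx0 : 0 < xg (age I.t k g) ^ 8 := pow_pos (xg_pos _) _
  have h1 : ∀ i ∈ X \ S g, ‖proj (GS I.t k g) (I.v i)‖ ^ 2
      ≤ (xg (age I.t k g) ^ 8)⁻¹ * ff I k g i := by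
    intro i hi
    rw [Finset.mem_sdiff] at hi
    have hng : ¬ gran I k g i := fun h => hi.2 (hS i hi.1 h)
    have hlt : xg (age I.t k g) ^ 8 * ‖proj (GS I.t k g) (I.v i)‖ ^ 2 < 1 := by
      by_contra hge
      apply hng
      refine ⟨hc, ?_⟩
      have h2 : (2 : ℝ) ^ ((age I.t k g : ℝ) / 8) = xg (age I.t k g) ^ 8 := by
        rw [xg_pow]
        congr 1
        push_cast
        ring
      rw [h2]
      linarith
    rw [ff_age, min_eq_right hlt.le]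
    rw [inv_mul_cancel_left₀ hx0.ne']
  calc ∑ i ∈ X \ S g, ‖proj (GS I.t k g) (I.v i)‖ ^ 2
      ≤ ∑ i ∈ X \ S g, (xg (age I.t k g) ^ 8)⁻¹ * ff I k g i := Finset.sum_le_sum h1
    _ = (xg (age I.t k g) ^ 8)⁻¹ * ∑ i ∈ X \ S g, ff I k g i := by rw [Finset.mul_sum]
    _ ≤ (xg (age I.t k g) ^ 8)⁻¹ * ∑ i ∈ X, ff I k g i := by
        apply mul_le_mul_of_nonneg_left _ (inv_nonneg.2 hx0.le)
        exact Finset.sum_le_sum_of_subset_of_nonneg Finset.sdiff_subset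
          fun i _ _ => ff_nonneg I k g i
    _ ≤ _ := mul_le_mul_of_nonneg_left hF (inv_nonneg.2 hx0.le)

/-- noise + leak -/
lemma gt_sq_le (k : ℕ) (X : Finset ι) (S : Grp → Finset ι) (c : ι → ℕ) (m : ℕ) (y : Vec d)
    (g : Grp) :
    ‖gt I k X S c m g‖ ^ 2
      ≤ 2 * ‖∑ i ∈ X \ S g, uu I k c y m i • proj (GS I.t (k + 1) g) (I.v i)‖ ^ 2
        + 2 * ‖∑ i ∈ X \ S g, ⟪y, I.v i⟫ • proj (GS I.t (k + 1) g) (I.v i)‖ ^ 2 := by
  have h1 : gt I k X S c m g = ∑ i ∈ X \ S g, uu I k c y m i • proj (GS I.t (k + 1) g) (I.v i)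
      - ∑ i ∈ X \ S g, ⟪y, I.v i⟫ • proj (GS I.t (k + 1) g) (I.v i) := by
    unfold gt
    rw [← Finset.sum_sub_distrib]
    refine Finset.sum_congr rfl fun i _ => ?_
    rw [← sub_smul]
    unfold uu
    congr 1
    ring
  rw [h1]
  exact norm_sub_sq_le _ _

lemma gt_empty {k : ℕ} {X : Finset ι} {S : Grp → Finset ι} {c : ι → ℕ} {m : ℕ} {g : Grp}
    (hG : GS I.t (k + 1) g = ∅) : gt I k X S c m g = 0 := by
  unfold gt
  refine Finset.sum_eq_zero fun i _ => ?_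
  rw [hG, proj_empty, smul_zero]

variable {I}

/-- the leak -/
lemma leak_le {k : ℕ} {X : Finset ι} {Ea Eb : Vec d} {S : Grp → Finset ι}
    {c : ι → ℕ} {yb yc : ℕ → Vec d} (h : StageOut I k X Ea Eb S c yb yc)
    {m : ℕ} (hm1 : 1 ≤ m) (hm : m < MM I.t k) {Y : Finset ι} (hY : Y ⊆ X) (G : Finset (Fin d)) :
    ‖∑ i ∈ Y, ⟪yb m, I.v i⟫ • proj G (I.v i)‖ ^ 2
      ≤ 2 * (YY I.t k / MM I.t k) * ∑ i ∈ Y, ‖proj G (I.v i)‖ ^ 2 := by
  refine (norm_comb_sq_le Y _ _).trans ?_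
  apply mul_le_mul_of_nonneg_right _ (Finset.sum_nonneg fun _ _ => sq_nonneg _)
  calc ∑ i ∈ Y, ⟪yb m, I.v i⟫ ^ 2 ≤ ∑ i ∈ X, ⟪yb m, I.v i⟫ ^ 2 :=
        Finset.sum_le_sum_of_subset_of_nonneg hY fun _ _ _ => sq_nonneg _
    _ ≤ 2 * YY I.t k / MM I.t k := h.enb m hm1 hm
    _ = _ := by ring

lemma xg_sq_le_cost {b k : ℕ} (hb : b ≤ k) {s : ℕ} (hs : Lev I.t k - Lev I.t b ≤ s) :
    (xg s)⁻¹ ≤ (2 : ℝ) ^ (-((Lev I.t k : ℝ) - Lev I.t b) / 64) := by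
  have h1 := xg_inv s 1
  rw [pow_one] at h1
  rw [h1]
  apply two_rpow_mono
  rw [← age_cast I.t hb]
  have : ((Lev I.t k - Lev I.t b : ℕ) : ℝ) ≤ s := by exact_mod_cast hs
  push_cast
  linarith

/-- from the squared bound to the weighted bound of an old group -/
lemma weighted_old {k : ℕ} {g : Grp} (hg : g.1 ≤ k) {G B : ℝ} (hG : 0 ≤ G) (hB : 0 ≤ B)
    (hs : Lev I.t k - Lev I.t g.1 ≤ age I.t k g)
    (h : xg (age I.t k g) ^ 2 * G ≤ 10 ^ 50 * B) :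
    om I.t (k + 1) g * (1 + 1 / eta I.t k g) * G
      ≤ 10 ^ 59 * ((2 : ℝ) ^ (-((Lev I.t k : ℝ) - Lev I.t g.1) / 64) * B) := by
  have h1 := weight_old I.t hg
  have h2 := xg_sq_le_cost (I := I) hg hs
  change _ ≤ 1608 * xg (age I.t k g) at h1
  set x := xg (age I.t k g) with hx
  have hx0 : 0 < x := xg_pos _
  calc om I.t (k + 1) g * (1 + 1 / eta I.t k g) * G ≤ 1608 * x * G := by gcongr
    _ = 1608 * (x⁻¹ * (x ^ 2 * G)) := by
        field_simp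
    _ ≤ 1608 * (x⁻¹ * (10 ^ 50 * B)) := by
        have : 0 ≤ x⁻¹ := by positivity
        gcongr
    _ = 1608 * 10 ^ 50 * (x⁻¹ * B) := by ring
    _ ≤ 1608 * 10 ^ 50 * ((2 : ℝ) ^ (-((Lev I.t k : ℝ) - Lev I.t g.1) / 64) * B) := by
        gcongr
    _ ≤ _ := by
        have : 0 ≤ (2 : ℝ) ^ (-((Lev I.t k : ℝ) - Lev I.t g.1) / 64) * B :=
          mul_nonneg (two_rpow_pos _).le hB
        apply mul_le_mul_of_nonneg_right _ this
        norm_num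

/-- (a) critical base groups -/
lemma group_crit0 {k : ℕ} {X : Finset ι} {Ea Eb : Vec d} {S : Grp → Finset ι}
    {c : ι → ℕ} {yb yc : ℕ → Vec d} (h : StageOut I k X Ea Eb S c yb yc)
    {b : ℕ} (hbk : b ≤ k) (hL : LB I.t b) (hc : crit I.t b k) (ha : ¬ absb I.t b k)
    (hF : ∑ i ∈ X, ff I k (b, 0) i ≤ phi I.t k (b, 0)) (hSe : S (b, 0) = ∅)
    {m : ℕ} (hm1 : 1 ≤ m) (hm : m < MM I.t k) :
    xg (age I.t k (b, 0)) ^ 2 * ‖gt I k X S c m (b, 0)‖ ^ 2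
      ≤ 10 ^ 50 * ((NN I.t b : ℝ) + 1 + wb I.t k) := by
  have h1 := gt_sq_le I k X S c m (yb m) (b, 0)
  rw [hSe, Finset.sdiff_empty, GS_succ_base I.t hbk ha] at h1
  have h2 := h.noise0 m hm1 hm b hbk hc ha
  unfold cmb at h2
  rw [proj_sum] at h2
  have h3 := leak_le h hm1 hm (Finset.Subset.refl X) (GS I.t k (b, 0))
  have h4 := energy_all I hF
  have hA := crit_phi0 I.t hL hc
  have hD := crit_age I.t hL hc
  have hE := crit_wb I.t hbk hL hc ha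
  have hy0 := yr_nonneg I.t k
  have hy1 := yr_le_one I.t k
  have hphi := phi_nonneg I.t k (b, 0)
  have hag : age I.t k (b, 0) = Lev I.t k - Lev I.t b := age_base I.t (by decide)
  rw [hag] at h2 ⊢
  have h5 : ‖∑ i ∈ X, ⟪yb m, I.v i⟫ • proj (GS I.t k (b, 0)) (I.v i)‖ ^ 2 ≤ phi I.t k (b, 0) := by
    refine h3.trans ?_
    calc 2 * (YY I.t k / MM I.t k) * ∑ i ∈ X, ‖proj (GS I.t k (b, 0)) (I.v i)‖ ^ 2
        ≤ 1 * phi I.t k (b, 0) := by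
          apply mul_le_mul _ h4 (Finset.sum_nonneg fun _ _ => sq_nonneg _) zero_le_one
          linarith
      _ = _ := one_mul _
  set x := xg (Lev I.t k - Lev I.t b)
  have hx0 : 0 ≤ x ^ 2 := sq_nonneg _
  have h6 : ‖gt I k X S c m (b, 0)‖ ^ 2 ≤ 2 * (Gc * (phi I.t k (b, 0) + 1 + wb I.t k +
      ((Lev I.t k - Lev I.t b : ℕ) : ℝ))) + 2 * phi I.t k (b, 0) := by linarith
  have hN : (0 : ℝ) ≤ NN I.t b := Nat.cast_nonneg _
  have hw : (0 : ℝ) ≤ wb I.t k := Nat.cast_nonneg _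
  calc x ^ 2 * ‖gt I k X S c m (b, 0)‖ ^ 2
      ≤ x ^ 2 * (2 * (Gc * (phi I.t k (b, 0) + 1 + wb I.t k +
      ((Lev I.t k - Lev I.t b : ℕ) : ℝ))) + 2 * phi I.t k (b, 0)) := by gcongr
    _ = (2 * Gc + 2) * (x ^ 2 * phi I.t k (b, 0))
        + 2 * Gc * (x ^ 2 * (1 + ((Lev I.t k - Lev I.t b : ℕ) : ℝ)))
        + 2 * Gc * (x ^ 2 * (wb I.t k : ℝ)) := by ring
    _ ≤ 10 ^ 50 * ((NN I.t b : ℝ) + 1 + wb I.t k) := by
        unfold Gc
        nlinarith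

/-- (b) critical zone groups -/
lemma group_crit1 {k : ℕ} {X : Finset ι} {Ea Eb : Vec d} {S : Grp → Finset ι}
    {c : ι → ℕ} {yb yc : ℕ → Vec d} (h : StageOut I k X Ea Eb S c yb yc)
    {b : ℕ} (hbk : b ≤ k) (hL : LB I.t b) (hc : crit I.t b k) (ha : ¬ absb I.t b k)
    (hF : ∑ i ∈ X, ff I k (b, 1) i ≤ phi I.t k (b, 1)) (hSe : S (b, 1) = ∅)
    {m : ℕ} (hm1 : 1 ≤ m) (hm : m < MM I.t k) :
    xg (age I.t k (b, 1)) ^ 2 * ‖gt I k X S c m (b, 1)‖ ^ 2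
      ≤ 10 ^ 50 * ((NN I.t b : ℝ) + 1 + wb I.t k) := by
  have h1 := gt_sq_le I k X S c m (yb m) (b, 1)
  rw [hSe, Finset.sdiff_empty, GS_succ_base I.t hbk ha] at h1
  have h2 := h.noise1 m hm1 hm b hbk hc ha
  unfold cmb at h2
  rw [proj_sum] at h2
  have h3 := leak_le h hm1 hm (Finset.Subset.refl X) (GS I.t k (b, 1))
  have h4 := energy_all I hF
  have hB := crit_phi1 I.t hbk hL hc
  have hC := crit_card I.t hL hc
  have hD := crit_age I.t hL hc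
  have hE := crit_wb I.t hbk hL hc ha
  have hy0 := yr_nonneg I.t k
  have hphi := phi_nonneg I.t k (b, 1)
  have hag : age I.t k (b, 1) = Lev I.t k - Lev I.t b := age_base I.t (by decide)
  rw [hag] at h2 ⊢
  have h5 : ‖∑ i ∈ X, ⟪yb m, I.v i⟫ • proj (GS I.t k (b, 1)) (I.v i)‖ ^ 2
      ≤ 2 * (YY I.t k / MM I.t k * phi I.t k (b, 1)) := by
    refine h3.trans ?_
    calc 2 * (YY I.t k / MM I.t k) * ∑ i ∈ X, ‖proj (GS I.t k (b, 1)) (I.v i)‖ ^ 2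
        ≤ 2 * (YY I.t k / MM I.t k) * phi I.t k (b, 1) := by gcongr
      _ = _ := by ring
  set x := xg (Lev I.t k - Lev I.t b)
  have hx0 : 0 ≤ x ^ 2 := sq_nonneg _
  have h6 : ‖gt I k X S c m (b, 1)‖ ^ 2 ≤ 2 * (Gc * ((PP I.t b true).card + 1 + wb I.t k +
      ((Lev I.t k - Lev I.t b : ℕ) : ℝ))) + 4 * (YY I.t k / MM I.t k * phi I.t k (b, 1)) := by
    linarith
  have hN : (0 : ℝ) ≤ NN I.t b := Nat.cast_nonneg _
  have hw : (0 : ℝ) ≤ wb I.t k := Nat.cast_nonneg _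
  calc x ^ 2 * ‖gt I k X S c m (b, 1)‖ ^ 2
      ≤ x ^ 2 * (2 * (Gc * ((PP I.t b true).card + 1 + wb I.t k +
      ((Lev I.t k - Lev I.t b : ℕ) : ℝ))) + 4 * (YY I.t k / MM I.t k * phi I.t k (b, 1))) := by
        gcongr
    _ = 4 * (x ^ 2 * (YY I.t k / MM I.t k * phi I.t k (b, 1)))
        + 2 * Gc * (x ^ 2 * ((PP I.t b true).card : ℝ))
        + 2 * Gc * (x ^ 2 * (1 + ((Lev I.t k - Lev I.t b : ℕ) : ℝ)))
        + 2 * Gc * (x ^ 2 * (wb I.t k : ℝ)) := by ring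
    _ ≤ 10 ^ 50 * ((NN I.t b : ℝ) + 1 + wb I.t k) := by
        unfold Gc
        nlinarith

/-- (c) noncritical groups -/
lemma group_noncrit {k : ℕ} {X : Finset ι} {Ea Eb : Vec d} {S : Grp → Finset ι}
    {c : ι → ℕ} {yb yc : ℕ → Vec d} (h : StageOut I k X Ea Eb S c yb yc)
    {g : Grp} (hg : g ∈ grps k) (hL : LB I.t g.1) (hc : ¬ critg I.t k g)
    (hGS : GS I.t (k + 1) g = GS I.t k g)
    (hF : ∑ i ∈ X, ff I k g i ≤ phi I.t k g) (hS : ∀ i ∈ X, gran I k g i → i ∈ S g)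
    {m : ℕ} (hm1 : 1 ≤ m) (hm : m < MM I.t k) :
    xg (age I.t k g) ^ 2 * ‖gt I k X S c m g‖ ^ 2
      ≤ 10 ^ 50 * ((NN I.t g.1 : ℝ) + 1 + wb I.t k) := by
  have h1 := gt_sq_le I k X S c m (yb m) g
  rw [hGS] at h1
  have h2 := h.noiseF m hm1 hm g hg hc
  have h3 := leak_le h hm1 hm (Finset.sdiff_subset (s := X) (t := S g)) (GS I.t k g)
  have h4 := energy_fine I hF hc hS
  have hy0 := yr_nonneg I.t k
  have hy1 := yr_le_one I.t k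
  have hphi := phi_nonneg I.t k g
  have hphi2 := noncrit_phi I.t hL hc
  have hage := one_add_le_age (age I.t k g)
  change 1 + (age I.t k g : ℝ) ≤ 128 * xg (age I.t k g) at hage
  have hx8 : (2 : ℝ) ^ (-(age I.t k g : ℝ) / 8) = (xg (age I.t k g) ^ 8)⁻¹ := by
    rw [xg_inv]
    congr 1
    push_cast
    ring
  rw [hx8] at h2
  set s : ℝ := (age I.t k g : ℝ) with hs
  have hs0 : 0 ≤ s := Nat.cast_nonneg _
  set x := xg (age I.t k g) with hx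
  have hx1 : 1 ≤ x := one_le_xg _
  have hx0 : 0 < x := xg_pos _
  have hN : (0 : ℝ) ≤ NN I.t g.1 := Nat.cast_nonneg _
  have hw : (0 : ℝ) ≤ wb I.t k := Nat.cast_nonneg _
  have hxi : 0 ≤ (x ^ 8)⁻¹ := by positivity
  have hprod : 0 ≤ (x ^ 8)⁻¹ * phi I.t k g := mul_nonneg hxi hphi
  have h5 : ‖∑ i ∈ X \ S g, ⟪yb m, I.v i⟫ • proj (GS I.t k g) (I.v i)‖ ^ 2
      ≤ (x ^ 8)⁻¹ * phi I.t k g * (1 + wb I.t k + s) := by
    refine h3.trans ?_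
    calc 2 * (YY I.t k / MM I.t k) * ∑ i ∈ X \ S g, ‖proj (GS I.t k g) (I.v i)‖ ^ 2
        ≤ 1 * ((x ^ 8)⁻¹ * phi I.t k g) := by
          apply mul_le_mul _ h4 (Finset.sum_nonneg fun _ _ => sq_nonneg _) zero_le_one
          linarith
      _ ≤ (x ^ 8)⁻¹ * phi I.t k g * (1 + wb I.t k + s) := by nlinarith
  have h6 : ‖gt I k X S c m g‖ ^ 2 ≤ (2 * Gc + 2) * ((x ^ 8)⁻¹ * phi I.t k g
      * (1 + wb I.t k + s)) := by
    have : Gc * ((x ^ 8)⁻¹ * phi I.t k g) * (1 + wb I.t k + s)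
        = Gc * ((x ^ 8)⁻¹ * phi I.t k g * (1 + wb I.t k + s)) := by ring
    rw [this] at h2
    linarith
  have h7 : (x ^ 8)⁻¹ * phi I.t k g * (1 + wb I.t k + s)
      ≤ (x ^ 8)⁻¹ * (2 * Cf * (1 + s) ^ 2) * ((1 + s) * (1 + wb I.t k)) := by
    apply mul_le_mul
    · exact mul_le_mul_of_nonneg_left hphi2 hxi
    · nlinarith
    · positivity
    · unfold Cf
      positivity
  have h8 : (x ^ 8)⁻¹ * (2 * Cf * (1 + s) ^ 2) * ((1 + s) * (1 + wb I.t k))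
      = 2 * Cf * ((x ^ 8)⁻¹ * (1 + s) ^ 3) * (1 + wb I.t k) := by ring
  have h9 : x ^ 2 * ((x ^ 8)⁻¹ * (1 + s) ^ 3) ≤ 128 ^ 3 := by
    calc x ^ 2 * ((x ^ 8)⁻¹ * (1 + s) ^ 3) ≤ x ^ 2 * ((x ^ 8)⁻¹ * (128 * x) ^ 3) := by gcongr
      _ = 128 ^ 3 * (x ^ 3)⁻¹ := by
          field_simp
      _ ≤ 128 ^ 3 * 1 := by
          gcongr
          exact inv_le_one_of_one_le₀ (one_le_pow₀ hx1)
      _ = 128 ^ 3 := by ring
  calc x ^ 2 * ‖gt I k X S c m g‖ ^ 2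
      ≤ x ^ 2 * ((2 * Gc + 2) * (2 * Cf * ((x ^ 8)⁻¹ * (1 + s) ^ 3) * (1 + wb I.t k))) := by
        rw [← h8]
        have hGc : 0 ≤ 2 * Gc + 2 := by
          unfold Gc
          norm_num
        gcongr
        exact h6.trans (mul_le_mul_of_nonneg_left h7 hGc)
    _ = (2 * Gc + 2) * (2 * Cf) * (x ^ 2 * ((x ^ 8)⁻¹ * (1 + s) ^ 3)) * (1 + wb I.t k) := by ring
    _ ≤ (2 * Gc + 2) * (2 * Cf) * 128 ^ 3 * (1 + wb I.t k) := by
        unfold Gc Cf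
        gcongr
    _ ≤ 10 ^ 50 * ((NN I.t g.1 : ℝ) + 1 + wb I.t k) := by
        unfold Gc Cf
        nlinarith

end Vale.Agent.P262B.S5aux
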