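import Vale.Agent.P262B.S5c

open scoped BigOperators RealInnerProductSpace
open Finset

set_option linter.unusedSectionVars false

namespace Vale.Agent.P262B.S5aux

variable {d : ℕ} {ι : Type} [Fintype ι] [DecidableEq ι] {I : Inst d ι}

lemma mem_alive {t : Fin d → ℝ} {k : ℕ} {j : Fin d} : j ∈ alive t k ↔ (zz t k : ℝ) < t j := by
  unfold alive
  simp

lemma alive_lev {t : Fin d → ℝ} {k : ℕ} {j : Fin d} (hj : j ∈ alive t k) :
    (Lev t k : ℝ) < t j := by
  rw [mem_alive] at hj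
  have : (Lev t k : ℝ) ≤ zz t k := by exact_mod_cast Lev_le_zz t k
  linarith

lemma PPf_alive {t : Fin d → ℝ} {k : ℕ} {j : Fin d} (hj : j ∈ PP t (k + 1) false) :
    j ∈ alive t k := by
  simp only [PP, Finset.mem_filter, Finset.mem_univ, true_and] at hj
  exact mem_alive.2 hj.1

/-- variance of one coordinate in a cell -/
lemma cov_single {k : ℕ} {X : Finset ι} (hcov : CovOK I X (Lev I.t k) (alive I.t k)) {j : Fin d}
    (hj : j ∈ alive I.t k) :
    ∑ i ∈ X, (I.v i j) ^ 2 ≤ (5 / 4) * (2 : ℝ) ^ (I.t j - Lev I.t k) := by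
  have h := hcov (Lev I.t k) le_rfl (EuclideanSpace.single j 1) (by
    intro j' hj'
    have : j' = j := by
      by_contra hne
      apply hj'
      simp [hne]
    rw [this]
    exact ⟨hj, alive_lev hj⟩)
  have h1 : ∀ i, ⟪(EuclideanSpace.single j (1 : ℝ) : Vec d), I.v i⟫ = I.v i j := by
    intro i
    rw [EuclideanSpace.inner_single_left]
    simp
  have h2 : ∑ j', (2 : ℝ) ^ (I.t j' - Lev I.t k) * (EuclideanSpace.single j (1 : ℝ) : Vec d) j' ^ 2
      = (2 : ℝ) ^ (I.t j - Lev I.t k) := by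
    rw [Finset.sum_eq_single j]
    · simp
    · intro j' _ hne
      simp [hne]
    · intro h
      exact absurd (Finset.mem_univ j) h
  rw [h2] at h
  simp only [h1, sub_self, neg_zero, zero_div, Real.rpow_zero, mul_one] at h
  have := (abs_le.1 h).2
  linarith

lemma sum_proj_sq (X : Finset ι) (J : Finset (Fin d)) (v : ι → Vec d) :
    ∑ i ∈ X, ‖proj J (v i)‖ ^ 2 = ∑ j ∈ J, ∑ i ∈ X, (v i j) ^ 2 := by
  rw [Finset.sum_comm]
  exact Finset.sum_congr rfl fun i _ => norm_proj_sq J (v i)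

lemma not_mem_grps {k : ℕ} {τ : Fin 3} : ((k + 1, τ) : Grp) ∉ grps k := by
  unfold grps
  simp

lemma mem_grps {k : ℕ} {g : Grp} : g ∈ grps k ↔ g.1 ≤ k := by
  unfold grps
  rw [Finset.mem_product]
  simp

lemma long_of_LB {t : Fin d → ℝ} {k : ℕ} (h : LB t (k + 1)) : long t k := by
  rcases h with h | h
  · omega
  · simpa using h

lemma wb_of_long {t : Fin d → ℝ} {k : ℕ} (h : long t k) : wb t k = ww t k := by
  unfold wb
  rw [if_pos h]

lemma one_le_wb {t : Fin d → ℝ} {k : ℕ} (h : LB t (k + 1)) : (1 : ℝ) ≤ wb t k := by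
  rw [wb_of_long (long_of_LB h)]
  exact_mod_cast ww_pos t k

lemma MM_eq (t : Fin d → ℝ) (k : ℕ) : (MM t k : ℝ) = (2 : ℝ) ^ (ww t k : ℝ) := by
  unfold MM
  rw [Real.rpow_natCast]
  push_cast
  rfl

lemma lev_diff (t : Fin d → ℝ) (k : ℕ) : (Lev t (k + 1) : ℝ) = Lev t k + ww t k := by
  exact_mod_cast Lev_succ t k

/-- new base group -/
lemma group_new0 {k : ℕ} {X : Finset ι} {Ea Eb : Vec d} {S : Grp → Finset ι}
    {c : ι → ℕ} {yb yc : ℕ → Vec d} (h : StageOut I k X Ea Eb S c yb yc)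
    (hcov : CovOK I X (Lev I.t k) (alive I.t k)) (hSe : S (k + 1, 0) = ∅) (hL : LB I.t (k + 1))
    {m : ℕ} (hm1 : 1 ≤ m) (hm : m < MM I.t k) :
    ‖gt I k X S c m (k + 1, 0)‖ ^ 2 ≤ 10 ^ 50 * ((NN I.t (k + 1) : ℝ) + wb I.t k) := by
  have h1 := gt_sq_le I k X S c m (yb m) (k + 1, 0)
  rw [hSe, Finset.sdiff_empty, (GS_new I.t k).1] at h1
  have h2 := h.noiseN m hm1 hm
  have h2' := (norm_proj_sq_mono (Finset.subset_union_left (s₁ := PP I.t (k + 1) false)
    (s₂ := PP I.t (k + 1) true)) (cmb I X (uu I k c (yb m) m))).trans h2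
  unfold cmb at h2'
  rw [proj_sum] at h2'
  have h3 := leak_le h hm1 hm (Finset.Subset.refl X) (PP I.t (k + 1) false)
  have hy0 := YY_nonneg I.t k
  have hy1 := YY_small I.t k
  have hM := MM_pos I.t k
  have hw1 := one_le_wb hL
  have h4 : ∑ i ∈ X, ‖proj (PP I.t (k + 1) false) (I.v i)‖ ^ 2
      ≤ (5 / 4) * (MM I.t k * ((PP I.t (k + 1) false).card : ℝ)) := by
    rw [sum_proj_sq]
    calc ∑ j ∈ PP I.t (k + 1) false, ∑ i ∈ X, (I.v i j) ^ 2
        ≤ ∑ j ∈ PP I.t (k + 1) false, (5 / 4) * (2 : ℝ) ^ (I.t j - Lev I.t k) :=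
          Finset.sum_le_sum fun j hj => cov_single hcov (PPf_alive hj)
      _ = (5 / 4) * (MM I.t k * ∑ j ∈ PP I.t (k + 1) false,
            (2 : ℝ) ^ (I.t j - Lev I.t (k + 1))) := by
          rw [Finset.mul_sum, Finset.mul_sum]
          refine Finset.sum_congr rfl fun j _ => ?_
          rw [MM_eq, ← Real.rpow_add (by norm_num), lev_diff]
          congr 2
          ring
      _ ≤ _ := by
          have := trace_base I.t (k + 1) (by omega)
          gcongr
  have h5 : ‖∑ i ∈ X, ⟪yb m, I.v i⟫ • proj (PP I.t (k + 1) false) (I.v i)‖ ^ 2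
      ≤ ((PP I.t (k + 1) false).card : ℝ) := by
    refine h3.trans ?_
    calc 2 * (YY I.t k / MM I.t k) * ∑ i ∈ X, ‖proj (PP I.t (k + 1) false) (I.v i)‖ ^ 2
        ≤ 2 * (YY I.t k / MM I.t k)
          * ((5 / 4) * (MM I.t k * ((PP I.t (k + 1) false).card : ℝ))) := by
          have := yr_nonneg I.t k
          gcongr
      _ = (5 / 2) * YY I.t k * ((PP I.t (k + 1) false).card : ℝ) := by
          field_simp
          ring
      _ ≤ 1 * ((PP I.t (k + 1) false).card : ℝ) := by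
          have : (5 / 2) * YY I.t k ≤ 1 := by linarith
          gcongr
      _ = _ := one_mul _
  have hN : ((PP I.t (k + 1) false).card : ℝ) + ((PP I.t (k + 1) true).card : ℝ)
      ≤ NN I.t (k + 1) := by
    unfold NN
    push_cast
    have : (0 : ℝ) ≤ 4096 * (wc I.t (k + 1) : ℝ) := by positivity
    linarith
  have hc0 : (0 : ℝ) ≤ ((PP I.t (k + 1) false).card : ℝ) := Nat.cast_nonneg _
  have hc1 : (0 : ℝ) ≤ ((PP I.t (k + 1) true).card : ℝ) := Nat.cast_nonneg _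
  unfold Gc at h2'
  nlinarith

/-- the bilinear estimate for the leak into the new zone -/
lemma leak_zone {k : ℕ} {X : Finset ι} {Ea Eb : Vec d} {S : Grp → Finset ι}
    {c : ι → ℕ} {yb yc : ℕ → Vec d} (h : StageOut I k X Ea Eb S c yb yc)
    (hcov : CovOK I X (Lev I.t k) (alive I.t k)) (hL : LB I.t (k + 1))
    (hne : (PP I.t (k + 1) true).Nonempty)
    {m : ℕ} (hm1 : 1 ≤ m) (hm : m < MM I.t k) :
    ‖∑ i ∈ X, ⟪yb m, I.v i⟫ • proj (PP I.t (k + 1) true) (I.v i)‖ ^ 2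
      ≤ 2 ^ 38 * (wb I.t k : ℝ) := by
  set J := PP I.t (k + 1) true with hJ
  set y := yb m with hy
  set T' : ℕ := Lev I.t (k + 1) with hT'
  set w : ℝ := (wb I.t k : ℝ) with hw
  have hww : (ww I.t k : ℝ) = w := by
    rw [hw, wb_of_long (long_of_LB hL)]
  have hlev : (T' : ℝ) = Lev I.t k + w := by
    rw [hT', lev_diff, hww]
  have hw1 : 1 ≤ w := one_le_wb hL
  -- the set of coordinates
  have hJmem : ∀ j ∈ J, j ∈ alive I.t k ∧ (T' : ℝ) < I.t j ∧ j ∉ alive I.t (k + 1)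
      ∧ I.t j ≤ T' + rho I.t k ∧ (2 : ℝ) ^ ((rho I.t k : ℝ)) ≤ 2 ^ 42 * w ^ 2 := by
    intro j hj
    have hz := zone_le I.t hj
    have hj' := hj
    rw [hJ] at hj'
    simp only [PP, Finset.mem_filter, Finset.mem_univ, true_and] at hj'
    refine ⟨mem_alive.2 hj'.1, hj'.2.1, ?_, ?_, ?_⟩
    · rw [mem_alive]
      linarith [hj'.2.2]
    · exact hz.2.1
    · have := hz.2.2
      have hwc : wc I.t (k + 1) = wb I.t k := by
        unfold wc
        rw [if_neg (by omega)]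
        rfl
      rw [hwc] at this
      exact this
  have hAmem : ∀ j ∈ alive I.t (k + 1), j ∈ alive I.t k ∧ (T' : ℝ) < I.t j :=
    fun j hj => ⟨alive_succ_subset I.t k hj, alive_lev hj⟩
  set z : Vec d := ∑ i ∈ X, ⟪y, I.v i⟫ • I.v i with hz
  set L : Vec d := ∑ i ∈ X, ⟪y, I.v i⟫ • proj J (I.v i) with hLdef
  have hLz : L = proj J z := by
    rw [hLdef, hz, proj_sum]
  have hL0 : ∀ j ∉ J, L j = 0 := by
    intro j hj
    rw [hLz, proj_apply, if_neg hj]
  have hy0 : ∀ j ∉ alive I.t (k + 1), y j = 0 := fun j hj => h.suppb m j hj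
  -- inner product identity
  have hLL : ‖L‖ ^ 2 = ∑ i ∈ X, ⟪L, I.v i⟫ * ⟪y, I.v i⟫ := by
    have h1 : ⟪L, z⟫ = ∑ i ∈ X, ⟪L, I.v i⟫ * ⟪y, I.v i⟫ := by
      rw [hz, inner_sum]
      refine Finset.sum_congr rfl fun i _ => ?_
      rw [real_inner_smul_right]
      ring
    rw [← h1, ← real_inner_self_eq_norm_sq, PiLp.inner_apply, PiLp.inner_apply]
    refine Finset.sum_congr rfl fun j _ => ?_
    by_cases hj : j ∈ J
    · rw [hLz, proj_apply, if_pos hj]
    · rw [hL0 j hj]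
      simp
  -- the quadratic form
  let D : Vec d → ℝ := fun x => ∑ j, (2 : ℝ) ^ (I.t j - Lev I.t k) * x j ^ 2
  set ε : ℝ := (1 / 4) * (2 : ℝ) ^ (-w / 2) with hε
  have hεpos : 0 < ε := by
    have := two_rpow_pos (-w / 2)
    positivity
  have hε4 : ε ≤ 1 / 4 := by
    have : (2 : ℝ) ^ (-w / 2) ≤ 1 := two_rpow_le_one (by linarith)
    rw [hε]
    linarith
  have hquad : ∀ x : Vec d, (∀ j, x j ≠ 0 → j ∈ alive I.t k ∧ (T' : ℝ) < I.t j) →
      |∑ i ∈ X, ⟪x, I.v i⟫ ^ 2 - D x| ≤ ε * D x := by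
    intro x hx
    have h1 := hcov (T' : ℝ) (by rw [hlev]; linarith) x hx
    have h2 : -((T' : ℝ) - (Lev I.t k : ℝ)) / 2 = -w / 2 := by
      rw [hlev]
      ring
    rw [h2] at h1
    exact h1
  have hDnonneg : ∀ x, 0 ≤ D x := fun x =>
    Finset.sum_nonneg fun j _ => mul_nonneg (two_rpow_pos _).le (sq_nonneg _)
  obtain ⟨j₀, hj₀⟩ := hne
  have hρ := (hJmem j₀ hj₀).2.2.2.2
  set Dm : ℝ := (2 : ℝ) ^ w * (2 ^ 42 * w ^ 2) with hDm
  have hDmpos : 0 < Dm := by
    have := two_rpow_pos w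
    positivity
  have hDL : D L ≤ Dm * ‖L‖ ^ 2 := by
    rw [EuclideanSpace.norm_sq_eq, Finset.mul_sum]
    refine Finset.sum_le_sum fun j _ => ?_
    rw [Real.norm_eq_abs, sq_abs]
    by_cases hj : j ∈ J
    · apply mul_le_mul_of_nonneg_right _ (sq_nonneg _)
      have h1 := (hJmem j hj).2.2.2.1
      calc (2 : ℝ) ^ (I.t j - Lev I.t k) ≤ (2 : ℝ) ^ (w + rho I.t k) := by
            apply two_rpow_mono
            rw [hlev] at h1
            linarith
        _ = (2 : ℝ) ^ w * (2 : ℝ) ^ ((rho I.t k : ℝ)) := Real.rpow_add (by norm_num) _ _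
        _ ≤ Dm := by
            rw [hDm]
            have := two_rpow_pos w
            gcongr
    · rw [hL0 j hj]
      simp
  -- polarisation
  have hpol : ∀ lam : ℝ, 0 < lam → 4 * lam * ‖L‖ ^ 2 ≤ ε * (2 * lam ^ 2 * D L + 2 * D y) := by
    intro lam hlam
    have hs1 : ∀ j, (lam • L + y) j ≠ 0 → j ∈ alive I.t k ∧ (T' : ℝ) < I.t j := by
      intro j hj
      by_cases h1 : j ∈ J
      · exact ⟨(hJmem j h1).1, (hJmem j h1).2.1⟩
      · by_cases h2 : j ∈ alive I.t (k + 1)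
        · exact hAmem j h2
        · exfalso
          apply hj
          simp [hL0 j h1, hy0 j h2]
    have hs2 : ∀ j, (lam • L - y) j ≠ 0 → j ∈ alive I.t k ∧ (T' : ℝ) < I.t j := by
      intro j hj
      by_cases h1 : j ∈ J
      · exact ⟨(hJmem j h1).1, (hJmem j h1).2.1⟩
      · by_cases h2 : j ∈ alive I.t (k + 1)
        · exact hAmem j h2
        · exfalso
          apply hj
          simp [hL0 j h1, hy0 j h2]
    have q1 := (abs_le.1 (hquad _ hs1)).2
    have q2 := (abs_le.1 (hquad _ hs2)).1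
    have hcross : ∀ j, L j * y j = 0 := by
      intro j
      by_cases h1 : j ∈ J
      · rw [hy0 j (hJmem j h1).2.2.1, mul_zero]
      · rw [hL0 j h1, zero_mul]
    have e1 : D (lam • L + y) = lam ^ 2 * D L + D y := by
      simp only [D]
      rw [Finset.mul_sum, ← Finset.sum_add_distrib]
      refine Finset.sum_congr rfl fun j _ => ?_
      have : (lam • L + y) j ^ 2 = lam ^ 2 * L j ^ 2 + 2 * lam * (L j * y j) + y j ^ 2 := by
        simp only [PiLp.add_apply, PiLp.smul_apply, smul_eq_mul]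
        ring
      rw [this, hcross]
      ring
    have e2 : D (lam • L - y) = lam ^ 2 * D L + D y := by
      simp only [D]
      rw [Finset.mul_sum, ← Finset.sum_add_distrib]
      refine Finset.sum_congr rfl fun j _ => ?_
      have : (lam • L - y) j ^ 2 = lam ^ 2 * L j ^ 2 - 2 * lam * (L j * y j) + y j ^ 2 := by
        simp only [PiLp.sub_apply, PiLp.smul_apply, smul_eq_mul]
        ring
      rw [this, hcross]
      ring
    have e3 : ∑ i ∈ X, ⟪lam • L + y, I.v i⟫ ^ 2 - ∑ i ∈ X, ⟪lam • L - y, I.v i⟫ ^ 2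
        = 4 * lam * ‖L‖ ^ 2 := by
      rw [hLL, ← Finset.sum_sub_distrib, Finset.mul_sum]
      refine Finset.sum_congr rfl fun i _ => ?_
      rw [inner_add_left, inner_sub_left, real_inner_smul_left]
      ring
    rw [e1] at q1
    rw [e2] at q2
    linarith
  -- choice of the parameter
  have hfin : ‖L‖ ^ 2 ≤ ε ^ 2 * Dm * D y := by
    have h1 := hpol (1 / (ε * Dm)) (by positivity)
    have h2 : ε * (2 * (1 / (ε * Dm)) ^ 2 * D L + 2 * D y)
        ≤ ε * (2 * (1 / (ε * Dm)) ^ 2 * (Dm * ‖L‖ ^ 2) + 2 * D y) := by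
      gcongr
    have h3 := h1.trans h2
    have h4 : ε * (2 * (1 / (ε * Dm)) ^ 2 * (Dm * ‖L‖ ^ 2) + 2 * D y)
        = 2 * (1 / (ε * Dm)) * ‖L‖ ^ 2 + 2 * ε * D y := by
      field_simp
    rw [h4] at h3
    have h5 : (1 / (ε * Dm)) * ‖L‖ ^ 2 ≤ ε * D y := by linarith
    have h6 : ‖L‖ ^ 2 = (ε * Dm) * ((1 / (ε * Dm)) * ‖L‖ ^ 2) := by
      field_simp
    rw [h6]
    calc (ε * Dm) * ((1 / (ε * Dm)) * ‖L‖ ^ 2) ≤ (ε * Dm) * (ε * D y) := by gcongr
      _ = _ := by ring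
  have hDy : D y ≤ (8 / 3) * (YY I.t k / MM I.t k) := by
    have h1 := (abs_le.1 (hquad y (by
      intro j hj
      by_cases h2 : j ∈ alive I.t (k + 1)
      · exact hAmem j h2
      · exact absurd (hy0 j h2) hj))).1
    have h2 := h.enb m hm1 hm
    have h3 : 2 * YY I.t k / MM I.t k = 2 * (YY I.t k / MM I.t k) := by ring
    rw [h3] at h2
    have h4 := hDnonneg y
    have h5 : ε * D y ≤ 1 / 4 * D y := by gcongr
    linarith
  have hεDm : ε ^ 2 * Dm = 2 ^ 38 * w ^ 2 := by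
    have h1 : ((2 : ℝ) ^ (-w / 2)) ^ 2 * (2 : ℝ) ^ w = 1 := by
      rw [← Real.rpow_natCast, ← Real.rpow_mul (by norm_num), ← Real.rpow_add (by norm_num)]
      have : -w / 2 * ((2 : ℕ) : ℝ) + w = 0 := by
        push_cast
        ring
      rw [this, Real.rpow_zero]
    rw [hε, hDm]
    calc (1 / 4 * (2 : ℝ) ^ (-w / 2)) ^ 2 * ((2 : ℝ) ^ w * (2 ^ 42 * w ^ 2))
        = (((2 : ℝ) ^ (-w / 2)) ^ 2 * (2 : ℝ) ^ w) * (1 / 16 * 2 ^ 42 * w ^ 2) := by ring
      _ = _ := by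
        rw [h1]
        ring
  rw [hεDm] at hfin
  have hM : w ≤ MM I.t k := by
    have : ww I.t k < 2 ^ ww I.t k := Nat.lt_two_pow_self
    rw [← hww]
    unfold MM
    exact_mod_cast this.le
  have hMpos := MM_pos I.t k
  have hYY := YY_small I.t k
  have hYY0 := YY_nonneg I.t k
  calc ‖L‖ ^ 2 ≤ 2 ^ 38 * w ^ 2 * D y := hfin
    _ ≤ 2 ^ 38 * w ^ 2 * ((8 / 3) * (YY I.t k / MM I.t k)) := by gcongr
    _ = 2 ^ 38 * w * ((w / MM I.t k) * ((8 / 3) * YY I.t k)) := by ring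
    _ ≤ 2 ^ 38 * w * (1 * 1) := by
        have h1 : w / MM I.t k ≤ 1 := by
          rw [div_le_one hMpos]
          exact hM
        have h2 : (8 / 3) * YY I.t k ≤ 1 := by linarith
        have h3 : 0 ≤ (8 / 3) * YY I.t k := by linarith
        gcongr
    _ = _ := by ring

/-- new zone group -/
lemma group_new1 {k : ℕ} {X : Finset ι} {Ea Eb : Vec d} {S : Grp → Finset ι}
    {c : ι → ℕ} {yb yc : ℕ → Vec d} (h : StageOut I k X Ea Eb S c yb yc)
    (hcov : CovOK I X (Lev I.t k) (alive I.t k)) (hSe : S (k + 1, 1) = ∅) (hL : LB I.t (k + 1))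
    {m : ℕ} (hm1 : 1 ≤ m) (hm : m < MM I.t k) :
    ‖gt I k X S c m (k + 1, 1)‖ ^ 2 ≤ 10 ^ 50 * ((NN I.t (k + 1) : ℝ) + wb I.t k) := by
  rcases Finset.eq_empty_or_nonempty (PP I.t (k + 1) true) with he | hne
  · rw [gt_empty I (by rw [(GS_new I.t k).2.1, he])]
    simp only [norm_zero, ne_eq, OfNat.ofNat_ne_zero, not_false_eq_true, zero_pow]
    positivity
  have h1 := gt_sq_le I k X S c m (yb m) (k + 1, 1)
  rw [hSe, Finset.sdiff_empty, (GS_new I.t k).2.1] at h1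
  have h2 := h.noiseN m hm1 hm
  have h2' := (norm_proj_sq_mono (Finset.subset_union_right (s₁ := PP I.t (k + 1) false)
    (s₂ := PP I.t (k + 1) true)) (cmb I X (uu I k c (yb m) m))).trans h2
  unfold cmb at h2'
  rw [proj_sum] at h2'
  have h3 := leak_zone h hcov hL hne hm1 hm
  have hw1 := one_le_wb hL
  have hN : ((PP I.t (k + 1) false).card : ℝ) + ((PP I.t (k + 1) true).card : ℝ)
      ≤ NN I.t (k + 1) := by
    unfold NN
    push_cast
    have : (0 : ℝ) ≤ 4096 * (wc I.t (k + 1) : ℝ) := by positivity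
    linarith
  have hc0 : (0 : ℝ) ≤ ((PP I.t (k + 1) false).card : ℝ) := Nat.cast_nonneg _
  have hc1 : (0 : ℝ) ≤ ((PP I.t (k + 1) true).card : ℝ) := Nat.cast_nonneg _
  unfold Gc at h2'
  nlinarith

end Vale.Agent.P262B.S5aux
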