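import Vale.Agent.P262B.N2

open scoped BigOperators RealInnerProductSpace
open Finset

namespace Vale.Agent.P262B

variable {d : ℕ} (t : Fin d → ℝ)

theorem s6_gc_pos : (0 : ℝ) < Gc := by unfold Gc; norm_num

theorem s6_cost_nonneg (k : ℕ) : 0 ≤ cost t k := by
  classical
  unfold cost
  apply mul_nonneg (by unfold Cc; norm_num)
  refine add_nonneg (add_nonneg (Finset.sum_nonneg ?_) (by positivity)) (by positivity)
  intro b _
  positivity

theorem s6_bb_succ (k : ℕ) : bb t (k + 1) = bb t k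
    + (RRR * ((PP t (k + 1) false).card + (PP t (k + 1) true).card)
    + cost t k + 32 * Gc * wb t k) := by
  unfold bb
  rw [Finset.sum_range_succ]

/-- coordinates of `alive k` below a level above `zz (k+1)` -/
theorem s6_alive_split (k : ℕ) (l : ℝ) (hl : (zz t (k + 1) : ℝ) ≤ l) :
    (alive t k).filter (fun j => t j ≤ l) =
      (PP t (k + 1) false ∪ PP t (k + 1) true) ∪ (alive t (k + 1)).filter (fun j => t j ≤ l) := by
  rw [← alive_sdiff t k]
  ext j
  simp only [Finset.mem_filter, Finset.mem_union, Finset.mem_sdiff]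
  constructor
  · rintro ⟨h1, h2⟩
    by_cases h3 : j ∈ alive t (k + 1)
    · exact Or.inr ⟨h3, h2⟩
    · exact Or.inl ⟨h1, h3⟩
  · rintro (⟨h1, h2⟩ | ⟨h1, h2⟩)
    · refine ⟨h1, ?_⟩
      have : ¬ ((zz t (k + 1) : ℝ) < t j) := by
        intro h; exact h2 (by simp [alive, h])
      push Not at this
      linarith
    · exact ⟨alive_succ_subset t k h1, h2⟩

theorem s6_disj (k : ℕ) (l : ℝ) :
    Disjoint (PP t (k + 1) false ∪ PP t (k + 1) true)
      ((alive t (k + 1)).filter (fun j => t j ≤ l)) := by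
  rw [← alive_sdiff t k]
  rw [Finset.disjoint_left]
  intro j h1 h2
  exact (Finset.mem_sdiff.mp h1).2 (Finset.mem_filter.mp h2).1

theorem s6_mm_split (k : ℕ) (l : ℝ) (hl : (zz t (k + 1) : ℝ) ≤ l) :
    mm t (alive t k) l = (PP t (k + 1) false).card + (PP t (k + 1) true).card
      + mm t (alive t (k + 1)) l := by
  unfold mm
  rw [s6_alive_split t k l hl, Finset.card_union_of_disjoint (s6_disj t k l),
    Finset.card_union_of_disjoint (PP_disjoint_FT t (k + 1))]

theorem s6_om_step {k : ℕ} {g : Grp} (hg : g ∈ grps k) :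
    om t (k + 1) g * (1 + eta t k g) ≤ om t k g := by
  have hg1 : g.1 ≤ k := by
    have := (Finset.mem_product.mp hg).1
    simpa [Nat.lt_succ_iff] using this
  have hage := age_succ t hg
  have hw := ww_pos t k
  unfold om eta
  rw [if_pos hg1, hage]
  set s : ℝ := (age t k g : ℝ) with hs
  set A : ℝ := (2 : ℝ) ^ (-s / 64) with hA
  have hA0 : 0 < A := by positivity
  have hA1 : A ≤ 1 := by
    apply Real.rpow_le_one_of_one_le_of_nonpos (by norm_num)
    have : 0 ≤ s := by positivity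
    linarith
  -- `2 ^ (-1/64) ≤ 0.99`
  have hc : (2 : ℝ) ^ (-(1 : ℝ) / 64) ≤ 1 - 1 / 100 := by
    have h1 : (0 : ℝ) < (2 : ℝ) ^ (-(1 : ℝ) / 64) := by positivity
    have h2 : ((2 : ℝ) ^ (-(1 : ℝ) / 64)) ^ (64 : ℕ) = 1 / 2 := by
      rw [← Real.rpow_natCast, ← Real.rpow_mul (by norm_num)]
      norm_num
    by_contra hcon
    push Not at hcon
    have h3 : (1 - 1 / 100 : ℝ) ^ (64 : ℕ) < ((2 : ℝ) ^ (-(1 : ℝ) / 64)) ^ (64 : ℕ) :=
      pow_lt_pow_left₀ hcon (by norm_num) (by norm_num)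
    rw [h2] at h3
    norm_num at h3
  have hB : (2 : ℝ) ^ (-(((age t k g + ww t k : ℕ) : ℝ)) / 64) ≤ A * (1 - 1 / 100) := by
    have h1 : (2 : ℝ) ^ (-(((age t k g + ww t k : ℕ) : ℝ)) / 64)
        ≤ (2 : ℝ) ^ (-s / 64 + -(1 : ℝ) / 64) := by
      apply Real.rpow_le_rpow_of_exponent_le (by norm_num)
      push_cast
      have : (1 : ℝ) ≤ ww t k := by exact_mod_cast hw
      rw [hs]
      linarith
    rw [Real.rpow_add (by norm_num)] at h1
    calc _ ≤ _ := h1
      _ ≤ A * (1 - 1 / 100) := by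
        apply mul_le_mul_of_nonneg_left hc hA0.le
  have hB0 : (0 : ℝ) ≤ (2 : ℝ) ^ (-(((age t k g + ww t k : ℕ) : ℝ)) / 64) := by positivity
  have key : (1 + (2 : ℝ) ^ (-(((age t k g + ww t k : ℕ) : ℝ)) / 64)) * (1 + A / 200) ≤ 1 + A := by
    calc (1 + (2 : ℝ) ^ (-(((age t k g + ww t k : ℕ) : ℝ)) / 64)) * (1 + A / 200)
        ≤ (1 + A * (1 - 1 / 100)) * (1 + A / 200) := by
          apply mul_le_mul_of_nonneg_right _ (by positivity)
          linarith
      _ ≤ 1 + A := by nlinarith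
  split_ifs
  · linarith
  · linarith

theorem s6_eta_pos (k : ℕ) (g : Grp) : 0 < eta t k g := by
  unfold eta; split_ifs <;> positivity

theorem s6_om_pos (k : ℕ) (g : Grp) : 0 < om t k g := by
  unfold om; split_ifs <;> positivity

theorem s6_om_ge {k : ℕ} {g : Grp} (h : g.2 ≠ 2) : 4 ≤ om t k g := by
  unfold om
  rw [if_neg h]
  have : (0 : ℝ) < (2 : ℝ) ^ (-(age t k g : ℝ) / 64) := by positivity
  linarith

theorem s6_om_le (k : ℕ) (g : Grp) : om t k g ≤ (if g.2 = 2 then 2 else 8) := by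
  unfold om
  have : (2 : ℝ) ^ (-(age t k g : ℝ) / 64) ≤ 1 := by
    apply Real.rpow_le_one_of_one_le_of_nonpos (by norm_num)
    have : (0 : ℝ) ≤ (age t k g : ℝ) := by positivity
    linarith
  split_ifs <;> linarith

theorem s6_grps_succ (k : ℕ) (F : Grp → ℝ) :
    ∑ g ∈ grps (k + 1), F g = ∑ g ∈ grps k, F g + (F (k + 1, 0) + F (k + 1, 1) + F (k + 1, 2)) := by
  unfold grps
  rw [Finset.sum_product, Finset.sum_product, Finset.sum_range_succ]
  congr 1
  rw [Fin.sum_univ_three]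

theorem s6_mem_grps {k : ℕ} {g : Grp} : g ∈ grps k ↔ g.1 ≤ k := by
  unfold grps
  simp [Finset.mem_product]

/-- weights of the squares of a parent on the passed coordinates -/
theorem s6_passed (k : ℕ) (x : Vec d) :
    ∑ g ∈ grps (k + 1), om t (k + 1) g * (1 + eta t k g) * ∑ j ∈ GS t (k + 1) g, x j ^ 2
      ≤ ∑ g ∈ grps k, om t k g * ∑ j ∈ GS t k g, x j ^ 2
        + 32 * ∑ j ∈ PP t (k + 1) false ∪ PP t (k + 1) true, x j ^ 2 := by
  classical
  have hnn : ∀ s : Finset (Fin d), 0 ≤ ∑ j ∈ s, x j ^ 2 :=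
    fun s => Finset.sum_nonneg (fun _ _ => sq_nonneg _)
  rw [s6_grps_succ]
  -- new groups
  obtain ⟨hn0, hn1, hn2⟩ := GS_new t k
  have hnew : om t (k + 1) (k + 1, 0) * (1 + eta t k (k + 1, 0)) * ∑ j ∈ GS t (k + 1) (k + 1, 0), x j ^ 2
      + om t (k + 1) (k + 1, 1) * (1 + eta t k (k + 1, 1)) * ∑ j ∈ GS t (k + 1) (k + 1, 1), x j ^ 2
      ≤ 32 * ∑ j ∈ PP t (k + 1) false ∪ PP t (k + 1) true, x j ^ 2 := by
    rw [Finset.sum_union (PP_disjoint_FT t (k + 1)), hn0, hn1]
    have e0 : eta t k (k + 1, 0) = 1 := by unfold eta; simp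
    have e1 : eta t k (k + 1, 1) = 1 := by unfold eta; simp
    rw [e0, e1]
    have o0 : om t (k + 1) (k + 1, 0) ≤ 8 := by
      have := s6_om_le t (k + 1) (k + 1, 0); simpa using this
    have o1 : om t (k + 1) (k + 1, 1) ≤ 8 := by
      have := s6_om_le t (k + 1) (k + 1, 1); simpa using this
    have h0 := hnn (PP t (k + 1) false)
    have h1 := hnn (PP t (k + 1) true)
    nlinarith
  -- merged group
  have hmer : om t (k + 1) (k + 1, 2) * (1 + eta t k (k + 1, 2)) * ∑ j ∈ GS t (k + 1) (k + 1, 2), x j ^ 2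
      ≤ ∑ g ∈ grps k, (if absb t g.1 k ∧ g.2 ≠ 2 then 4 * ∑ j ∈ GS t k g, x j ^ 2 else 0) := by
    have e2 : eta t k (k + 1, 2) = 1 := by unfold eta; simp
    have o2 : om t (k + 1) (k + 1, 2) ≤ 2 := by
      have := s6_om_le t (k + 1) (k + 1, 2); simpa using this
    rw [e2, hn2]
    have hsub : Jabs t k false ∪ Jabs t k true ⊆
        ((grps k).filter (fun g => absb t g.1 k ∧ g.2 ≠ 2)).biUnion (fun g => GS t k g) := by
      intro j hj
      rcases Finset.mem_union.mp hj with hj | hj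
      · obtain ⟨b, hb, hjb⟩ := Finset.mem_biUnion.mp hj
        have hb2 := (Finset.mem_filter.mp hb).2
        refine Finset.mem_biUnion.mpr ⟨(b, 0), Finset.mem_filter.mpr ⟨s6_mem_grps.mpr hb2.1, hb2, by simp⟩, ?_⟩
        rw [(GS_abs t hb2).1]; exact hjb
      · obtain ⟨b, hb, hjb⟩ := Finset.mem_biUnion.mp hj
        have hb2 := (Finset.mem_filter.mp hb).2
        refine Finset.mem_biUnion.mpr ⟨(b, 1), Finset.mem_filter.mpr ⟨s6_mem_grps.mpr hb2.1, hb2, by simp⟩, ?_⟩
        rw [(GS_abs t hb2).2]; exact hjb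
    have h1 : ∑ j ∈ Jabs t k false ∪ Jabs t k true, x j ^ 2
        ≤ ∑ g ∈ (grps k).filter (fun g => absb t g.1 k ∧ g.2 ≠ 2), ∑ j ∈ GS t k g, x j ^ 2 := by
      refine (Finset.sum_le_sum_of_subset_of_nonneg hsub (fun _ _ _ => sq_nonneg _)).trans ?_
      rw [Finset.sum_biUnion]
      intro g hg g' hg' hne
      exact GS_disjoint t hne (Finset.mem_filter.mp hg).1 (Finset.mem_filter.mp hg').1
    rw [← Finset.sum_filter, ← Finset.mul_sum]
    have h2 := hnn (Jabs t k false ∪ Jabs t k true)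
    nlinarith
  -- old groups
  have hold : ∑ g ∈ grps k, om t (k + 1) g * (1 + eta t k g) * ∑ j ∈ GS t (k + 1) g, x j ^ 2
      + ∑ g ∈ grps k, (if absb t g.1 k ∧ g.2 ≠ 2 then 4 * ∑ j ∈ GS t k g, x j ^ 2 else 0)
      ≤ ∑ g ∈ grps k, om t k g * ∑ j ∈ GS t k g, x j ^ 2 := by
    rw [← Finset.sum_add_distrib]
    apply Finset.sum_le_sum
    rintro ⟨b, τ⟩ hg
    have hb : b ≤ k := s6_mem_grps.mp hg
    have h0 := hnn (GS t k (b, τ))
    by_cases ha : absb t b k
    · by_cases hτ : τ = 2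
      · subst hτ
        rw [if_neg (by simp), add_zero, GS_succ_merged t hb]
        exact mul_le_mul_of_nonneg_right (s6_om_step t hg) h0
      · rw [if_pos ⟨ha, hτ⟩, GS_succ_abs t ha hτ]
        simp only [Finset.sum_empty, mul_zero, zero_add]
        exact mul_le_mul_of_nonneg_right (s6_om_ge t (g := (b, τ)) hτ) h0
    · rw [if_neg (by tauto), add_zero, GS_succ_base t hb ha τ]
      exact mul_le_mul_of_nonneg_right (s6_om_step t hg) h0
  linarith

/-- **S6a.** an old boundary keeps the potential inequality -/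
theorem pot_old (k : ℕ) (x : Vec d) (h : Pot t k x) : Pot t (k + 1) x := by
  intro l
  have hpass := s6_passed t k x
  have hnn : ∀ s : Finset (Fin d), 0 ≤ ∑ j ∈ s, x j ^ 2 :=
    fun s => Finset.sum_nonneg (fun _ _ => sq_nonneg _)
  have h1 : ∑ g ∈ grps (k + 1), om t (k + 1) g * ∑ j ∈ GS t (k + 1) g, x j ^ 2
      ≤ ∑ g ∈ grps (k + 1), om t (k + 1) g * (1 + eta t k g) * ∑ j ∈ GS t (k + 1) g, x j ^ 2 := by
    apply Finset.sum_le_sum
    intro g _
    apply mul_le_mul_of_nonneg_right _ (hnn _)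
    have := s6_eta_pos t k g
    have := s6_om_pos t (k + 1) g
    nlinarith
  set l' : ℝ := max l (zz t (k + 1) : ℝ) with hl'
  have hP := h l'
  have hsplit : ∑ j ∈ alive t k with t j ≤ l', x j ^ 2
      = ∑ j ∈ PP t (k + 1) false ∪ PP t (k + 1) true, x j ^ 2
        + ∑ j ∈ alive t (k + 1) with t j ≤ l', x j ^ 2 := by
    rw [s6_alive_split t k l' (le_max_right _ _), Finset.sum_union (s6_disj t k l')]
  have hfil : (alive t (k + 1)).filter (fun j => t j ≤ l') = (alive t (k + 1)).filter (fun j => t j ≤ l) := by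
    ext j
    simp only [Finset.mem_filter]
    constructor
    · rintro ⟨h1, h2⟩
      refine ⟨h1, ?_⟩
      have h3 : (zz t (k + 1) : ℝ) < t j := by simpa [alive] using h1
      rcases le_max_iff.mp h2 with h4 | h4
      · exact h4
      · linarith
    · rintro ⟨h1, h2⟩
      exact ⟨h1, h2.trans (le_max_left _ _)⟩
  have hmm : mm t (alive t k) l' = (PP t (k + 1) false).card + (PP t (k + 1) true).card
      + mm t (alive t (k + 1)) l := by
    rw [s6_mm_split t k l' (le_max_right _ _)]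
    unfold mm
    rw [hfil]
  rw [hsplit, hfil, hmm] at hP
  have hc := s6_cost_nonneg t k
  have hg := s6_gc_pos
  have hwb : (0 : ℝ) ≤ 32 * Gc * wb t k := by positivity
  rw [s6_bb_succ]
  push_cast at hP ⊢
  nlinarith

/-- soft thresholding bound -/
theorem s6_soft {x g τ : ℝ} (hτ : 0 ≤ τ) (hg : g ^ 2 ≤ τ ^ 2 / 4) :
    (|x| ≤ τ → (x - max (-τ) (min τ x) + g) ^ 2 = g ^ 2) ∧
    (τ < |x| → (x - max (-τ) (min τ x) + g) ^ 2 ≤ x ^ 2 - 3 / 4 * τ ^ 2) := by
  have hg' : |g| ≤ τ / 2 := by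
    apply abs_le_of_sq_le_sq' _ (by linarith) |> abs_le.mpr
    linarith [show (τ / 2) ^ 2 = τ ^ 2 / 4 by ring]
  obtain ⟨hg1, hg2⟩ := abs_le.mp hg'
  constructor
  · intro hx
    obtain ⟨h1, h2⟩ := abs_le.mp hx
    rw [min_eq_right h2, max_eq_right h1]
    ring
  · intro hx
    rcases lt_abs.mp hx with h | h
    · rw [min_eq_left h.le, max_eq_right (by linarith)]
      nlinarith
    · rw [min_eq_right (by linarith), max_eq_left (by linarith)]
      nlinarith

/-- alive part of one parent together with the use of the old potential inequality -/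
theorem s6_parent (k : ℕ) (x g : Vec d) (h : Pot t k x) (l : ℝ)
    (hnoise : ∀ l : ℝ, ∑ j ∈ alive t (k + 1) with t j ≤ l, g j ^ 2
      ≤ Gc * (mm t (alive t (k + 1)) l + wb t k)) :
    ∑ γ ∈ grps k, om t k γ * ∑ j ∈ GS t k γ, x j ^ 2
      + 32 * ∑ j ∈ PP t (k + 1) false ∪ PP t (k + 1) true, x j ^ 2
      + 32 * ∑ j ∈ alive t (k + 1) with t j ≤ l, (x j - clipv t k x j + g j) ^ 2
      ≤ bb t k + RRR * ((PP t (k + 1) false).card + (PP t (k + 1) true).card)
        + 32 * Gc * wb t k + RRR * mm t (alive t (k + 1)) l := by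
  classical
  set AL := alive t (k + 1) with hAL
  set τ : Fin d → ℝ := fun j => Real.sqrt (tauSq t AL (wb t k) j) with hτ
  have hτ0 : ∀ j, 0 ≤ τ j := fun j => Real.sqrt_nonneg _
  have hτsq : ∀ j, τ j ^ 2 = 4 * Gc * (mm t AL (t j) + wb t k) := by
    intro j
    simp only [hτ]
    rw [Real.sq_sqrt]
    · rfl
    · unfold tauSq
      have := s6_gc_pos
      positivity
  have hgj : ∀ j ∈ AL, g j ^ 2 ≤ τ j ^ 2 / 4 := by
    intro j hj
    have h1 := hnoise (t j)
    have h2 : g j ^ 2 ≤ ∑ j' ∈ AL with t j' ≤ t j, g j' ^ 2 :=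
      Finset.single_le_sum (f := fun j' => g j' ^ 2) (fun _ _ => sq_nonneg _)
        (Finset.mem_filter.mpr ⟨hj, le_rfl⟩)
    rw [hτsq]
    linarith
  have hsoft : ∀ j ∈ AL, (|x j| ≤ τ j → (x j - clipv t k x j + g j) ^ 2 = g j ^ 2) ∧
      (τ j < |x j| → (x j - clipv t k x j + g j) ^ 2 ≤ x j ^ 2 - 3 / 4 * τ j ^ 2) := by
    intro j hj
    exact s6_soft (hτ0 j) (hgj j hj)
  set AB := AL.filter (fun j => t j ≤ l ∧ τ j < |x j|) with hAB
  have hgc := s6_gc_pos
  have hRRR : RRR = 32 * Gc := rfl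
  have hnl := hnoise l
  rcases Finset.eq_empty_or_nonempty AB with hE | hne
  · -- no abnormal coordinate
    have h1 : ∑ j ∈ AL with t j ≤ l, (x j - clipv t k x j + g j) ^ 2
        = ∑ j ∈ AL with t j ≤ l, g j ^ 2 := by
      apply Finset.sum_congr rfl
      intro j hj
      obtain ⟨hj1, hj2⟩ := Finset.mem_filter.mp hj
      apply (hsoft j hj1).1
      by_contra hcon
      push Not at hcon
      have : j ∈ AB := Finset.mem_filter.mpr ⟨hj1, hj2, hcon⟩
      rw [hE] at this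
      simp at this
    have hP := h (zz t (k + 1) : ℝ)
    have hfe : AL.filter (fun j => t j ≤ (zz t (k + 1) : ℝ)) = ∅ := by
      apply Finset.filter_eq_empty_iff.mpr
      intro j hj
      have h3 : (zz t (k + 1) : ℝ) < t j := by simpa [hAL, alive] using hj
      linarith
    have hsplit : ∑ j ∈ alive t k with t j ≤ (zz t (k + 1) : ℝ), x j ^ 2
        = ∑ j ∈ PP t (k + 1) false ∪ PP t (k + 1) true, x j ^ 2 := by
      rw [s6_alive_split t k _ le_rfl, Finset.sum_union (s6_disj t k _)]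
      rw [show (alive t (k + 1)).filter (fun j => t j ≤ (zz t (k + 1) : ℝ)) = ∅ from hfe]
      simp
    have hmm : mm t (alive t k) (zz t (k + 1) : ℝ)
        = (PP t (k + 1) false).card + (PP t (k + 1) true).card := by
      rw [s6_mm_split t k _ le_rfl]
      have : mm t (alive t (k + 1)) (zz t (k + 1) : ℝ) = 0 := by
        unfold mm
        rw [show (alive t (k + 1)).filter (fun j => t j ≤ (zz t (k + 1) : ℝ)) = ∅ from hfe]
        simp
      omega
    rw [hsplit, hmm] at hP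
    rw [h1]
    push_cast at hP
    rw [hRRR] at hP ⊢
    nlinarith
  · -- largest abnormal coordinate
    obtain ⟨js, hjs, hmax⟩ := Finset.exists_max_image AB t hne
    obtain ⟨hjsA, hjsl, hjsx⟩ := Finset.mem_filter.mp hjs
    have hzz : (zz t (k + 1) : ℝ) ≤ t js := by
      have h3 : (zz t (k + 1) : ℝ) < t js := by simpa [hAL, alive] using hjsA
      exact h3.le
    have hP := h (t js)
    have hsplit : ∑ j ∈ alive t k with t j ≤ t js, x j ^ 2
        = ∑ j ∈ PP t (k + 1) false ∪ PP t (k + 1) true, x j ^ 2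
          + ∑ j ∈ AL with t j ≤ t js, x j ^ 2 := by
      rw [s6_alive_split t k _ hzz, Finset.sum_union (s6_disj t k _)]
    rw [hsplit, s6_mm_split t k _ hzz] at hP
    have hsubAB : AB ⊆ AL.filter (fun j => t j ≤ t js) := by
      intro j hj
      exact Finset.mem_filter.mpr ⟨(Finset.mem_filter.mp hj).1, hmax j hj⟩
    have h1 : ∑ j ∈ AL with t j ≤ l, (x j - clipv t k x j + g j) ^ 2
        ≤ ∑ j ∈ AB, (x j ^ 2 - 3 / 4 * τ j ^ 2) + ∑ j ∈ AL with t j ≤ l, g j ^ 2 := by
      have hABf : AB = (AL.filter (fun j => t j ≤ l)).filter (fun j => τ j < |x j|) := by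
        rw [hAB, Finset.filter_filter]
      rw [hABf, Finset.sum_filter (s := AL.filter (fun j => t j ≤ l)), ← Finset.sum_add_distrib]
      apply Finset.sum_le_sum
      intro j hj
      obtain ⟨hj1, hj2⟩ := Finset.mem_filter.mp hj
      by_cases hx : τ j < |x j|
      · rw [if_pos hx]
        have := (hsoft j hj1).2 hx
        have := sq_nonneg (g j)
        linarith
      · rw [if_neg hx, (hsoft j hj1).1 (not_lt.mp hx)]
        simp
    have h2 : ∑ j ∈ AB, (x j ^ 2 - 3 / 4 * τ j ^ 2)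
        ≤ ∑ j ∈ AL with t j ≤ t js, x j ^ 2 - 3 / 4 * τ js ^ 2 := by
      rw [Finset.sum_sub_distrib]
      have h3 : ∑ j ∈ AB, x j ^ 2 ≤ ∑ j ∈ AL with t j ≤ t js, x j ^ 2 :=
        Finset.sum_le_sum_of_subset_of_nonneg hsubAB (fun _ _ _ => sq_nonneg _)
      have h4 : 3 / 4 * τ js ^ 2 ≤ ∑ j ∈ AB, 3 / 4 * τ j ^ 2 :=
        Finset.single_le_sum (f := fun j => 3 / 4 * τ j ^ 2)
          (fun j _ => by positivity) hjs
      linarith
    have h5 := hτsq js
    have hm0 : (0 : ℝ) ≤ mm t AL (t js) := by positivity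
    have hw0 : (0 : ℝ) ≤ wb t k := by positivity
    push_cast at hP
    rw [hRRR] at hP ⊢
    nlinarith [mul_nonneg hgc.le hm0, mul_nonneg hgc.le hw0]

/-- **S6b. Update of the potential (soft thresholding).** -/
theorem pot_update (k : ℕ) (xa xb x' : Vec d) (θ : ℝ) (h0 : 0 ≤ θ) (h1 : θ ≤ 1)
    (ha : Pot t k xa) (hb : Pot t k xb)
    (g : Vec d)
    (hpass : ∀ j ∉ alive t (k + 1), x' j = (1 - θ) * xa j + θ * xb j + g j)
    (halive : ∀ j ∈ alive t (k + 1),
      x' j = (1 - θ) * (xa j - clipv t k xa j) + θ * (xb j - clipv t k xb j) + g j)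
    (hnoise : ∀ l : ℝ, ∑ j ∈ alive t (k + 1) with t j ≤ l, g j ^ 2
      ≤ Gc * (mm t (alive t (k + 1)) l + wb t k))
    (henergy : ∑ γ ∈ grps (k + 1), om t (k + 1) γ * (1 + 1 / eta t k γ)
      * ∑ j ∈ GS t (k + 1) γ, g j ^ 2 ≤ cost t k) :
    Pot t (k + 1) x' := by
  classical
  intro l
  -- one parent
  have parent : ∀ x : Vec d, Pot t k x →
      ∑ γ ∈ grps (k + 1), om t (k + 1) γ * ∑ j ∈ GS t (k + 1) γ, (x j + g j) ^ 2
        + 32 * ∑ j ∈ alive t (k + 1) with t j ≤ l, (x j - clipv t k x j + g j) ^ 2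
        ≤ bb t (k + 1) + RRR * mm t (alive t (k + 1)) l := by
    intro x hx
    have e1 := s6_parent t k x g hx l hnoise
    have e2 := s6_passed t k x
    have e3 : ∑ γ ∈ grps (k + 1), om t (k + 1) γ * ∑ j ∈ GS t (k + 1) γ, (x j + g j) ^ 2
        ≤ ∑ γ ∈ grps (k + 1), om t (k + 1) γ * (1 + eta t k γ) * ∑ j ∈ GS t (k + 1) γ, x j ^ 2
          + ∑ γ ∈ grps (k + 1), om t (k + 1) γ * (1 + 1 / eta t k γ)
            * ∑ j ∈ GS t (k + 1) γ, g j ^ 2 := by
      rw [← Finset.sum_add_distrib]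
      apply Finset.sum_le_sum
      intro γ _
      have hη := s6_eta_pos t k γ
      have hom := s6_om_pos t (k + 1) γ
      have e4 : ∑ j ∈ GS t (k + 1) γ, (x j + g j) ^ 2
          ≤ (1 + eta t k γ) * ∑ j ∈ GS t (k + 1) γ, x j ^ 2
            + (1 + 1 / eta t k γ) * ∑ j ∈ GS t (k + 1) γ, g j ^ 2 := by
        rw [Finset.mul_sum, Finset.mul_sum, ← Finset.sum_add_distrib]
        apply Finset.sum_le_sum
        intro j _
        have e5 : 2 * (x j * g j) ≤ eta t k γ * x j ^ 2 + 1 / eta t k γ * g j ^ 2 := by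
          have e6 : 0 ≤ (Real.sqrt (eta t k γ) * x j - 1 / Real.sqrt (eta t k γ) * g j) ^ 2 :=
            sq_nonneg _
          have hs : Real.sqrt (eta t k γ) ^ 2 = eta t k γ := Real.sq_sqrt hη.le
          have hs0 : 0 < Real.sqrt (eta t k γ) := Real.sqrt_pos.mpr hη
          have e7 : (Real.sqrt (eta t k γ) * x j - 1 / Real.sqrt (eta t k γ) * g j) ^ 2
              = eta t k γ * x j ^ 2 + 1 / eta t k γ * g j ^ 2 - 2 * (x j * g j) := by
            have : (1 / Real.sqrt (eta t k γ)) ^ 2 = 1 / eta t k γ := by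
              rw [div_pow, hs]; simp
            calc (Real.sqrt (eta t k γ) * x j - 1 / Real.sqrt (eta t k γ) * g j) ^ 2
                = Real.sqrt (eta t k γ) ^ 2 * x j ^ 2 + (1 / Real.sqrt (eta t k γ)) ^ 2 * g j ^ 2
                  - 2 * (Real.sqrt (eta t k γ) * (1 / Real.sqrt (eta t k γ))) * (x j * g j) := by ring
              _ = _ := by
                rw [hs, this, mul_one_div_cancel hs0.ne']; ring
          linarith
        nlinarith
      calc om t (k + 1) γ * ∑ j ∈ GS t (k + 1) γ, (x j + g j) ^ 2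
          ≤ om t (k + 1) γ * ((1 + eta t k γ) * ∑ j ∈ GS t (k + 1) γ, x j ^ 2
            + (1 + 1 / eta t k γ) * ∑ j ∈ GS t (k + 1) γ, g j ^ 2) :=
            mul_le_mul_of_nonneg_left e4 hom.le
        _ = _ := by ring
    rw [s6_bb_succ]
    linarith
  have pa := parent xa ha
  have pb := parent xb hb
  have cvx : ∀ a b : ℝ, ((1 - θ) * a + θ * b) ^ 2 ≤ (1 - θ) * a ^ 2 + θ * b ^ 2 := by
    intro a b
    have : 0 ≤ θ * (1 - θ) * (a - b) ^ 2 := by
      have : 0 ≤ 1 - θ := by linarith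
      positivity
    nlinarith
  have f1 : ∑ γ ∈ grps (k + 1), om t (k + 1) γ * ∑ j ∈ GS t (k + 1) γ, x' j ^ 2
      ≤ (1 - θ) * ∑ γ ∈ grps (k + 1), om t (k + 1) γ * ∑ j ∈ GS t (k + 1) γ, (xa j + g j) ^ 2
        + θ * ∑ γ ∈ grps (k + 1), om t (k + 1) γ * ∑ j ∈ GS t (k + 1) γ, (xb j + g j) ^ 2 := by
    rw [Finset.mul_sum, Finset.mul_sum, ← Finset.sum_add_distrib]
    apply Finset.sum_le_sum
    intro γ _
    have hom := s6_om_pos t (k + 1) γ
    have f2 : ∑ j ∈ GS t (k + 1) γ, x' j ^ 2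
        ≤ (1 - θ) * ∑ j ∈ GS t (k + 1) γ, (xa j + g j) ^ 2
          + θ * ∑ j ∈ GS t (k + 1) γ, (xb j + g j) ^ 2 := by
      rw [Finset.mul_sum, Finset.mul_sum, ← Finset.sum_add_distrib]
      apply Finset.sum_le_sum
      intro j hj
      have hjn : j ∉ alive t (k + 1) := fun hj' =>
        (Finset.disjoint_left.mp (GS_disjoint_alive t (k := k + 1) (g := γ))) hj hj'
      rw [hpass j hjn]
      have := cvx (xa j + g j) (xb j + g j)
      calc ((1 - θ) * xa j + θ * xb j + g j) ^ 2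
          = ((1 - θ) * (xa j + g j) + θ * (xb j + g j)) ^ 2 := by ring
        _ ≤ _ := this
    calc om t (k + 1) γ * ∑ j ∈ GS t (k + 1) γ, x' j ^ 2
        ≤ om t (k + 1) γ * ((1 - θ) * ∑ j ∈ GS t (k + 1) γ, (xa j + g j) ^ 2
          + θ * ∑ j ∈ GS t (k + 1) γ, (xb j + g j) ^ 2) := mul_le_mul_of_nonneg_left f2 hom.le
      _ = _ := by ring
  have f3 : ∑ j ∈ alive t (k + 1) with t j ≤ l, x' j ^ 2
      ≤ (1 - θ) * ∑ j ∈ alive t (k + 1) with t j ≤ l, (xa j - clipv t k xa j + g j) ^ 2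
        + θ * ∑ j ∈ alive t (k + 1) with t j ≤ l, (xb j - clipv t k xb j + g j) ^ 2 := by
    rw [Finset.mul_sum, Finset.mul_sum, ← Finset.sum_add_distrib]
    apply Finset.sum_le_sum
    intro j hj
    rw [halive j (Finset.mem_filter.mp hj).1]
    have := cvx (xa j - clipv t k xa j + g j) (xb j - clipv t k xb j + g j)
    calc ((1 - θ) * (xa j - clipv t k xa j) + θ * (xb j - clipv t k xb j) + g j) ^ 2
        = ((1 - θ) * (xa j - clipv t k xa j + g j) + θ * (xb j - clipv t k xb j + g j)) ^ 2 := by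
          ring
      _ ≤ _ := this
  have g1 : 0 ≤ 1 - θ := by linarith
  have pa' := mul_le_mul_of_nonneg_left pa g1
  have pb' := mul_le_mul_of_nonneg_left pb h0
  nlinarith

end Vale.Agent.P262B
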