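import Vale.Agent.P262B.S4

open scoped BigOperators RealInnerProductSpace
open Finset

namespace Vale.Agent.P262B

variable {d : ℕ} {ι : Type} [Fintype ι] [DecidableEq ι] (I : Inst d ι)

/-- granular coefficients at boundary `m`, including the two ends of the cell `X` -/
noncomputable def kapE (k : ℕ) (X : Finset ι) (S : Grp → Finset ι) (κa κb : Grp → ι → ℝ)
    (c : ι → ℕ) (m : ℕ) : Grp → ι → ℝ :=
  if m = 0 then κa else if m = MM I.t k then κb else kap I k X S κa κb c m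

open Classical in
/-- granular sets of child `m` -/
noncomputable def Snew (k : ℕ) (X : Finset ι) (S : Grp → Finset ι) (c : ι → ℕ) (m : ℕ)
    (g : Grp) : Finset ι :=
  if g ∈ grps (k + 1) ∧ ¬ critg I.t (k + 1) g then
    S g ∪ (X.filter (fun i => c i = m ∧ gran I (k + 1) g i)) else ∅

theorem s7_mem_grps {k : ℕ} {g : Grp} : g ∈ grps k ↔ g.1 ≤ k := by
  simp [grps]

theorem s7_crit_of_succ (t : Fin d → ℝ) (k : ℕ) (g : Grp) (h : critg t (k + 1) g) :
    critg t k g := by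
  refine ⟨h.1, ?_⟩
  have h1 : Lev t (k + 1) < Lev t g.1 + sstar t g.1 := h.2
  have h2 := Lev_lt t k
  show Lev t k < Lev t g.1 + sstar t g.1
  omega

theorem s7_S_empty (k : ℕ) (X : Finset ι) (S : Grp → Finset ι) (κa κb : Grp → ι → ℝ)
    (hG : GranOK I k X S κa κb) (g : Grp)
    (h : ¬ (g ∈ grps (k + 1) ∧ ¬ critg I.t (k + 1) g)) : S g = ∅ := by
  by_cases hg : g ∈ grps k
  · have hg1 : g ∈ grps (k + 1) := by
      rw [s7_mem_grps] at hg ⊢; omega
    have hc : critg I.t (k + 1) g := by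
      by_contra hc
      exact h ⟨hg1, hc⟩
    exact hG.critE g hg (s7_crit_of_succ I.t k g hc)
  · exact hG.offS g hg

theorem s7_theta (t : Fin d → ℝ) (k m : ℕ) (hm : m ≤ MM t k) :
    0 ≤ (m : ℝ) / MM t k ∧ (m : ℝ) / MM t k ≤ 1 := by
  have hM : (0 : ℝ) < MM t k := by unfold MM; positivity
  refine ⟨by positivity, ?_⟩
  rw [div_le_one hM]
  exact_mod_cast hm

theorem s7_kap_off (k : ℕ) (X : Finset ι) (S : Grp → Finset ι) (κa κb : Grp → ι → ℝ)
    (c : ι → ℕ) (hG : GranOK I k X S κa κb) (m : ℕ) (g : Grp) (i : ι) (hi : i ∉ S g) :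
    kap I k X S κa κb c m g i = 0 := by
  unfold kap
  rw [hG.offa g i hi, hG.offb g i hi]
  simp [hi]

theorem s7_kapE_off (k : ℕ) (X : Finset ι) (S : Grp → Finset ι) (κa κb : Grp → ι → ℝ)
    (c : ι → ℕ) (hG : GranOK I k X S κa κb) (m : ℕ) (g : Grp) (i : ι) (hi : i ∉ S g) :
    kapE I k X S κa κb c m g i = 0 := by
  unfold kapE
  split_ifs
  · exact hG.offa g i hi
  · exact hG.offb g i hi
  · exact s7_kap_off I k X S κa κb c hG m g i hi

theorem s7_kap_bd (k : ℕ) (X : Finset ι) (S : Grp → Finset ι) (κa κb : Grp → ι → ℝ)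
    (c : ι → ℕ) (hG : GranOK I k X S κa κb) (m : ℕ) (hm : m ≤ MM I.t k) (g : Grp) (i : ι) :
    |kap I k X S κa κb c m g i| ≤ 1 := by
  obtain ⟨h0, h1⟩ := s7_theta I.t k m hm
  unfold kap
  set θ := (m : ℝ) / MM I.t k
  have ha := abs_le.mp (hG.bda g i)
  have hb := abs_le.mp (hG.bdb g i)
  by_cases hi : i ∈ X ∧ i ∈ S g
  · rw [if_pos hi]
    have ha' := hG.signa g i hi.1
    have hb' := hG.signb g i hi.1
    split_ifs
    · rw [abs_le]; constructor <;> nlinarith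
    · rw [abs_le]; constructor <;> nlinarith
  · rw [if_neg hi, add_zero, abs_le]
    constructor <;> nlinarith

theorem s7_kapE_bd (k : ℕ) (X : Finset ι) (S : Grp → Finset ι) (κa κb : Grp → ι → ℝ)
    (c : ι → ℕ) (hG : GranOK I k X S κa κb) (m : ℕ) (hm : m ≤ MM I.t k) (g : Grp) (i : ι) :
    |kapE I k X S κa κb c m g i| ≤ 1 := by
  unfold kapE
  split_ifs
  · exact hG.bda g i
  · exact hG.bdb g i
  · exact s7_kap_bd I k X S κa κb c hG m hm g i

theorem s7_one_le_BBdecay (t : Fin d → ℝ) (b n : ℕ) (τ : Fin 3) (h : sstar t b ≤ n) :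
    (2 : ℝ) ^ (-(3 / 4) * (n : ℝ)) * BB t (b, τ) ≤ 1 := by
  have hN : NN t b ≤ 2 ^ (Nat.clog 2 (NN t b)) := Nat.le_pow_clog (by norm_num) _
  have hn : (Nat.clog 2 (NN t b) : ℝ) ≤ (n : ℝ) / 4 := by
    have : 4 * Nat.clog 2 (NN t b) ≤ n := h
    have h2 : ((4 * Nat.clog 2 (NN t b) : ℕ) : ℝ) ≤ n := by exact_mod_cast this
    push_cast at h2
    linarith
  have hNr : (NN t b : ℝ) ≤ (2 : ℝ) ^ ((n : ℝ) / 4) := by
    calc (NN t b : ℝ) ≤ (2 : ℝ) ^ (Nat.clog 2 (NN t b)) := by exact_mod_cast hN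
      _ = (2 : ℝ) ^ ((Nat.clog 2 (NN t b) : ℕ) : ℝ) := by rw [Real.rpow_natCast]
      _ ≤ _ := Real.rpow_le_rpow_of_exponent_le (by norm_num) hn
  have hn0 : (0 : ℝ) ≤ n := by positivity
  have hB : BB t (b, τ) ≤ (2 : ℝ) ^ (9 / 16 * (n : ℝ)) := by
    unfold BB
    split_ifs
    · refine hNr.trans (Real.rpow_le_rpow_of_exponent_le (by norm_num) (by linarith))
    · have hwc : ((wc t b : ℕ) : ℝ) ≤ NN t b := by
        have := NN_ge_wc t b
        have h2 : wc t b ≤ NN t b := by omega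
        exact_mod_cast h2
      calc ((wc t b : ℕ) : ℝ) ^ (9 / 4 : ℝ) ≤ ((2 : ℝ) ^ ((n : ℝ) / 4)) ^ (9 / 4 : ℝ) := by
            apply Real.rpow_le_rpow (by positivity) (hwc.trans hNr) (by norm_num)
        _ = (2 : ℝ) ^ (9 / 16 * (n : ℝ)) := by
            rw [← Real.rpow_mul (by norm_num)]
            congr 1
            ring
    · positivity
  calc (2 : ℝ) ^ (-(3 / 4) * (n : ℝ)) * BB t (b, τ)
      ≤ (2 : ℝ) ^ (-(3 / 4) * (n : ℝ)) * (2 : ℝ) ^ (9 / 16 * (n : ℝ)) := by gcongr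
    _ = (2 : ℝ) ^ (-(3 / 16) * (n : ℝ)) := by
        rw [← Real.rpow_add (by norm_num)]
        congr 1
        ring
    _ ≤ 1 := by
        apply Real.rpow_le_one_of_one_le_of_nonpos (by norm_num)
        nlinarith

theorem s7_RR_nonneg (t : Fin d → ℝ) (k : ℕ) (g : Grp) : 0 ≤ RR t k g := by
  unfold RR Cr
  split_ifs
  · exact le_rfl
  · positivity

/-- number of newly granular vectors of a child -/
theorem s7_number (k : ℕ) (X : Finset ι) (c : ι → ℕ) (m : ℕ) (g : Grp) (T : Finset ι)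
    (hT : ∀ i ∈ T, i ∈ X ∧ c i = m ∧ gran I (k + 1) g i) :
    (T.card : ℝ) ≤ ∑ i ∈ X with c i = m, ff I (k + 1) g i := by
  calc (T.card : ℝ) = ∑ i ∈ T, (1 : ℝ) := by simp
    _ ≤ ∑ i ∈ T, ff I (k + 1) g i := by
        apply Finset.sum_le_sum
        intro i hi
        unfold ff
        exact le_min le_rfl (hT i hi).2.2.2
    _ ≤ _ := by
        apply Finset.sum_le_sum_of_subset_of_nonneg
        · intro i hi
          exact Finset.mem_filter.mpr ⟨(hT i hi).1, (hT i hi).2.1⟩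
        · intro i _ _
          exact s4_ff_nonneg I _ _ i

theorem s7_proj_norm_le_one (J : Finset (Fin d)) (i : ι) : ‖proj J (I.v i)‖ ≤ 1 := by
  have h := s4_proj_le_one I J i
  have h0 := norm_nonneg (proj J (I.v i))
  nlinarith

/-- the bound of the functional of a persisting group after the stage, before adding `phi` -/
theorem s7_func_bd (k : ℕ) (X : Finset ι) (g : Grp) (hg : g ∈ grps k)
    (hGS : GS I.t (k + 1) g = GS I.t k g)
    (hF : ∑ i ∈ X, ff I k g i ≤ phi I.t k g) :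
    (51 / 50) * (2 : ℝ) ^ (-(ww I.t k : ℝ)) * ∑ i ∈ X, ff I (k + 1) g i
      ≤ (2 : ℝ) ^ (-(3 / 4) * (ww I.t k : ℝ)) * phi I.t k g := by
  set w := ww I.t k with hw
  set s := age I.t k g with hs
  have hw1 : 1 ≤ w := ww_pos I.t k
  have hage : age I.t (k + 1) g = s + w := age_succ I.t hg
  have hff : ∀ i, ff I (k + 1) g i ≤ (2 : ℝ) ^ ((w : ℝ) / 8) * ff I k g i := by
    intro i
    have h1 := s4_two_rpow_age w 8 (by norm_num)
    unfold ff
    rw [hGS, hage, ← hs]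
    rw [mul_min_of_nonneg _ _ (by positivity)]
    apply min_le_min
    · simpa using h1
    · rw [← mul_assoc, ← Real.rpow_add (by norm_num)]
      apply le_of_eq
      congr 2
      push_cast
      ring
  have hsum : ∑ i ∈ X, ff I (k + 1) g i ≤ (2 : ℝ) ^ ((w : ℝ) / 8) * phi I.t k g := by
    calc ∑ i ∈ X, ff I (k + 1) g i ≤ ∑ i ∈ X, (2 : ℝ) ^ ((w : ℝ) / 8) * ff I k g i :=
          Finset.sum_le_sum (fun i _ => hff i)
      _ = (2 : ℝ) ^ ((w : ℝ) / 8) * ∑ i ∈ X, ff I k g i := by rw [Finset.mul_sum]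
      _ ≤ _ := by gcongr
  have hphi := s4_phi_nonneg I.t k g
  calc (51 / 50) * (2 : ℝ) ^ (-(w : ℝ)) * ∑ i ∈ X, ff I (k + 1) g i
      ≤ (51 / 50) * (2 : ℝ) ^ (-(w : ℝ)) * ((2 : ℝ) ^ ((w : ℝ) / 8) * phi I.t k g) := by
        gcongr
    _ = ((51 / 50) * (2 : ℝ) ^ (-(w : ℝ) / 8)) * ((2 : ℝ) ^ (-(3 / 4) * (w : ℝ)) * phi I.t k g) := by
        have : (2 : ℝ) ^ (-(w : ℝ)) * (2 : ℝ) ^ ((w : ℝ) / 8)
            = (2 : ℝ) ^ (-(w : ℝ) / 8) * (2 : ℝ) ^ (-(3 / 4) * (w : ℝ)) := by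
          rw [← Real.rpow_add (by norm_num), ← Real.rpow_add (by norm_num)]
          congr 1
          ring
        calc _ = (51 / 50) * ((2 : ℝ) ^ (-(w : ℝ)) * (2 : ℝ) ^ ((w : ℝ) / 8)) * phi I.t k g := by ring
          _ = _ := by rw [this]; ring
    _ ≤ 1 * ((2 : ℝ) ^ (-(3 / 4) * (w : ℝ)) * phi I.t k g) := by
        gcongr
        exact s4_pow_eighth hw1
    _ = _ := one_mul _

theorem s7_sqrt_split (a s : ℝ) (ha : 0 ≤ a) (hs : 0 ≤ s) :
    Real.sqrt (1 + a + s) ≤ Real.sqrt (1 + a) * (1 + s) := by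
  rw [Real.sqrt_le_left (by positivity), mul_pow, Real.sq_sqrt (by positivity)]
  nlinarith [mul_nonneg ha hs, mul_nonneg (mul_nonneg ha hs) hs, mul_nonneg hs hs]

/-- `(1+s)² 2^{-s/32}` is bounded -/
theorem s7_decay (s : ℝ) (hs : 0 ≤ s) : (1 + s) ^ 2 * (2 : ℝ) ^ (-s / 32) ≤ 10 ^ 5 := by
  have h1 : 1 + s / 128 ≤ (2 : ℝ) ^ (s / 64) := by
    rw [Real.rpow_def_of_pos (by norm_num)]
    have h4 := Real.add_one_le_exp (Real.log 2 * (s / 64))
    have h5 : (0.5 : ℝ) ≤ Real.log 2 := by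
      have := Real.log_two_gt_d9
      linarith
    nlinarith
  have h2 : 1 + s ≤ 128 * (2 : ℝ) ^ (s / 64) := by linarith
  have h3 : (1 + s) ^ 2 ≤ (128 * (2 : ℝ) ^ (s / 64)) ^ 2 :=
    pow_le_pow_left₀ (by positivity) h2 2
  have h4 : ((2 : ℝ) ^ (s / 64)) ^ 2 = (2 : ℝ) ^ (s / 32) := by
    rw [← Real.rpow_natCast, ← Real.rpow_mul (by norm_num)]
    congr 1
    push_cast
    ring
  calc (1 + s) ^ 2 * (2 : ℝ) ^ (-s / 32) ≤ (128 * (2 : ℝ) ^ (s / 64)) ^ 2 * (2 : ℝ) ^ (-s / 32) := by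
        gcongr
    _ = 128 ^ 2 * ((2 : ℝ) ^ (s / 32) * (2 : ℝ) ^ (-s / 32)) := by
        rw [mul_pow, h4]; ring
    _ = 128 ^ 2 := by
        rw [← Real.rpow_add (by norm_num)]
        have : s / 32 + -s / 32 = 0 := by ring
        rw [this]; simp
    _ ≤ _ := by norm_num

theorem s7_age_ge (t : Fin d → ℝ) (k : ℕ) (g : Grp) (hg : g ∈ grps k) :
    (Lev t k : ℝ) - Lev t g.1 ≤ age t k g := by
  have hgk : g.1 ≤ k := s7_mem_grps.mp hg
  have h1 := Lev_mono t hgk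
  unfold age
  split_ifs
  · have h2 : Lev t (g.1 - 1) ≤ Lev t g.1 := by
      have := Lev_mono t (Nat.sub_le g.1 1)
      omega
    have h3 : Lev t (g.1 - 1) ≤ Lev t k := by omega
    push_cast [h3]
    have : (Lev t (g.1 - 1) : ℝ) ≤ Lev t g.1 := by exact_mod_cast h2
    linarith
  · have h3 : Lev t g.1 ≤ Lev t k := by omega
    push_cast [h3]
    linarith

theorem s7_RR_succ (t : Fin d → ℝ) (k : ℕ) (g : Grp) (hg : g ∈ grps k)
    (h1 : ¬ critg t k g) (h2 : ¬ critg t (k + 1) g) :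
    RR t (k + 1) g = RR t k g
      + Cr * ((2 : ℝ) ^ (-((Lev t k : ℝ) - Lev t g.1) / 32) * Real.sqrt (1 + wb t k)) := by
  have hgk : g.1 ≤ k := s7_mem_grps.mp hg
  unfold RR
  rw [if_neg h1, if_neg h2, Finset.sum_Ico_succ_top hgk]
  ring

theorem s7_RR_ge (t : Fin d → ℝ) (k : ℕ) (g : Grp) (h1 : ¬ critg t k g) :
    Cr * Real.sqrt (NN t g.1) ≤ RR t k g := by
  unfold RR
  rw [if_neg h1]
  have hCr : (0 : ℝ) ≤ Cr := by unfold Cr; positivity
  apply mul_le_mul_of_nonneg_left _ hCr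
  have : 0 ≤ ∑ k' ∈ Ico g.1 k,
    (2 : ℝ) ^ (-((Lev t k' : ℝ) - Lev t g.1) / 32) * Real.sqrt (1 + wb t k') := by positivity
  linarith

theorem s7_phi_noncrit (t : Fin d → ℝ) (k n : ℕ) (g : Grp) (h1 : sstar t g.1 ≤ n ∨ g.2 = 2) :
    (2 : ℝ) ^ (-(3 / 4) * (n : ℝ)) * BB t g ≤ 1 := by
  rcases h1 with h1 | h1
  · exact s7_one_le_BBdecay t g.1 n g.2 h1
  · have : BB t g = 0 := by
      unfold BB
      rw [h1]
      simp
    rw [this]; simp

/-- `(1+4L)² (1+2^{L/4})` versus `2^{L/2}` -/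
theorem s7_clog_bd (L : ℝ) (hL : 0 ≤ L) :
    (1 + 4 * L) ^ 2 ≤ 10 ^ 6 * (2 : ℝ) ^ (L / 4) := by
  have h1 : 1 + L / 16 ≤ (2 : ℝ) ^ (L / 8) := by
    rw [Real.rpow_def_of_pos (by norm_num)]
    have h4 := Real.add_one_le_exp (Real.log 2 * (L / 8))
    have h5 : (0.5 : ℝ) ≤ Real.log 2 := by
      have := Real.log_two_gt_d9
      linarith
    nlinarith
  have h2 : 1 + 4 * L ≤ 64 * (2 : ℝ) ^ (L / 8) := by linarith
  have h3 : (1 + 4 * L) ^ 2 ≤ (64 * (2 : ℝ) ^ (L / 8)) ^ 2 :=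
    pow_le_pow_left₀ (by positivity) h2 2
  have h4 : ((2 : ℝ) ^ (L / 8)) ^ 2 = (2 : ℝ) ^ (L / 4) := by
    rw [← Real.rpow_natCast, ← Real.rpow_mul (by norm_num)]
    congr 1
    push_cast
    ring
  rw [mul_pow, h4] at h3
  have : (0 : ℝ) ≤ (2 : ℝ) ^ (L / 4) := by positivity
  linarith

theorem s7_clog_N (N : ℕ) (hN : 1 < N) :
    (1 + 4 * (Nat.clog 2 N : ℝ)) ^ 2 * (1 + (N : ℝ) ^ (1 / 4 : ℝ)) ≤ 10 ^ 7 * Real.sqrt N := by
  have hNr : (1 : ℝ) < N := by exact_mod_cast hN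
  have h1 : 2 ^ (Nat.clog 2 N - 1) < N := Nat.pow_pred_clog_lt_self (by norm_num) hN
  have hc : 1 ≤ Nat.clog 2 N := Nat.clog_pos (by norm_num) hN
  set L := Nat.clog 2 N with hL
  have h2 : (2 : ℝ) ^ (L : ℝ) ≤ 2 * N := by
    have h3 : 2 ^ L ≤ 2 * N := by
      calc 2 ^ L = 2 * 2 ^ (L - 1) := by
            conv_lhs => rw [show L = (L - 1) + 1 by omega]
            rw [pow_succ]; ring
        _ ≤ 2 * N := by omega
    rw [Real.rpow_natCast]
    exact_mod_cast h3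
  have h4 : (2 : ℝ) ^ ((L : ℝ) / 4) ≤ 2 * (N : ℝ) ^ (1 / 4 : ℝ) := by
    calc (2 : ℝ) ^ ((L : ℝ) / 4) = ((2 : ℝ) ^ (L : ℝ)) ^ (1 / 4 : ℝ) := by
          rw [← Real.rpow_mul (by norm_num)]; congr 1; ring
      _ ≤ (2 * (N : ℝ)) ^ (1 / 4 : ℝ) := by
          apply Real.rpow_le_rpow (by positivity) h2 (by norm_num)
      _ = (2 : ℝ) ^ (1 / 4 : ℝ) * (N : ℝ) ^ (1 / 4 : ℝ) := by
          rw [Real.mul_rpow (by norm_num) (by positivity)]
      _ ≤ 2 * (N : ℝ) ^ (1 / 4 : ℝ) := by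
          gcongr
          calc (2 : ℝ) ^ (1 / 4 : ℝ) ≤ (2 : ℝ) ^ (1 : ℝ) :=
                Real.rpow_le_rpow_of_exponent_le (by norm_num) (by norm_num)
            _ = 2 := Real.rpow_one 2
  have h5 := s7_clog_bd (L : ℝ) (by positivity)
  have h6 : (1 : ℝ) ≤ (N : ℝ) ^ (1 / 4 : ℝ) := Real.one_le_rpow hNr.le (by norm_num)
  have h7 : (N : ℝ) ^ (1 / 4 : ℝ) * (N : ℝ) ^ (1 / 4 : ℝ) = Real.sqrt N := by
    rw [← Real.rpow_add (by linarith), Real.sqrt_eq_rpow]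
    norm_num
  calc (1 + 4 * (L : ℝ)) ^ 2 * (1 + (N : ℝ) ^ (1 / 4 : ℝ))
      ≤ (10 ^ 6 * (2 * (N : ℝ) ^ (1 / 4 : ℝ))) * (2 * (N : ℝ) ^ (1 / 4 : ℝ)) := by
        apply mul_le_mul (h5.trans (by gcongr)) (by linarith) (by positivity) (by positivity)
    _ = 4 * 10 ^ 6 * ((N : ℝ) ^ (1 / 4 : ℝ) * (N : ℝ) ^ (1 / 4 : ℝ)) := by ring
    _ = 4 * 10 ^ 6 * Real.sqrt N := by rw [h7]
    _ ≤ _ := by
        have := Real.sqrt_nonneg (N : ℝ)
        nlinarith

/-- `ℓ¹` bound for the new granular vectors of a persisting, non critical group -/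
theorem s7_l1_noncrit (k : ℕ) (X : Finset ι) (S : Grp → Finset ι) (κa κb : Grp → ι → ℝ)
    (c : ι → ℕ) (hG : GranOK I k X S κa κb) (m : ℕ) (g : Grp) (hg : g ∈ grps k)
    (hcr : ¬ critg I.t k g) (hGS : GS I.t (k + 1) g = GS I.t k g)
    (hF : ∑ i ∈ X, ff I k g i ≤ phi I.t k g)
    (hfun : ∑ i ∈ X with c i = m, ff I (k + 1) g i
      ≤ (51 / 50) * (2 : ℝ) ^ (-(ww I.t k : ℝ)) * ∑ i ∈ X, ff I (k + 1) g i
        + 15000 * (1 + age I.t k g) * Real.sqrt (1 + wb I.t k + age I.t k g))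
    (T : Finset ι) (hT : ∀ i ∈ T, i ∈ X ∧ c i = m ∧ gran I (k + 1) g i) (hTS : Disjoint T (S g)) :
    ∑ i ∈ T, ‖proj (GS I.t (k + 1) g) (I.v i)‖
      ≤ Cr * ((2 : ℝ) ^ (-((Lev I.t k : ℝ) - Lev I.t g.1) / 32) * Real.sqrt (1 + wb I.t k)) := by
  have hnum := (s7_number I k X c m g T hT).trans hfun
  set s := age I.t k g with hs
  set w := ww I.t k with hw
  have hw1 : 1 ≤ w := ww_pos I.t k
  have hsmall : ∀ i ∈ T, ‖proj (GS I.t (k + 1) g) (I.v i)‖ ≤ (2 : ℝ) ^ (-(s : ℝ) / 16) := by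
    intro i hi
    have hnS : i ∉ S g := Finset.disjoint_left.mp hTS hi
    have hng : ¬ gran I k g i := fun hgr => hnS (hG.granS g hg i (hT i hi).1 hgr)
    have h1 : (2 : ℝ) ^ ((s : ℝ) / 8) * ‖proj (GS I.t k g) (I.v i)‖ ^ 2 < 1 := by
      by_contra hcon
      exact hng ⟨hcr, not_lt.mp hcon⟩
    rw [hGS]
    have h2 : ((2 : ℝ) ^ (-(s : ℝ) / 16)) ^ 2 * (2 : ℝ) ^ ((s : ℝ) / 8) = 1 := by
      rw [← Real.rpow_natCast, ← Real.rpow_mul (by norm_num), ← Real.rpow_add (by norm_num)]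
      have : -(s : ℝ) / 16 * ((2 : ℕ) : ℝ) + (s : ℝ) / 8 = 0 := by push_cast; ring
      rw [this]; simp
    have h3 : 0 < (2 : ℝ) ^ ((s : ℝ) / 8) := by positivity
    have h4 : ‖proj (GS I.t k g) (I.v i)‖ ^ 2 ≤ ((2 : ℝ) ^ (-(s : ℝ) / 16)) ^ 2 := by
      by_contra hcon
      push Not at hcon
      have := mul_lt_mul_of_pos_left hcon h3
      nlinarith
    exact le_of_sq_le_sq h4 (by positivity)
  have hss : sstar I.t g.1 ≤ s ∨ g.2 = 2 := by
    by_cases h2 : g.2 = 2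
    · exact Or.inr h2
    · left
      have h3 : ¬ crit I.t g.1 k := fun h => hcr ⟨h2, h⟩
      have h4 : ¬ (Lev I.t k < Lev I.t g.1 + sstar I.t g.1) := h3
      have h5 : s = Lev I.t k - Lev I.t g.1 := by rw [hs]; simp [age, h2]
      omega
  have hphi : phi I.t k g ≤ Cf * (2 * (1 + (s : ℝ)) ^ 2) := by
    have h1 := s7_phi_noncrit I.t k s g hss
    unfold phi
    have hCf : (0 : ℝ) ≤ Cf := by unfold Cf; positivity
    apply mul_le_mul_of_nonneg_left _ hCf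
    have : (0 : ℝ) ≤ s := by positivity
    nlinarith
  have hfb := s7_func_bd I k X g hg hGS hF
  rw [← hw] at hfb
  have h5 := s4_pow_half hw1
  have h50 : (0 : ℝ) ≤ (2 : ℝ) ^ (-(3 / 4) * (w : ℝ)) := by positivity
  have hs0 : (0 : ℝ) ≤ s := by positivity
  have hwb0 : (0 : ℝ) ≤ wb I.t k := by positivity
  have hsq := s7_sqrt_split (wb I.t k) s hwb0 hs0
  have hsq1 : 1 ≤ Real.sqrt (1 + wb I.t k) := by
    rw [Real.one_le_sqrt]; linarith
  have hphi0 := s4_phi_nonneg I.t k g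
  have hcard : (T.card : ℝ) ≤ 2 * 10 ^ 9 * ((1 + (s : ℝ)) ^ 2 * Real.sqrt (1 + wb I.t k)) := by
    have a1 : (2 : ℝ) ^ (-(3 / 4) * (w : ℝ)) * phi I.t k g ≤ 0.6 * (Cf * (2 * (1 + (s : ℝ)) ^ 2)) :=
      mul_le_mul h5 hphi hphi0 (by norm_num)
    have a2 : 15000 * (1 + (s : ℝ)) * Real.sqrt (1 + wb I.t k + s)
        ≤ 15000 * (1 + (s : ℝ)) * (Real.sqrt (1 + wb I.t k) * (1 + s)) := by gcongr
    have a3 : (1 + (s : ℝ)) ^ 2 ≤ (1 + (s : ℝ)) ^ 2 * Real.sqrt (1 + wb I.t k) := by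
      have : 0 ≤ (1 + (s : ℝ)) ^ 2 := by positivity
      nlinarith
    have hCf : (Cf : ℝ) = 10 ^ 9 := rfl
    rw [hCf] at a1
    have a4 : 15000 * (1 + (s : ℝ)) * (Real.sqrt (1 + wb I.t k) * (1 + s))
        = 15000 * ((1 + (s : ℝ)) ^ 2 * Real.sqrt (1 + wb I.t k)) := by ring
    linarith
  have hlev := s7_age_ge I.t k g hg
  rw [← hs] at hlev
  calc ∑ i ∈ T, ‖proj (GS I.t (k + 1) g) (I.v i)‖ ≤ ∑ i ∈ T, (2 : ℝ) ^ (-(s : ℝ) / 16) :=
        Finset.sum_le_sum hsmall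
    _ = (T.card : ℝ) * (2 : ℝ) ^ (-(s : ℝ) / 16) := by rw [Finset.sum_const, nsmul_eq_mul]
    _ ≤ (2 * 10 ^ 9 * ((1 + (s : ℝ)) ^ 2 * Real.sqrt (1 + wb I.t k))) * (2 : ℝ) ^ (-(s : ℝ) / 16) := by
        gcongr
    _ = 2 * 10 ^ 9 * ((1 + (s : ℝ)) ^ 2 * (2 : ℝ) ^ (-(s : ℝ) / 32)) *
          ((2 : ℝ) ^ (-(s : ℝ) / 32) * Real.sqrt (1 + wb I.t k)) := by
        have : (2 : ℝ) ^ (-(s : ℝ) / 16) = (2 : ℝ) ^ (-(s : ℝ) / 32) * (2 : ℝ) ^ (-(s : ℝ) / 32) := by
          rw [← Real.rpow_add (by norm_num)]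
          congr 1
          ring
        rw [this]; ring
    _ ≤ 2 * 10 ^ 9 * (10 ^ 5) *
          ((2 : ℝ) ^ (-((Lev I.t k : ℝ) - Lev I.t g.1) / 32) * Real.sqrt (1 + wb I.t k)) := by
        apply mul_le_mul
        · have := s7_decay s hs0
          linarith
        · apply mul_le_mul_of_nonneg_right _ (Real.sqrt_nonneg _)
          apply Real.rpow_le_rpow_of_exponent_le (by norm_num)
          linarith
        · positivity
        · positivity
    _ ≤ _ := by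
        have : (2 * 10 ^ 9 * (10 ^ 5) : ℝ) ≤ Cr := by unfold Cr; norm_num
        gcongr

/-- `ℓ¹` bound for the new granular vectors of a group which stops being critical -/
theorem s7_l1_crit (k : ℕ) (X : Finset ι)
    (c : ι → ℕ) (m : ℕ) (g : Grp) (hg : g ∈ grps k)
    (hcr : critg I.t k g) (hcr' : ¬ critg I.t (k + 1) g) (hab : ¬ absb I.t g.1 k)
    (hGS : GS I.t (k + 1) g = GS I.t k g)
    (hF : ∑ i ∈ X, ff I k g i ≤ phi I.t k g)
    (hfun : ∑ i ∈ X with c i = m, ff I (k + 1) g i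
      ≤ (51 / 50) * (2 : ℝ) ^ (-(ww I.t k : ℝ)) * ∑ i ∈ X, ff I (k + 1) g i
        + 15000 * (1 + age I.t k g) * Real.sqrt (1 + wb I.t k + age I.t k g))
    (T : Finset ι) (hT : ∀ i ∈ T, i ∈ X ∧ c i = m ∧ gran I (k + 1) g i) :
    ∑ i ∈ T, ‖proj (GS I.t (k + 1) g) (I.v i)‖ ≤ Cr * Real.sqrt (NN I.t g.1) := by
  have hnum := (s7_number I k X c m g T hT).trans hfun
  set s := age I.t k g with hs
  set w := ww I.t k with hw
  set N := NN I.t g.1 with hN
  have hgk : g.1 ≤ k := s7_mem_grps.mp hg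
  have hw1 : 1 ≤ w := ww_pos I.t k
  have hcritk : Lev I.t k < Lev I.t g.1 + sstar I.t g.1 := hcr.2
  have hs' : s = Lev I.t k - Lev I.t g.1 := by rw [hs]; simp [age, hcr.1]
  have hLm := Lev_mono I.t hgk
  have hsst : s < sstar I.t g.1 := by omega
  have hclog : sstar I.t g.1 = 4 * Nat.clog 2 N := rfl
  have hN1 : 1 < N := by
    by_contra hcon
    have : N ≤ 1 := by omega
    have h0 : Nat.clog 2 N = 0 := Nat.clog_of_right_le_one this 2
    omega
  have hNw : w ^ 2 ≤ N := by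
    by_contra hcon
    exact hab ⟨hgk, hcr.2, not_le.mp hcon⟩
  have hage : age I.t (k + 1) g = s + w := age_succ I.t hg
  have hsw : sstar I.t g.1 ≤ s + w := by
    have h3 : ¬ crit I.t g.1 (k + 1) := fun h => hcr' ⟨hcr.1, h⟩
    have h4 : ¬ (Lev I.t (k + 1) < Lev I.t g.1 + sstar I.t g.1) := h3
    have h5 : age I.t (k + 1) g = Lev I.t (k + 1) - Lev I.t g.1 := by simp [age, hcr.1]
    omega
  have hBB := s7_phi_noncrit I.t k (s + w) g (Or.inl hsw)
  have hfb := s7_func_bd I k X g hg hGS hF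
  rw [← hw] at hfb
  have hs0 : (0 : ℝ) ≤ s := by positivity
  have hw0 : (0 : ℝ) ≤ w := by positivity
  have hwb0 : (0 : ℝ) ≤ wb I.t k := by positivity
  have hpw : (2 : ℝ) ^ (-(3 / 4) * (w : ℝ)) ≤ 1 := by
    apply Real.rpow_le_one_of_one_le_of_nonpos (by norm_num)
    linarith
  have hCf0 : (0 : ℝ) ≤ Cf := by unfold Cf; positivity
  have hphi : (2 : ℝ) ^ (-(3 / 4) * (w : ℝ)) * phi I.t k g ≤ Cf * (1 + (1 + (s : ℝ)) ^ 2) := by
    unfold phi
    rw [← hs]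
    calc (2 : ℝ) ^ (-(3 / 4) * (w : ℝ)) * (Cf * ((2 : ℝ) ^ (-(3 / 4) * (s : ℝ)) * BB I.t g + (1 + (s : ℝ)) ^ 2))
        = Cf * (((2 : ℝ) ^ (-(3 / 4) * (w : ℝ)) * (2 : ℝ) ^ (-(3 / 4) * (s : ℝ))) * BB I.t g
          + (2 : ℝ) ^ (-(3 / 4) * (w : ℝ)) * (1 + (s : ℝ)) ^ 2) := by ring
      _ = Cf * ((2 : ℝ) ^ (-(3 / 4) * ((s + w : ℕ) : ℝ)) * BB I.t g
          + (2 : ℝ) ^ (-(3 / 4) * (w : ℝ)) * (1 + (s : ℝ)) ^ 2) := by
          rw [← Real.rpow_add (by norm_num)]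
          congr 4
          push_cast
          ring
      _ ≤ Cf * (1 + 1 * (1 + (s : ℝ)) ^ 2) := by gcongr
      _ = _ := by ring
  have hwbN : (wb I.t k : ℝ) ≤ Real.sqrt N := by
    apply Real.le_sqrt_of_sq_le
    have h1 : (wb I.t k : ℝ) ≤ w := by exact_mod_cast wb_le I.t k
    have h2 : ((w : ℝ)) ^ 2 ≤ N := by exact_mod_cast hNw
    nlinarith
  have hsN : (s : ℝ) ≤ 4 * (Nat.clog 2 N : ℝ) := by
    have : s ≤ 4 * Nat.clog 2 N := by omega
    exact_mod_cast this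
  have hNr : (1 : ℝ) < N := by exact_mod_cast hN1
  have hquart : Real.sqrt (1 + wb I.t k) ≤ 1 + (N : ℝ) ^ (1 / 4 : ℝ) := by
    rw [Real.sqrt_le_left (by positivity)]
    have h7 : (N : ℝ) ^ (1 / 4 : ℝ) * (N : ℝ) ^ (1 / 4 : ℝ) = Real.sqrt N := by
      rw [← Real.rpow_add (by linarith), Real.sqrt_eq_rpow]
      norm_num
    have h8 : 0 ≤ (N : ℝ) ^ (1 / 4 : ℝ) := by positivity
    nlinarith
  have hsq := s7_sqrt_split (wb I.t k) s hwb0 hs0
  have hkey := s7_clog_N N hN1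
  set L : ℝ := (Nat.clog 2 N : ℝ) with hL
  have hL0 : 0 ≤ L := by rw [hL]; positivity
  have hq1 : (1 : ℝ) ≤ 1 + (N : ℝ) ^ (1 / 4 : ℝ) := by
    have : 0 ≤ (N : ℝ) ^ (1 / 4 : ℝ) := by positivity
    linarith
  have b1 : (1 + (s : ℝ)) ^ 2 ≤ (1 + 4 * L) ^ 2 := pow_le_pow_left₀ (by positivity) (by linarith) 2
  have b2 : (1 + (s : ℝ)) * Real.sqrt (1 + wb I.t k + s) ≤ 10 ^ 7 * Real.sqrt N := by
    calc (1 + (s : ℝ)) * Real.sqrt (1 + wb I.t k + s)
        ≤ (1 + (s : ℝ)) * (Real.sqrt (1 + wb I.t k) * (1 + s)) := by gcongr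
      _ = (1 + (s : ℝ)) ^ 2 * Real.sqrt (1 + wb I.t k) := by ring
      _ ≤ (1 + 4 * L) ^ 2 * (1 + (N : ℝ) ^ (1 / 4 : ℝ)) := by
          apply mul_le_mul b1 hquart (Real.sqrt_nonneg _) (by positivity)
      _ ≤ _ := hkey
  have b3 : (1 + (s : ℝ)) ^ 2 ≤ 10 ^ 7 * Real.sqrt N := by
    calc (1 + (s : ℝ)) ^ 2 ≤ (1 + 4 * L) ^ 2 * 1 := by linarith
      _ ≤ (1 + 4 * L) ^ 2 * (1 + (N : ℝ) ^ (1 / 4 : ℝ)) := by gcongr
      _ ≤ _ := hkey
  have b4 : 1 ≤ Real.sqrt N := by rw [Real.one_le_sqrt]; exact hNr.le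
  have hcard : (T.card : ℝ) ≤ Cr * Real.sqrt N := by
    have hCf : (Cf : ℝ) = 10 ^ 9 := rfl
    have hCr : (Cr : ℝ) = 10 ^ 30 := rfl
    rw [hCf] at hphi
    rw [hCr]
    have c1 : 15000 * (1 + (s : ℝ)) * Real.sqrt (1 + wb I.t k + s)
        = 15000 * ((1 + (s : ℝ)) * Real.sqrt (1 + wb I.t k + s)) := by ring
    linarith
  calc ∑ i ∈ T, ‖proj (GS I.t (k + 1) g) (I.v i)‖ ≤ ∑ i ∈ T, (1 : ℝ) :=
        Finset.sum_le_sum (fun i _ => s7_proj_norm_le_one I _ i)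
    _ = (T.card : ℝ) := by simp
    _ ≤ _ := hcard

/-- `ℓ¹` bound for the new merged group -/
theorem s7_l1_merged (k : ℕ) (X : Finset ι)
    (c : ι → ℕ) (m : ℕ)
    (hF : ∀ g ∈ grps k, ∑ i ∈ X, ff I k g i ≤ phi I.t k g)
    (hfun : ∑ i ∈ X with c i = m, ff I (k + 1) (k + 1, 2) i
      ≤ (51 / 50) * (2 : ℝ) ^ (-(ww I.t k : ℝ)) * ∑ i ∈ X, ff I (k + 1) (k + 1, 2) i
        + 15000 * (1 + age I.t k (k + 1, 2)) * Real.sqrt (1 + wb I.t k + age I.t k (k + 1, 2)))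
    (T : Finset ι) (hT : ∀ i ∈ T, i ∈ X ∧ c i = m ∧ gran I (k + 1) (k + 1, 2) i) :
    ∑ i ∈ T, ‖proj (GS I.t (k + 1) (k + 1, 2)) (I.v i)‖ ≤ Cr * Real.sqrt (NN I.t (k + 1)) := by
  classical
  have hnum := (s7_number I k X c m _ T hT).trans hfun
  have h1 := s4_merged I k X hF
  have hage0 : age I.t k (k + 1, 2) = 0 := by simp [age]
  rw [hage0] at hnum
  simp only [Nat.cast_zero, add_zero, mul_one] at hnum
  have hGS := (GS_new I.t k).2.2
  by_cases hempty : ∃ b, absb I.t b k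
  · obtain ⟨b, hb⟩ := hempty
    obtain ⟨hw64, hwbw⟩ := absb_ww I.t hb
    have hNN : 4096 * wb I.t k ≤ NN I.t (k + 1) := by
      have := NN_ge_wc I.t (k + 1)
      simpa [wc] using this
    have hNNr : (4096 : ℝ) * wb I.t k ≤ NN I.t (k + 1) := by exact_mod_cast hNN
    have hwbr : (64 : ℝ) < wb I.t k := by
      rw [hwbw]; exact_mod_cast hw64
    have h2 : Real.sqrt (1 + wb I.t k) ≤ Real.sqrt (NN I.t (k + 1)) := by
      apply Real.sqrt_le_sqrt
      linarith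
    have h3 : 1 ≤ Real.sqrt (NN I.t (k + 1)) := by
      rw [Real.one_le_sqrt]; linarith
    have hcard : (T.card : ℝ) ≤ Cr * Real.sqrt (NN I.t (k + 1)) := by
      have hCf : (Cf : ℝ) = 10 ^ 9 := rfl
      have hCr : (Cr : ℝ) = 10 ^ 30 := rfl
      rw [hCf] at h1
      rw [hCr]
      linarith
    calc ∑ i ∈ T, ‖proj (GS I.t (k + 1) (k + 1, 2)) (I.v i)‖ ≤ ∑ i ∈ T, (1 : ℝ) :=
          Finset.sum_le_sum (fun i _ => s7_proj_norm_le_one I _ i)
      _ = (T.card : ℝ) := by simp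
      _ ≤ _ := hcard
  · have hJ : Jabs I.t k false ∪ Jabs I.t k true = ∅ := by
      rw [Finset.eq_empty_iff_forall_notMem]
      intro j hj
      apply hempty
      rcases Finset.mem_union.mp hj with hj | hj
      all_goals
        unfold Jabs at hj
        obtain ⟨b, hb, _⟩ := Finset.mem_biUnion.mp hj
        exact ⟨b, (Finset.mem_filter.mp hb).2⟩
    rw [hGS, hJ]
    have h2 : ∑ i ∈ T, ‖proj (∅ : Finset (Fin d)) (I.v i)‖ = 0 := by
      apply Finset.sum_eq_zero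
      intro i _
      rw [s4_proj_empty]
      simp
    rw [h2]
    unfold Cr
    positivity

theorem s7_GS_abs (k : ℕ) (g : Grp) (h : absb I.t g.1 k) (h2 : g.2 ≠ 2) :
    GS I.t (k + 1) g = ∅ := by
  obtain ⟨b, τ⟩ := g
  exact GS_succ_abs I.t h h2

theorem s7_GS_old (k : ℕ) (g : Grp) (hgk : g.1 ≤ k) (hab : ¬ (absb I.t g.1 k ∧ g.2 ≠ 2)) :
    GS I.t (k + 1) g = GS I.t k g := by
  obtain ⟨b, τ⟩ := g
  by_cases h2 : τ = 2
  · subst h2
    exact GS_succ_merged I.t hgk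
  · have hna : ¬ absb I.t b k := fun hh => hab ⟨hh, h2⟩
    exact GS_succ_base I.t hgk hna τ

theorem s7_GS_short (k : ℕ) (τ : Fin 3) (hτ : τ ≠ 2)
    (hcr' : ¬ critg I.t (k + 1) (k + 1, τ)) :
    GS I.t (k + 1) (k + 1, τ) = ∅ := by
  have hnc : ¬ crit I.t (k + 1) (k + 1) := fun hh => hcr' ⟨hτ, hh⟩
  have hs0 : sstar I.t (k + 1) = 0 := by
    by_contra hne
    apply hnc
    show Lev I.t (k + 1) < Lev I.t (k + 1) + sstar I.t (k + 1)
    omega
  have hN : NN I.t (k + 1) ≤ 1 := by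
    by_contra hcon
    have : 0 < Nat.clog 2 (NN I.t (k + 1)) := Nat.clog_pos (by norm_num) (by omega)
    unfold sstar at hs0
    omega
  have hLB : ¬ LB I.t (k + 1) := by
    intro hh
    have := NN_ge I.t hh
    omega
  have hnew := GS_new I.t k
  fin_cases τ
  · exact hnew.1.trans (PP_short I.t hLB false)
  · exact hnew.2.1.trans (PP_short I.t hLB true)
  · exact absurd rfl hτ

theorem s7_sum_empty (T : Finset ι) (G : Finset (Fin d)) (hG : G = ∅) :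
    ∑ i ∈ T, ‖proj G (I.v i)‖ = 0 := by
  subst hG
  apply Finset.sum_eq_zero
  intro i _
  rw [s4_proj_empty]
  simp

open Classical in
theorem s7_l1_all (k : ℕ) (X : Finset ι) (S : Grp → Finset ι)
    (κa κb : Grp → ι → ℝ) (c : ι → ℕ) (hG : GranOK I k X S κa κb) (m : ℕ)
    (hF : ∀ g ∈ grps k, ∑ i ∈ X, ff I k g i ≤ phi I.t k g)
    (g : Grp) (hg : g ∈ grps (k + 1))
    (hfun : ∑ i ∈ X with c i = m, ff I (k + 1) g i
      ≤ (51 / 50) * (2 : ℝ) ^ (-(ww I.t k : ℝ)) * ∑ i ∈ X, ff I (k + 1) g i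
        + 15000 * (1 + age I.t k g) * Real.sqrt (1 + wb I.t k + age I.t k g)) :
    ∑ i ∈ Snew I k X S c m g, ‖proj (GS I.t (k + 1) g) (I.v i)‖ ≤ RR I.t (k + 1) g := by
  by_cases hcr' : critg I.t (k + 1) g
  · unfold Snew
    rw [if_neg (fun hh => hh.2 hcr')]
    simpa using s7_RR_nonneg I.t (k + 1) g
  have hSn : Snew I k X S c m g
      = S g ∪ (X.filter (fun i => c i = m ∧ gran I (k + 1) g i)) := by
    unfold Snew
    rw [if_pos ⟨hg, hcr'⟩]
  rw [hSn]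
  set T0 := X.filter (fun i => c i = m ∧ gran I (k + 1) g i) with hT0
  have hT0' : ∀ i ∈ T0, i ∈ X ∧ c i = m ∧ gran I (k + 1) g i := by
    intro i hi
    rw [hT0, Finset.mem_filter] at hi
    exact hi
  have hsplit : ∑ i ∈ S g ∪ T0, ‖proj (GS I.t (k + 1) g) (I.v i)‖
      = ∑ i ∈ S g, ‖proj (GS I.t (k + 1) g) (I.v i)‖
        + ∑ i ∈ T0 \ S g, ‖proj (GS I.t (k + 1) g) (I.v i)‖ := by
    rw [← Finset.sum_union Finset.disjoint_sdiff, Finset.union_sdiff_self_eq_union]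
  by_cases hgk : g ∈ grps k
  · have hgk' : g.1 ≤ k := s7_mem_grps.mp hgk
    by_cases hab : absb I.t g.1 k ∧ g.2 ≠ 2
    · rw [s7_sum_empty I _ _ (s7_GS_abs I k g hab.1 hab.2)]
      exact s7_RR_nonneg I.t (k + 1) g
    · have hGS : GS I.t (k + 1) g = GS I.t k g := s7_GS_old I k g hgk' hab
      by_cases hcr : critg I.t k g
      · have hS : S g = ∅ := hG.critE g hgk hcr
        have hna : ¬ absb I.t g.1 k := fun hh => hab ⟨hh, hcr.1⟩
        rw [hS, Finset.empty_union]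
        exact (s7_l1_crit I k X c m g hgk hcr hcr' hna hGS (hF g hgk) hfun T0 hT0').trans
          (s7_RR_ge I.t (k + 1) g hcr')
      · rw [hsplit, s7_RR_succ I.t k g hgk hcr hcr']
        apply add_le_add
        · rw [hGS]
          exact hG.l1 g hgk
        · apply s7_l1_noncrit I k X S κa κb c hG m g hgk hcr hGS (hF g hgk) hfun
          · intro i hi
            exact hT0' i (Finset.mem_sdiff.mp hi).1
          · exact Finset.sdiff_disjoint
  · have hS : S g = ∅ := hG.offS g hgk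
    rw [hS, Finset.empty_union]
    have hb : g.1 = k + 1 := by
      have h1 := s7_mem_grps.mp hg
      have h2 : ¬ g.1 ≤ k := fun hh => hgk (s7_mem_grps.mpr hh)
      omega
    by_cases hτ : g.2 = 2
    · have hgg : g = (k + 1, 2) := Prod.ext hb hτ
      rw [hgg] at hfun hT0' hcr' ⊢
      have e1 := s7_l1_merged I k X c m hF hfun T0 hT0'
      have e2 := s7_RR_ge I.t (k + 1) ((k + 1, 2) : Grp) hcr'
      exact e1.trans e2
    · have hgg : g = (k + 1, g.2) := Prod.ext hb rfl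
      have hcr2 : ¬ critg I.t (k + 1) (k + 1, g.2) := by rwa [← hgg]
      have hGS : GS I.t (k + 1) g = ∅ := by
        rw [hgg]
        exact s7_GS_short I k g.2 hτ hcr2
      rw [s7_sum_empty I _ _ hGS]
      exact s7_RR_nonneg I.t (k + 1) _

/-- **S7a. Update of the granular data.** -/
theorem gran_update (k : ℕ) (X : Finset ι) (Ea Eb : Vec d) (S : Grp → Finset ι)
    (κa κb : Grp → ι → ℝ) (c : ι → ℕ) (yb yc : ℕ → Vec d)
    (h : StageOut I k X Ea Eb S c yb yc)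
    (hcov : CovOK I X (Lev I.t k) (alive I.t k))
    (hF : ∀ g ∈ grps k, ∑ i ∈ X, ff I k g i ≤ phi I.t k g)
    (hG : GranOK I k X S κa κb) (m : ℕ) (hm : m < MM I.t k) :
    GranOK I (k + 1) (X.filter (fun i => c i = m)) (Snew I k X S c m)
      (kapE I k X S κa κb c m) (kapE I k X S κa κb c (m + 1)) := by
  classical
  have hoff : ∀ g i, i ∉ Snew I k X S c m g → i ∉ S g := by
    intro g i hi
    by_cases hgc : g ∈ grps (k + 1) ∧ ¬ critg I.t (k + 1) g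
    · unfold Snew at hi
      rw [if_pos hgc] at hi
      exact fun h' => hi (Finset.mem_union_left _ h')
    · rw [s7_S_empty I k X S κa κb hG g hgc]
      simp
  constructor
  · exact fun g i => s7_kapE_bd I k X S κa κb c hG m hm.le g i
  · exact fun g i => s7_kapE_bd I k X S κa κb c hG (m + 1) hm g i
  · exact fun g i hi => s7_kapE_off I k X S κa κb c hG m g i (hoff g i hi)
  · exact fun g i hi => s7_kapE_off I k X S κa κb c hG (m + 1) g i (hoff g i hi)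
  · -- signa
    intro g i hi
    obtain ⟨hiX, hci⟩ := Finset.mem_filter.mp hi
    by_cases hiS : i ∈ S g
    · unfold kapE
      split_ifs with h0 h1
      · exact hG.signa g i hiX
      · omega
      · unfold kap
        obtain ⟨t0, t1⟩ := s7_theta I.t k m hm.le
        have ha := hG.signa g i hiX
        have hb := (abs_le.mp (hG.bdb g i)).2
        rw [if_pos ⟨hiX, hiS⟩, if_neg (by omega)]
        set θ := (m : ℝ) / MM I.t k
        nlinarith
    · rw [s7_kapE_off I k X S κa κb c hG m g i hiS]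
  · -- signb
    intro g i hi
    obtain ⟨hiX, hci⟩ := Finset.mem_filter.mp hi
    by_cases hiS : i ∈ S g
    · rcases eq_or_ne (m + 1) (MM I.t k) with h1 | h1
      · unfold kapE
        rw [if_neg (by omega), if_pos h1]
        exact hG.signb g i hiX
      · unfold kapE
        rw [if_neg (by omega), if_neg h1]
        unfold kap
        obtain ⟨t0, t1⟩ := s7_theta I.t k (m + 1) hm
        have ha := (abs_le.mp (hG.bda g i)).1
        have hb := hG.signb g i hiX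
        rw [if_pos ⟨hiX, hiS⟩, if_pos (by omega)]
        set θ := ((m + 1 : ℕ) : ℝ) / MM I.t k
        nlinarith
    · rw [s7_kapE_off I k X S κa κb c hG (m + 1) g i hiS]
  · intro g hg hcr
    unfold Snew
    rw [if_neg (fun hh => hh.2 hcr)]
  · intro g hg
    unfold Snew
    rw [if_neg (fun hh => hg hh.1)]
  · intro g hg i hi hgr
    obtain ⟨hiX, hci⟩ := Finset.mem_filter.mp hi
    unfold Snew
    rw [if_pos ⟨hg, hgr.1⟩]
    apply Finset.mem_union_right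
    rw [Finset.mem_filter]
    exact ⟨hiX, hci, hgr⟩
  · exact fun g hg => s7_l1_all I k X S κa κb c hG m hF g hg (h.func m hm g hg)

theorem s7_GV_succ (k : ℕ) (S : Grp → Finset ι) (κ : Grp → ι → ℝ)
    (hoff : ∀ g i, i ∉ S g → κ g i = 0)
    (hoffS : ∀ g, g ∉ grps k → S g = ∅)
    (hcrE : ∀ g ∈ grps k, critg I.t k g → S g = ∅) : GV I (k + 1) κ = GV I k κ := by
  unfold GV
  have hsub : grps k ⊆ grps (k + 1) := by
    intro g hg
    rw [s7_mem_grps] at hg ⊢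
    omega
  rw [← Finset.sum_subset hsub]
  · apply Finset.sum_congr rfl
    intro g hg
    have hgk : g.1 ≤ k := s7_mem_grps.mp hg
    by_cases hab : absb I.t g.1 k ∧ g.2 ≠ 2
    · have hcr : critg I.t k g := ⟨hab.2, hab.1.2.1⟩
      have hS := hcrE g hg hcr
      have h0 : ∀ i, κ g i = 0 := fun i => hoff g i (by rw [hS]; simp)
      apply Finset.sum_congr rfl
      intro i _
      rw [h0 i, zero_smul, zero_smul]
    · have hGS : GS I.t (k + 1) g = GS I.t k g := by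
        by_cases h2 : g.2 = 2
        · have : g = (g.1, 2) := by rw [← h2]
          rw [this]
          exact GS_succ_merged I.t hgk
        · have hna : ¬ absb I.t g.1 k := fun hh => hab ⟨hh, h2⟩
          exact GS_succ_base I.t hgk hna g.2
      rw [hGS]
  · intro g _ hg
    have hS := hoffS g hg
    apply Finset.sum_eq_zero
    intro i _
    rw [hoff g i (by rw [hS]; simp), zero_smul]

/-- **S7b.** the granular vector at stage `k+1` (same coefficients) -/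
theorem GV_succ (k : ℕ) (X : Finset ι) (S : Grp → Finset ι) (κa κb : Grp → ι → ℝ)
    (hG : GranOK I k X S κa κb) : GV I (k + 1) κa = GV I k κa ∧ GV I (k + 1) κb = GV I k κb :=
  ⟨s7_GV_succ I k S κa hG.offa hG.offS hG.critE, s7_GV_succ I k S κb hG.offb hG.offS hG.critE⟩

/-- a coordinate of `GV` -/
theorem s7_GV_coord (k : ℕ) (κ : Grp → ι → ℝ) (g : Grp) (hg : g ∈ grps k) (j : Fin d)
    (hj : j ∈ GS I.t k g) : (GV I k κ) j = ∑ i, κ g i * I.v i j := by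
  have h1 : (GV I k κ) j = ∑ g' ∈ grps k, ∑ i, κ g' i * (proj (GS I.t k g') (I.v i)) j := by
    unfold GV
    simp [WithLp.ofLp_sum, Finset.sum_apply]
  rw [h1, Finset.sum_eq_single g]
  · apply Finset.sum_congr rfl
    intro i _
    rw [s4_proj_apply, if_pos hj]
  · intro g' hg' hne
    apply Finset.sum_eq_zero
    intro i _
    have hd := GS_disjoint I.t hne hg' hg
    have : j ∉ GS I.t k g' := fun hh => (Finset.disjoint_left.mp hd hh) hj
    rw [s4_proj_apply, if_neg this, mul_zero]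
  · intro hh
    exact absurd hg hh

/-- **S7c.** coordinates of `E_m - GV` on the passed groups -/
theorem passed_coord (k : ℕ) (X : Finset ι) (Ea Eb : Vec d) (S : Grp → Finset ι)
    (κa κb : Grp → ι → ℝ) (c : ι → ℕ) (hG : GranOK I k X S κa κb)
    (hEb : Eb = Ea + ∑ i ∈ X, I.v i) (m : ℕ) (hm1 : 1 ≤ m) (hm : m < MM I.t k)
    (g : Grp) (hg : g ∈ grps (k + 1)) (j : Fin d) (hj : j ∈ GS I.t (k + 1) g) :
    (Ea + ∑ i ∈ X with c i < m, I.v i - GV I (k + 1) (kap I k X S κa κb c m)) j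
      = (1 - (m : ℝ) / MM I.t k) * (Ea - GV I k κa) j + (m : ℝ) / MM I.t k * (Eb - GV I k κb) j
        + gt I k X S c m g j := by
  classical
  set θ := (m : ℝ) / MM I.t k with hθ
  obtain ⟨ga, gb⟩ := GV_succ I k X S κa κb hG
  rw [← ga, ← gb]
  have e1 := s7_GV_coord I (k + 1) (kap I k X S κa κb c m) g hg j hj
  have e2 := s7_GV_coord I (k + 1) κa g hg j hj
  have e3 := s7_GV_coord I (k + 1) κb g hg j hj
  have e4 : (∑ i ∈ X with c i < m, I.v i) j = ∑ i ∈ X, (if c i < m then (1 : ℝ) else 0) * I.v i j := by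
    rw [WithLp.ofLp_sum, Finset.sum_apply, Finset.sum_filter]
    apply Finset.sum_congr rfl
    intro i _
    split_ifs <;> simp
  have e5 : Eb j = Ea j + ∑ i ∈ X, I.v i j := by
    rw [hEb]
    simp [WithLp.ofLp_sum, Finset.sum_apply]
  have e6 : gt I k X S c m g j = ∑ i ∈ X \ S g, ((if c i < m then (1 : ℝ) else 0) - θ) * I.v i j := by
    unfold gt
    rw [WithLp.ofLp_sum, Finset.sum_apply]
    apply Finset.sum_congr rfl
    intro i _
    simp only [PiLp.smul_apply, smul_eq_mul]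
    rw [s4_proj_apply, if_pos hj]
  have e7 : ∑ i, kap I k X S κa κb c m g i * I.v i j
      = (1 - θ) * (∑ i, κa g i * I.v i j) + θ * (∑ i, κb g i * I.v i j)
        + ∑ i ∈ X ∩ S g, ((if c i < m then (1 : ℝ) else 0) - θ) * I.v i j := by
    have : ∑ i ∈ X ∩ S g, ((if c i < m then (1 : ℝ) else 0) - θ) * I.v i j
        = ∑ i, (if i ∈ X ∧ i ∈ S g then ((if c i < m then (1 : ℝ) else 0) - θ) else 0) * I.v i j := by
      rw [← Finset.sum_subset (Finset.subset_univ (X ∩ S g))]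
      · apply Finset.sum_congr rfl
        intro i hi
        rw [if_pos (Finset.mem_inter.mp hi)]
      · intro i _ hi
        rw [if_neg (fun hh => hi (Finset.mem_inter.mpr hh)), zero_mul]
    rw [this, Finset.mul_sum, Finset.mul_sum, ← Finset.sum_add_distrib, ← Finset.sum_add_distrib]
    apply Finset.sum_congr rfl
    intro i _
    unfold kap
    ring
  have e8 : ∑ i ∈ X, ((if c i < m then (1 : ℝ) else 0) - θ) * I.v i j
      = ∑ i ∈ X ∩ S g, ((if c i < m then (1 : ℝ) else 0) - θ) * I.v i j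
        + ∑ i ∈ X \ S g, ((if c i < m then (1 : ℝ) else 0) - θ) * I.v i j := by
    rw [← Finset.sum_inter_add_sum_sdiff X (S g)]
  have e9 : ∑ i ∈ X, ((if c i < m then (1 : ℝ) else 0) - θ) * I.v i j
      = ∑ i ∈ X, (if c i < m then (1 : ℝ) else 0) * I.v i j - θ * ∑ i ∈ X, I.v i j := by
    rw [Finset.mul_sum, ← Finset.sum_sub_distrib]
    apply Finset.sum_congr rfl
    intro i _
    ring
  have l1 : (Ea + ∑ i ∈ X with c i < m, I.v i - GV I (k + 1) (kap I k X S κa κb c m)) j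
      = Ea j + (∑ i ∈ X with c i < m, I.v i) j - (GV I (k + 1) (kap I k X S κa κb c m)) j := by
    simp
  have l2 : (Ea - GV I (k + 1) κa) j = Ea j - (GV I (k + 1) κa) j := by simp
  have l3 : (Eb - GV I (k + 1) κb) j = Eb j - (GV I (k + 1) κb) j := by simp
  rw [l1, l2, l3, e4, e5, e6, e1, e2, e3, e7]
  linarith

/-- **S7d.** `GV` vanishes on alive coordinates -/
theorem GV_alive (k : ℕ) (κ : Grp → ι → ℝ) (j : Fin d) (hj : j ∈ alive I.t k) :
    GV I k κ j = 0 := by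
  have h1 : (GV I k κ) j = ∑ g' ∈ grps k, ∑ i, κ g' i * (proj (GS I.t k g') (I.v i)) j := by
    unfold GV
    simp [WithLp.ofLp_sum, Finset.sum_apply]
  rw [h1]
  apply Finset.sum_eq_zero
  intro g _
  apply Finset.sum_eq_zero
  intro i _
  have : j ∉ GS I.t k g := fun hh => (Finset.disjoint_left.mp (GS_disjoint_alive I.t) hh) hj
  rw [s4_proj_apply, if_neg this, mul_zero]

end Vale.Agent.P262B
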