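import Vale.Agent.P262B.N2

open scoped BigOperators RealInnerProductSpace
open Finset

namespace Vale.Agent.P262B

variable {d : ℕ} {ι : Type} [Fintype ι] [DecidableEq ι] (I : Inst d ι)

theorem s8_inner (x v : Vec d) : ⟪x, v⟫ = ∑ j, x j * v j := by
  rw [PiLp.inner_apply]
  apply Finset.sum_congr rfl
  intro j _
  simp [mul_comm]

theorem s8_inner_on (AL : Finset (Fin d)) (x v : Vec d) (hx : ∀ j, x j ≠ 0 → j ∈ AL) :
    ⟪x, v⟫ = ∑ j ∈ AL, x j * v j := by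
  rw [s8_inner]
  symm
  apply Finset.sum_subset (Finset.subset_univ _)
  intro j _ hj
  have : x j = 0 := by
    by_contra h
    exact hj (hx j h)
  rw [this, zero_mul]

theorem s8_inner_sq (AL : Finset (Fin d)) (x v : Vec d) (hx : ∀ j, x j ≠ 0 → j ∈ AL) :
    ⟪x, v⟫ ^ 2 = ∑ j ∈ AL, ∑ j' ∈ AL, x j * x j' * (v j * v j') := by
  rw [s8_inner_on AL x v hx, sq, Finset.sum_mul_sum]
  apply Finset.sum_congr rfl
  intro j _
  apply Finset.sum_congr rfl
  intro j' _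
  ring

omit [Fintype ι] [DecidableEq ι] in
theorem s8_quad (AL : Finset (Fin d)) (x : Vec d) (hx : ∀ j, x j ≠ 0 → j ∈ AL)
    (Y : Finset ι) (a : ι → ℝ) (v : ι → Vec d) :
    ∑ i ∈ Y, a i * ⟪x, v i⟫ ^ 2
      = ∑ j ∈ AL, ∑ j' ∈ AL, x j * x j' * ∑ i ∈ Y, a i * (v i j * v i j') := by
  have h1 : ∀ i ∈ Y, a i * ⟪x, v i⟫ ^ 2
      = ∑ j ∈ AL, ∑ j' ∈ AL, a i * (x j * x j' * (v i j * v i j')) := by
    intro i _
    rw [s8_inner_sq AL x (v i) hx, Finset.mul_sum]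
    apply Finset.sum_congr rfl
    intro j _
    rw [Finset.mul_sum]
  rw [Finset.sum_congr rfl h1, Finset.sum_comm]
  apply Finset.sum_congr rfl
  intro j _
  rw [Finset.sum_comm]
  apply Finset.sum_congr rfl
  intro j' _
  rw [Finset.mul_sum]
  apply Finset.sum_congr rfl
  intro i _
  ring

/-- weighted Cauchy–Schwarz for a quadratic form -/
theorem s8_cs (AL : Finset (Fin d)) (x : Fin d → ℝ) (N : Fin d → Fin d → ℝ) (p : Fin d → ℝ)
    (hp : ∀ j, 0 < p j) :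
    (∑ j ∈ AL, ∑ j' ∈ AL, x j * x j' * N j j') ^ 2
      ≤ (∑ j ∈ AL, ∑ j' ∈ AL, (N j j') ^ 2 * (1 / (p j * p j') ^ 2))
        * (∑ j ∈ AL, x j ^ 2 * p j ^ 2) ^ 2 := by
  have h1 : ∑ j ∈ AL, ∑ j' ∈ AL, x j * x j' * N j j'
      = ∑ q ∈ AL ×ˢ AL, (N q.1 q.2 / (p q.1 * p q.2)) * (x q.1 * x q.2 * (p q.1 * p q.2)) := by
    rw [Finset.sum_product]
    apply Finset.sum_congr rfl
    intro j _
    apply Finset.sum_congr rfl
    intro j' _
    have := (hp j).ne'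
    have := (hp j').ne'
    field_simp
  have h2 : ∑ j ∈ AL, ∑ j' ∈ AL, (N j j') ^ 2 * (1 / (p j * p j') ^ 2)
      = ∑ q ∈ AL ×ˢ AL, (N q.1 q.2 / (p q.1 * p q.2)) ^ 2 := by
    rw [Finset.sum_product]
    apply Finset.sum_congr rfl
    intro j _
    apply Finset.sum_congr rfl
    intro j' _
    rw [div_pow]
    ring
  have h3 : (∑ j ∈ AL, x j ^ 2 * p j ^ 2) ^ 2
      = ∑ q ∈ AL ×ˢ AL, (x q.1 * x q.2 * (p q.1 * p q.2)) ^ 2 := by
    rw [Finset.sum_product, sq, Finset.sum_mul_sum]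
    apply Finset.sum_congr rfl
    intro j _
    apply Finset.sum_congr rfl
    intro j' _
    ring
  rw [h1, h2, h3]
  exact Finset.sum_mul_sq_le_sq_mul_sq _ _ _

theorem s8_rhalf {w : ℕ} (hw : 1 ≤ w) : (2 : ℝ) ^ (-(w : ℝ) / 2) ≤ 0.7072 := by
  have h1 : (2 : ℝ) ^ (-(w : ℝ) / 2) ≤ (2 : ℝ) ^ (-(1 : ℝ) / 2) := by
    apply Real.rpow_le_rpow_of_exponent_le (by norm_num)
    have : (1 : ℝ) ≤ w := by exact_mod_cast hw
    linarith
  refine h1.trans ?_
  have h2 : (2 : ℝ) ^ (-(1 : ℝ) / 2) * (2 : ℝ) ^ (-(1 : ℝ) / 2) = 1 / 2 := by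
    rw [← Real.rpow_add (by norm_num)]
    norm_num
  have h3 : (0 : ℝ) < (2 : ℝ) ^ (-(1 : ℝ) / 2) := by positivity
  by_contra h
  push Not at h
  nlinarith

/-- **S8. Update of the covariance control.** -/
theorem cov_update (k : ℕ) (X : Finset ι) (Ea Eb : Vec d) (S : Grp → Finset ι)
    (c : ι → ℕ) (yb yc : ℕ → Vec d) (h : StageOut I k X Ea Eb S c yb yc)
    (hcov : CovOK I X (Lev I.t k) (alive I.t k)) (m : ℕ) (hm : m < MM I.t k) :
    CovOK I (X.filter (fun i => c i = m)) (Lev I.t (k + 1)) (alive I.t (k + 1)) := by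
  intro l hl x hx
  obtain ⟨M, hM⟩ : ∃ M : ℝ, M = (MM I.t k : ℝ) := ⟨_, rfl⟩
  obtain ⟨w, hw⟩ : ∃ w : ℕ, w = ww I.t k := ⟨_, rfl⟩
  obtain ⟨T', hT'⟩ : ∃ T' : ℝ, T' = (Lev I.t (k + 1) : ℝ) := ⟨_, rfl⟩
  obtain ⟨T, hT⟩ : ∃ T : ℝ, T = (Lev I.t k : ℝ) := ⟨_, rfl⟩
  have hw1 : 1 ≤ w := by rw [hw]; exact ww_pos I.t k
  have hMw : M = (2 : ℝ) ^ (w : ℝ) := by
    rw [hM, hw]; unfold MM; push_cast; rw [Real.rpow_natCast]
  have hMpos : 0 < M := by rw [hMw]; positivity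
  have hTT : T' = T + w := by
    rw [hT', hT, hw, Lev_succ I.t k]; push_cast; ring
  have hw0 : (0 : ℝ) ≤ w := by positivity
  obtain ⟨D', hD'⟩ : ∃ D' : ℝ, D' = ∑ j, (2 : ℝ) ^ (I.t j - T') * x j ^ 2 := ⟨_, rfl⟩
  have hD'0 : 0 ≤ D' := by
    rw [hD']
    exact Finset.sum_nonneg (fun j _ => by positivity)
  have hDM : ∑ j, (2 : ℝ) ^ (I.t j - T) * x j ^ 2 = M * D' := by
    rw [hD', hMw, Finset.mul_sum]
    apply Finset.sum_congr rfl
    intro j _
    rw [← mul_assoc, ← Real.rpow_add (by norm_num)]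
    congr 2
    rw [hTT]; ring
  have hxA : ∀ j, x j ≠ 0 → j ∈ alive I.t (k + 1) := fun j hj => (hx j hj).1
  obtain ⟨q, hq⟩ : ∃ q : ℝ, q = (2 : ℝ) ^ (-(l - T') / 2) := ⟨_, rfl⟩
  have hq0 : 0 < q := by rw [hq]; positivity
  rw [← hT'] at hl
  have h1 := hcov l (by rw [← hT]; linarith) x
    (fun j hj => ⟨alive_succ_subset I.t k (hx j hj).1, (hx j hj).2⟩)
  rw [← hT] at h1
  rw [hDM] at h1
  obtain ⟨A, hA⟩ : ∃ A : ℝ, A = ∑ i ∈ X, ⟪x, I.v i⟫ ^ 2 := ⟨_, rfl⟩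
  rw [← hA] at h1
  have hqT : (2 : ℝ) ^ (-(l - T) / 2) ≤ 0.7072 * q := by
    have : (2 : ℝ) ^ (-(l - T) / 2) = (2 : ℝ) ^ (-(w : ℝ) / 2) * q := by
      rw [hq, ← Real.rpow_add (by norm_num)]
      congr 1
      rw [hTT]; ring
    rw [this]
    exact mul_le_mul_of_nonneg_right (s8_rhalf hw1) hq0.le
  have hqT1 : (2 : ℝ) ^ (-(l - T) / 2) ≤ 1 := by
    apply Real.rpow_le_one_of_one_le_of_nonpos (by norm_num)
    linarith
  have hMD : 0 ≤ M * D' := mul_nonneg hMpos.le hD'0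
  -- first term
  have e1 : |1 / M * A - D'| ≤ 0.1768 * q * D' := by
    have : 1 / M * A - D' = 1 / M * (A - M * D') := by field_simp
    rw [this, abs_mul, abs_of_pos (by positivity : (0 : ℝ) < 1 / M)]
    have h2 : |A - M * D'| ≤ 1 / 4 * (0.7072 * q) * (M * D') := by
      refine h1.trans ?_
      apply mul_le_mul_of_nonneg_right _ hMD
      linarith
    calc 1 / M * |A - M * D'| ≤ 1 / M * (1 / 4 * (0.7072 * q) * (M * D')) :=
          mul_le_mul_of_nonneg_left h2 (by positivity)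
      _ = 0.1768 * q * D' := by field_simp; ring
  -- bounds
  have hA54 : A ≤ 5 / 4 * (M * D') := by
    have h2 := (abs_le.mp h1).2
    have h3 : 1 / 4 * (2 : ℝ) ^ (-(l - T) / 2) * (M * D') ≤ 1 / 4 * (M * D') := by
      apply mul_le_mul_of_nonneg_right _ hMD
      linarith
    linarith
  have hA0 : 0 ≤ A := by rw [hA]; exact Finset.sum_nonneg (fun i _ => sq_nonneg _)
  have hq2 : q * q = (2 : ℝ) ^ (-(l - T')) := by
    rw [hq, ← Real.rpow_add (by norm_num)]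
    congr 1; ring
  have hxn : ‖x‖ ^ 2 ≤ q * q * D' := by
    rw [EuclideanSpace.real_norm_sq_eq, hD', Finset.mul_sum]
    apply Finset.sum_le_sum
    intro j _
    by_cases hj : x j = 0
    · rw [hj]; simp
    · have h2 := (hx j hj).2
      have h3 : 1 ≤ q * q * (2 : ℝ) ^ (I.t j - T') := by
        rw [hq2, ← Real.rpow_add (by norm_num)]
        apply Real.one_le_rpow (by norm_num)
        linarith
      calc x j ^ 2 = 1 * x j ^ 2 := by ring
        _ ≤ (q * q * (2 : ℝ) ^ (I.t j - T')) * x j ^ 2 :=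
            mul_le_mul_of_nonneg_right h3 (sq_nonneg _)
        _ = _ := by ring
  have hin : ∀ i, ⟪x, I.v i⟫ ^ 2 ≤ q * q * D' := by
    intro i
    have h2 := abs_real_inner_le_norm x (I.v i)
    have h3 : |⟪x, I.v i⟫| ≤ ‖x‖ := by
      refine h2.trans ?_
      have := mul_le_mul_of_nonneg_left (I.hv i) (norm_nonneg x)
      linarith
    calc ⟪x, I.v i⟫ ^ 2 = |⟪x, I.v i⟫| ^ 2 := by rw [sq_abs]
      _ ≤ ‖x‖ ^ 2 := by
          apply pow_le_pow_left₀ (abs_nonneg _) h3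
      _ ≤ _ := hxn
  -- second term
  have e2 : |∑ i ∈ X, ⟪yc m, I.v i⟫ * ⟪x, I.v i⟫ ^ 2| ≤ 0.0016 * q * D' := by
    have h2 := Finset.sum_mul_sq_le_sq_mul_sq X (fun i => ⟪yc m, I.v i⟫)
      (fun i => ⟪x, I.v i⟫ ^ 2)
    have h3 := h.enc m hm
    rw [← hM] at h3
    have h4 : ∑ i ∈ X, (⟪x, I.v i⟫ ^ 2) ^ 2 ≤ q * q * D' * (5 / 4 * (M * D')) := by
      calc ∑ i ∈ X, (⟪x, I.v i⟫ ^ 2) ^ 2 ≤ ∑ i ∈ X, q * q * D' * ⟪x, I.v i⟫ ^ 2 := by
            apply Finset.sum_le_sum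
            intro i _
            rw [sq (⟪x, I.v i⟫ ^ 2)]
            exact mul_le_mul_of_nonneg_right (hin i) (sq_nonneg _)
        _ = q * q * D' * A := by rw [← Finset.mul_sum, hA]
        _ ≤ _ := mul_le_mul_of_nonneg_left hA54 (by positivity)
    have h5 : (∑ i ∈ X, ⟪yc m, I.v i⟫ * ⟪x, I.v i⟫ ^ 2) ^ 2 ≤ (0.0016 * q * D') ^ 2 := by
      have hY := YY_small I.t k
      have hY0 := YY_nonneg I.t k
      calc (∑ i ∈ X, ⟪yc m, I.v i⟫ * ⟪x, I.v i⟫ ^ 2) ^ 2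
          ≤ (∑ i ∈ X, ⟪yc m, I.v i⟫ ^ 2) * ∑ i ∈ X, (⟪x, I.v i⟫ ^ 2) ^ 2 := h2
        _ ≤ (2 * YY I.t k / M) * (q * q * D' * (5 / 4 * (M * D'))) := by
            apply mul_le_mul h3 h4 (Finset.sum_nonneg (fun i _ => sq_nonneg _)) (by positivity)
        _ = YY I.t k * (5 / 2 * (q * q * D' * D')) := by field_simp; ring
        _ ≤ 1 / 10 ^ 6 * (5 / 2 * (q * q * D' * D')) :=
            mul_le_mul_of_nonneg_right hY (by positivity)
        _ ≤ (0.0016 * q * D') ^ 2 := by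
            have : 0 ≤ q * q * D' * D' := by positivity
            nlinarith
    exact abs_le_of_sq_le_sq h5 (by positivity)
  -- third term
  obtain ⟨N, hN⟩ : ∃ N : Fin d → Fin d → ℝ, N = fun j j' => ∑ i ∈ X with c i = m, I.v i j * I.v i j'
        - ∑ i ∈ X, (1 / (MM I.t k : ℝ) + ⟪yc m, I.v i⟫) * (I.v i j * I.v i j') := ⟨_, rfl⟩
  have e3 : |∑ j ∈ alive I.t (k + 1), ∑ j' ∈ alive I.t (k + 1), x j * x j' * N j j'|
      ≤ 0.04 * q * D' := by
    have h2 := s8_cs (alive I.t (k + 1)) x N (fun j => (2 : ℝ) ^ ((I.t j - T') / 4))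
      (fun j => by positivity)
    have h3 := h.covN m hm
    rw [← hT'] at h3
    have h4 : ∑ j ∈ alive I.t (k + 1), ∑ j' ∈ alive I.t (k + 1), (N j j') ^ 2 *
        (1 / ((2 : ℝ) ^ ((I.t j - T') / 4) * (2 : ℝ) ^ ((I.t j' - T') / 4)) ^ 2) ≤ 16 / 10 ^ 4 := by
      refine le_trans (le_of_eq ?_) h3
      apply Finset.sum_congr rfl
      intro j _
      apply Finset.sum_congr rfl
      intro j' _
      rw [hN]
      congr 1
      rw [← Real.rpow_add (by norm_num), ← Real.rpow_natCast, ← Real.rpow_mul (by norm_num),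
        one_div, ← Real.rpow_neg (by norm_num)]
      congr 1
      push_cast
      ring
    have h5 : ∑ j ∈ alive I.t (k + 1), x j ^ 2 * ((2 : ℝ) ^ ((I.t j - T') / 4)) ^ 2 ≤ q * D' := by
      rw [hD', Finset.mul_sum]
      calc ∑ j ∈ alive I.t (k + 1), x j ^ 2 * ((2 : ℝ) ^ ((I.t j - T') / 4)) ^ 2
          ≤ ∑ j, x j ^ 2 * ((2 : ℝ) ^ ((I.t j - T') / 4)) ^ 2 := by
            apply Finset.sum_le_sum_of_subset_of_nonneg (Finset.subset_univ _)
            intro j _ _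
            positivity
        _ ≤ _ := by
            apply Finset.sum_le_sum
            intro j _
            by_cases hj : x j = 0
            · rw [hj]; simp
            · have h6 := (hx j hj).2
              have h7 : ((2 : ℝ) ^ ((I.t j - T') / 4)) ^ 2 ≤ q * (2 : ℝ) ^ (I.t j - T') := by
                rw [hq, ← Real.rpow_natCast, ← Real.rpow_mul (by norm_num),
                  ← Real.rpow_add (by norm_num)]
                apply Real.rpow_le_rpow_of_exponent_le (by norm_num)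
                push_cast
                linarith
              calc x j ^ 2 * ((2 : ℝ) ^ ((I.t j - T') / 4)) ^ 2
                  ≤ x j ^ 2 * (q * (2 : ℝ) ^ (I.t j - T')) :=
                    mul_le_mul_of_nonneg_left h7 (sq_nonneg _)
                _ = _ := by ring
    have h50 : 0 ≤ ∑ j ∈ alive I.t (k + 1), x j ^ 2 * ((2 : ℝ) ^ ((I.t j - T') / 4)) ^ 2 :=
      Finset.sum_nonneg (fun j _ => by positivity)
    have h6 : (∑ j ∈ alive I.t (k + 1), ∑ j' ∈ alive I.t (k + 1), x j * x j' * N j j') ^ 2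
        ≤ (0.04 * q * D') ^ 2 := by
      calc _ ≤ _ := h2
        _ ≤ 16 / 10 ^ 4 * (q * D') ^ 2 := by
            apply mul_le_mul h4 _ (by positivity) (by positivity)
            apply pow_le_pow_left₀ h50 h5
        _ = (0.04 * q * D') ^ 2 := by ring
    exact abs_le_of_sq_le_sq h6 (by positivity)
  -- decomposition
  have hdec : ∑ i ∈ X with c i = m, ⟪x, I.v i⟫ ^ 2 - D'
      = (1 / M * A - D') + ∑ i ∈ X, ⟪yc m, I.v i⟫ * ⟪x, I.v i⟫ ^ 2
        + ∑ j ∈ alive I.t (k + 1), ∑ j' ∈ alive I.t (k + 1), x j * x j' * N j j' := by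
    have h2 := s8_quad (alive I.t (k + 1)) x hxA (X.filter (fun i => c i = m)) (fun _ => 1) I.v
    have h3 := s8_quad (alive I.t (k + 1)) x hxA X
      (fun i => 1 / (MM I.t k : ℝ) + ⟪yc m, I.v i⟫) I.v
    have h4 : ∑ j ∈ alive I.t (k + 1), ∑ j' ∈ alive I.t (k + 1), x j * x j' * N j j'
        = ∑ i ∈ X with c i = m, ⟪x, I.v i⟫ ^ 2
          - ∑ i ∈ X, (1 / (MM I.t k : ℝ) + ⟪yc m, I.v i⟫) * ⟪x, I.v i⟫ ^ 2 := by
      rw [h3]
      have h5 : ∑ i ∈ X with c i = m, ⟪x, I.v i⟫ ^ 2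
          = ∑ j ∈ alive I.t (k + 1), ∑ j' ∈ alive I.t (k + 1), x j * x j' *
            ∑ i ∈ X with c i = m, I.v i j * I.v i j' := by
        simpa only [one_mul] using h2
      rw [h5, ← Finset.sum_sub_distrib]
      apply Finset.sum_congr rfl
      intro j _
      rw [← Finset.sum_sub_distrib]
      apply Finset.sum_congr rfl
      intro j' _
      rw [hN]
      ring
    rw [h4]
    have h6 : ∑ i ∈ X, (1 / (MM I.t k : ℝ) + ⟪yc m, I.v i⟫) * ⟪x, I.v i⟫ ^ 2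
        = 1 / M * A + ∑ i ∈ X, ⟪yc m, I.v i⟫ * ⟪x, I.v i⟫ ^ 2 := by
      rw [hA, Finset.mul_sum, ← Finset.sum_add_distrib, hM]
      apply Finset.sum_congr rfl
      intro i _
      ring
    rw [h6]
    ring
  rw [← hT', ← hD', hdec, ← hq]
  have hqD : 0 ≤ q * D' := by positivity
  calc |(1 / M * A - D') + ∑ i ∈ X, ⟪yc m, I.v i⟫ * ⟪x, I.v i⟫ ^ 2
        + ∑ j ∈ alive I.t (k + 1), ∑ j' ∈ alive I.t (k + 1), x j * x j' * N j j'|
      ≤ |(1 / M * A - D')| + |∑ i ∈ X, ⟪yc m, I.v i⟫ * ⟪x, I.v i⟫ ^ 2|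
        + |∑ j ∈ alive I.t (k + 1), ∑ j' ∈ alive I.t (k + 1), x j * x j' * N j j'| :=
        (abs_add_le _ _).trans (add_le_add_left (abs_add_le _ _) _)
    _ ≤ 1 / 4 * q * D' := by nlinarith

end Vale.Agent.P262B
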