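import Vale.Agent.P262B.S3
import Vale.Agent.P262B.S4
import Vale.Agent.P262B.S5
import Vale.Agent.P262B.S6
import Vale.Agent.P262B.S7
import Vale.Agent.P262B.S8

open scoped BigOperators RealInnerProductSpace
open Finset

namespace Vale.Agent.P262B

variable {d : ℕ} {ι : Type} [Fintype ι] [DecidableEq ι] (I : Inst d ι)

theorem s9_MM_pos (t : Fin d → ℝ) (k : ℕ) : 0 < MM t k := by
  unfold MM; positivity

theorem s9_proj_apply (J : Finset (Fin d)) (x : Vec d) (j : Fin d) :
    proj J x j = if j ∈ J then x j else 0 := by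
  simp [proj]

theorem s9_norm_sq_eq (x : Vec d) : ‖x‖ ^ 2 = ∑ j, x j ^ 2 := by
  rw [EuclideanSpace.norm_sq_eq]
  simp

/-- the vector `gt` is supported on its group -/
theorem s9_gt_off (k : ℕ) (X : Finset ι) (S : Grp → Finset ι) (c : ι → ℕ) (m : ℕ) (g : Grp)
    (j : Fin d) (hj : j ∉ GS I.t (k + 1) g) : gt I k X S c m g j = 0 := by
  unfold gt
  simp [s9_proj_apply, hj]

theorem s9_gt_norm_sq (k : ℕ) (X : Finset ι) (S : Grp → Finset ι) (c : ι → ℕ) (m : ℕ) (g : Grp) :
    ‖gt I k X S c m g‖ ^ 2 = ∑ j ∈ GS I.t (k + 1) g, gt I k X S c m g j ^ 2 := by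
  rw [s9_norm_sq_eq]
  symm
  apply Finset.sum_subset (Finset.subset_univ _)
  intro j _ hj
  rw [s9_gt_off I k X S c m g j hj]
  simp

/-- potential at all boundaries -/
theorem pot_boundary (k : ℕ) (X : Finset ι) (Ea Eb : Vec d) (h : CellState I k X Ea Eb)
    (S : Grp → Finset ι) (κa κb : Grp → ι → ℝ) (hG : GranOK I k X S κa κb)
    (hPa : Pot I.t k (Ea - GV I k κa)) (hPb : Pot I.t k (Eb - GV I k κb))
    (c : ι → ℕ) (yb yc : ℕ → Vec d) (hO : StageOut I k X Ea Eb S c yb yc)
    (m : ℕ) (hm : m ≤ MM I.t k) :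
    Pot I.t (k + 1) (Ea + ∑ i ∈ X with c i < m, I.v i
      - GV I (k + 1) (kapE I k X S κa κb c m)) := by
  have hM := s9_MM_pos I.t k
  rcases Nat.eq_zero_or_pos m with rfl | hm0
  · have h1 : (∑ i ∈ X with c i < 0, I.v i) = 0 := by simp
    rw [h1, add_zero]
    have h2 : kapE I k X S κa κb c 0 = κa := by simp [kapE]
    rw [h2, (GV_succ I k X S κa κb hG).1]
    exact pot_old I.t k _ hPa
  rcases eq_or_lt_of_le hm with rfl | hmM
  · have h1 : X.filter (fun i => c i < MM I.t k) = X :=
      Finset.filter_true_of_mem (fun i hi => hO.cM i hi)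
    rw [h1, ← h.sum]
    have h2 : kapE I k X S κa κb c (MM I.t k) = κb := by
      simp [kapE, hM.ne']
    rw [h2, (GV_succ I k X S κa κb hG).2]
    exact pot_old I.t k _ hPb
  · have h2 : kapE I k X S κa κb c m = kap I k X S κa κb c m := by
      simp [kapE, hm0.ne', hmM.ne]
    rw [h2]
    set x' : Vec d := Ea + ∑ i ∈ X with c i < m, I.v i - GV I (k + 1) (kap I k X S κa κb c m)
      with hx'
    set θ : ℝ := (m : ℝ) / MM I.t k with hθ
    set xa : Vec d := Ea - GV I k κa with hxa
    set xb : Vec d := Eb - GV I k κb with hxb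
    have hMr : (0 : ℝ) < MM I.t k := by exact_mod_cast hM
    have hθ0 : 0 ≤ θ := by positivity
    have hθ1 : θ ≤ 1 := by
      rw [hθ, div_le_one hMr]
      exact_mod_cast hm
    -- alive coordinates
    have hal : ∀ j ∈ alive I.t (k + 1),
        x' j = (1 - θ) * (xa j - clipv I.t k xa j) + θ * (xb j - clipv I.t k xb j)
          + (cmb I X (uu I k c (yb m) m)) j := by
      intro j hj
      have hjk : j ∈ alive I.t k := alive_succ_subset I.t k hj
      have e1 : GV I (k + 1) (kap I k X S κa κb c m) j = 0 := GV_alive I (k + 1) _ j hj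
      have e2 : GV I k κa j = 0 := GV_alive I k _ j hjk
      have e3 : GV I k κb j = 0 := GV_alive I k _ j hjk
      have hxaj : xa j = Ea j := by simp [hxa, e2]
      have hxbj : xb j = Eb j := by simp [hxb, e3]
      have hca : clipv I.t k xa j = clipv I.t k Ea j := by simp [clipv, hxaj]
      have hcb : clipv I.t k xb j = clipv I.t k Eb j := by simp [clipv, hxbj]
      have hcan := hO.cancel m hm0 hmM j hj
      have hEbj : Eb j = Ea j + ∑ i ∈ X, I.v i j := by
        rw [h.sum]; simp
      have hcomb : (cmb I X (uu I k c (yb m) m)) j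
          = ∑ i ∈ X with c i < m, I.v i j - θ * ∑ i ∈ X, I.v i j
            + (cmb I X (fun i => ⟪yb m, I.v i⟫)) j := by
        simp only [cmb, uu]
        simp only [WithLp.ofLp_sum, Finset.sum_apply, PiLp.smul_apply, smul_eq_mul]
        rw [Finset.sum_filter, Finset.mul_sum, ← Finset.sum_sub_distrib, ← Finset.sum_add_distrib]
        apply Finset.sum_congr rfl
        intro i _
        split_ifs <;> simp [hθ] <;> ring
      have hx'j : x' j = Ea j + ∑ i ∈ X with c i < m, I.v i j := by
        simp [hx', e1]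
      rw [hx'j, hcomb, hcan, hca, hcb, hxaj, hxbj, hEbj]
      ring
    classical
    set gv : Vec d := WithLp.toLp 2 (fun j => if j ∈ alive I.t (k + 1) then
      (cmb I X (uu I k c (yb m) m)) j else x' j - ((1 - θ) * xa j + θ * xb j)) with hgv
    have hgv_al : ∀ j ∈ alive I.t (k + 1), gv j = (cmb I X (uu I k c (yb m) m)) j := by
      intro j hj; simp [hgv, hj]
    have hgv_pa : ∀ j ∉ alive I.t (k + 1), gv j = x' j - ((1 - θ) * xa j + θ * xb j) := by
      intro j hj; simp [hgv, hj]
    refine pot_update I.t k xa xb x' θ hθ0 hθ1 hPa hPb gv ?_ ?_ ?_ ?_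
    · intro j hj
      rw [hgv_pa j hj]; ring
    · intro j hj
      rw [hgv_al j hj]
      exact hal j hj
    · intro l
      have := hO.noiseA m hm0 hmM l
      refine le_trans (le_of_eq ?_) this
      apply Finset.sum_congr rfl
      intro j hj
      rw [hgv_al j (Finset.mem_filter.mp hj).1]
    · have hen := energy_bound I k X Ea Eb S c yb yc hO h.covX h.F hG.critE hG.offS hG.granS m
        hm0 hmM
      refine le_trans (le_of_eq ?_) hen
      apply Finset.sum_congr rfl
      intro g hg
      rw [s9_gt_norm_sq]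
      congr 1
      apply Finset.sum_congr rfl
      intro j hj
      have hjn : j ∉ alive I.t (k + 1) := by
        intro hj'
        exact (Finset.disjoint_left.mp (GS_disjoint_alive I.t (k := k + 1) (g := g))) hj hj'
      rw [hgv_pa j hjn]
      have hpc := passed_coord I k X Ea Eb S κa κb c hG h.sum m hm0 hmM g hg j hj
      have : x' j - ((1 - θ) * xa j + θ * xb j) = gt I k X S c m g j := by
        rw [hx', hpc]; ring
      rw [this]

/-- **S9. The step theorem.** -/
theorem step (k : ℕ) (X : Finset ι) (Ea Eb : Vec d) (h : CellState I k X Ea Eb) :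
    ∃ c : ι → ℕ, (∀ i ∈ X, c i < MM I.t k) ∧
      ∀ m < MM I.t k, CellState I (k + 1) (X.filter (fun i => c i = m))
        (Ea + ∑ i ∈ X with c i < m, I.v i) (Ea + ∑ i ∈ X with c i < m + 1, I.v i) := by
  obtain ⟨S, κa, κb, hG, hPa, hPb⟩ := h.ends
  obtain ⟨c, yb, yc, hO⟩ := stage_exists I k X Ea Eb h.covX h.F S hG.critE hG.granS
  refine ⟨c, hO.cM, fun m hm => ⟨?_, ?_, ?_, ?_, ?_⟩⟩
  · have : X.filter (fun i => c i < m + 1)
        = X.filter (fun i => c i < m) ∪ X.filter (fun i => c i = m) := by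
      ext i
      simp only [Finset.mem_filter, Finset.mem_union]
      constructor
      · rintro ⟨h1, h2⟩
        rcases Nat.lt_succ_iff_lt_or_eq.mp h2 with h3 | h3
        · exact Or.inl ⟨h1, h3⟩
        · exact Or.inr ⟨h1, h3⟩
      · rintro (⟨h1, h2⟩ | ⟨h1, h2⟩)
        · exact ⟨h1, by omega⟩
        · exact ⟨h1, by omega⟩
    rw [this, Finset.sum_union, add_assoc]
    rw [Finset.disjoint_filter]
    intro i _ h1 h2
    omega
  · exact cov_update I k X Ea Eb S c yb yc hO h.covX m hm
  · have h1 := hO.card m hm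
    have h2 := h.card
    have h3 : (0 : ℝ) ≤ (51 / 50) * (2 : ℝ) ^ (-(ww I.t k : ℝ)) := by positivity
    calc ((X.filter (fun i => c i = m)).card : ℝ)
        ≤ (51 / 50) * (2 : ℝ) ^ (-(ww I.t k : ℝ)) * X.card + 5000 * Real.sqrt (1 + wb I.t k) := h1
      _ ≤ (51 / 50) * (2 : ℝ) ^ (-(ww I.t k : ℝ)) * sz I.t (Fintype.card ι) k
          + 5000 * Real.sqrt (1 + wb I.t k) := by
          gcongr
      _ = sz I.t (Fintype.card ι) (k + 1) := rfl
  · exact func_update I k X Ea Eb S c yb yc hO h.covX h.F m hm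
  · exact ⟨Snew I k X S c m, kapE I k X S κa κb c m, kapE I k X S κa κb c (m + 1),
      gran_update I k X Ea Eb S κa κb c yb yc hO h.covX h.F hG m hm,
      pot_boundary I k X Ea Eb h S κa κb hG hPa hPb c yb yc hO m hm.le,
      pot_boundary I k X Ea Eb h S κa κb hG hPa hPb c yb yc hO (m + 1) hm⟩

end Vale.Agent.P262B
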